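import Crest.Agent.N337.W.TP2
import Crest.Agent.N337.Pc.PeelA

/-!
# Row 337, G4 (helper76): static Mecke bound for covering events with final cleanliness

`mecke` : if inserting a polymer that covers the first uncovered target has potential drift `≤ 1`,
the mass of the families that cover `X` is at most `∏_X θ⁻¹`.
`tpA` (`θ = 1`, marked alive loops), `tpB`, `tpL`, `tpW` (`θ = 2`, marked loops of the gas).
-/

set_option autoImplicit false
set_option linter.unusedSectionVars false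

namespace Crest.Agent.N337.G4

open Finset Crest.Agent.N337.Rep Crest.Agent.N337.LY0 Crest.Agent.N337.Gas Crest.Agent.N337.Bi
open Crest.Agent.N337.WN (ls Zg Fst)
open Crest.Agent.N337.Pc (bw mkE qP two hi)

section abs
variable {Γ ι : Type} [Fintype Γ] [DecidableEq Γ] [LinearOrder ι]

/-- `B` covers the targets `X`. -/
def Cvd (cov : Γ → Finset ι) (X : Finset ι) (B : Finset Γ) : Prop := ∀ x ∈ X, ∃ g ∈ B, x ∈ cov g

instance (cov : Γ → Finset ι) (X : Finset ι) : DecidablePred (Cvd cov X) := fun _ => by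
  unfold Cvd; infer_instance

/-- the potential gained by a polymer that covers `x`. -/
def pot (cov : Γ → Finset ι) (θ : ι → ℝ) (X : Finset ι) (x : ι) (g : Γ) : ℝ :=
  if x ∈ cov g then ∏ z ∈ X ∩ cov g, θ z else 0

variable {cov : Γ → Finset ι} {θ : ι → ℝ}

lemma pot_nn (hθ : ∀ z, 0 ≤ θ z) (X : Finset ι) (x : ι) (g : Γ) : 0 ≤ pot cov θ X x g := by
  unfold pot; split_ifs; exacts [prod_nonneg fun z _ => hθ z, le_rfl]

lemma sum_compl_comm (f : Finset Γ → Γ → ℝ) :
    ∑ B, ∑ g ∈ Bᶜ, f B g = ∑ g, ∑ B, if g ∈ B then 0 else f B g := by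
  rw [sum_comm (s := univ) (t := univ)]
  refine sum_congr rfl fun B _ => ?_
  rw [← sum_subset (subset_univ Bᶜ) fun g _ h => if_pos (by simpa using h)]
  exact sum_congr rfl fun g h => (if_neg (mem_compl.1 h)).symm

/-- **static Mecke bound.** -/
theorem mecke (hθ : ∀ z, 0 ≤ θ z) (X : Finset ι) : ∀ V : Finset Γ → ℝ, (∀ B, 0 ≤ V B) →
    (∀ X' ⊆ X, ∀ x, Fst x X' → ∀ B, ∑ g ∈ Bᶜ, V (insert g B) * pot cov θ X' x g ≤ V B) →
    (∏ z ∈ X, θ z) * ∑ B, V B * Op.ind (Cvd cov X) B ≤ ∑ B, V B := by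
  induction X using Finset.strongInduction with
  | H X ih =>
  intro V hV h
  rcases X.eq_empty_or_nonempty with rfl | hne
  · simp [Op.ind, Cvd]
  have hx : Fst (X.min' hne) X := ⟨min'_mem _ _, fun z hz => min'_le _ z hz⟩
  generalize X.min' hne = x at hx
  have hP : 0 ≤ ∏ z ∈ X, θ z := prod_nonneg fun z _ => hθ z
  set f : Finset Γ → Γ → ℝ := fun B g => if x ∈ cov g then Op.ind (Cvd cov (X \ cov g)) B else 0
    with hf
  have f0 : ∀ B g, 0 ≤ f B g := fun B g => by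
    simp only [hf]; split_ifs; exacts [Op.ind_nn _ _, le_rfl]
  have h1 : ∑ B, V B * Op.ind (Cvd cov X) B ≤ ∑ B, V B * ∑ g ∈ B, f (B.erase g) g := by
    refine sum_le_sum fun B _ => mul_le_mul_of_nonneg_left ?_ (hV B)
    unfold Op.ind
    split_ifs with hB
    · obtain ⟨g, hg, hxg⟩ := hB x hx.1
      refine le_trans (le_of_eq ?_) (single_le_sum (fun g _ => f0 (B.erase g) g) hg)
      simp only [hf, if_pos hxg, Op.ind]
      rw [if_pos]
      intro z hz
      obtain ⟨g', h1, h2⟩ := hB z (mem_sdiff.1 hz).1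
      exact ⟨g', mem_erase.2 ⟨fun e => (mem_sdiff.1 hz).2 (e ▸ h2), h1⟩, h2⟩
    · exact sum_nonneg fun g _ => f0 _ _
  refine (mul_le_mul_of_nonneg_left h1 hP).trans ?_
  refine le_trans ?_ (sum_le_sum fun B _ => h X subset_rfl x hx B)
  rw [gnz, sum_compl_comm, sum_compl_comm, mul_sum]
  refine sum_le_sum fun g _ => ?_
  by_cases hg : x ∈ cov g
  swap
  · simp [hf, pot, hg]
  have key := ih (X \ cov g) ((ssubset_iff_of_subset sdiff_subset).2 ⟨x, hx.1, by simp [hg]⟩)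
    (fun B => if g ∈ B then 0 else V (insert g B))
    (fun B => by split_ifs; exacts [le_rfl, hV _]) fun X' hX' y hy B => ?_
  · have e : ∏ z ∈ X, θ z = (∏ z ∈ X ∩ cov g, θ z) * ∏ z ∈ X \ cov g, θ z :=
      (prod_inter_mul_prod_diff X (cov g) θ).symm
    have := mul_le_mul_of_nonneg_left key
      (prod_nonneg fun z _ => hθ z : 0 ≤ ∏ z ∈ X ∩ cov g, θ z)
    rw [← mul_assoc, ← e, mul_sum (a := ∏ z ∈ X ∩ cov g, θ z)] at this
    refine le_trans (le_of_eq ?_) (this.trans (le_of_eq ?_))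
    · congr 1
      exact sum_congr rfl fun B _ => by simp only [hf, if_pos hg]; split_ifs <;> simp
    · exact sum_congr rfl fun B _ => by simp only [pot, if_pos hg]; split_ifs <;> ring
  by_cases hB : g ∈ B
  · simp [hB]
  rw [if_neg hB]
  refine le_trans (le_of_eq ?_) (h X' (hX'.trans sdiff_subset) y hy (insert g B))
  rw [compl_insert, ← sum_erase (a := g) Bᶜ (by simp)]
  refine sum_congr rfl fun g' hg' => ?_
  rw [if_neg (by simp [hB, (mem_erase.1 hg').1.symm]), insert_comm]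

/-- two weights. -/
def mk (a c : Γ → ℝ) (X : Finset Γ) (F : Finset Γ → ℝ) : ℝ :=
  ∑ B ∈ X.powerset, (∏ g ∈ B, a g) * (∏ g ∈ X \ B, c g) * F B

variable {a c : Γ → ℝ} {X : Finset Γ} {F G : Finset Γ → ℝ}

@[simp] lemma mk_empty : mk a c ∅ F = F ∅ := by simp [mk]

lemma mk_insert {g : Γ} (hg : g ∉ X) :
    mk a c (insert g X) F = c g * mk a c X F + a g * mk a c X fun B => F (insert g B) := by
  rw [mk, sum_powerset_insert hg, mk, mk, mul_sum, mul_sum]
  congr 1 <;> refine sum_congr rfl fun B hB => ?_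
  · rw [insert_sdiff_of_notMem _ fun k => hg (mem_powerset.1 hB k),
      prod_insert fun k => hg (mem_sdiff.1 k).1]
    ring
  · rw [prod_insert fun k => hg (mem_powerset.1 hB k), insert_sdiff_insert,
      sdiff_insert_of_notMem hg]
    ring

lemma mk_congr (h : ∀ B ⊆ X, F B = G B) : mk a c X F = mk a c X G :=
  sum_congr rfl fun B hB => by rw [h B (mem_powerset.1 hB)]

lemma mk_add : mk a c X (fun B => F B + G B) = mk a c X F + mk a c X G := by
  simp only [mk, mul_add, sum_add_distrib]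

lemma mk_mul (r : ℝ) : mk a c X (fun B => r * F B) = r * mk a c X F := by
  simp only [mk, mul_sum]; exact sum_congr rfl fun _ _ => by ring

lemma mk_one : mk a c X (fun _ => 1) = ∏ g ∈ X, (a g + c g) := by
  simp only [mk, mul_one, prod_add]


/-- marks on a marked family. -/
lemma mk_mark (μ ν : Γ → ℝ) (X : Finset Γ) : ∀ F : Finset Γ → Finset Γ → ℝ,
    mk a c X (fun C => mk μ ν C (F C)) =
      mk (fun _ => 1) c X fun C => mk (fun g => μ g * a g) (fun g => ν g * a g) C (F C) := by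
  intro F
  refine sum_congr rfl fun C _ => ?_
  simp only [mk, mul_sum, prod_const_one, prod_mul_distrib]
  refine sum_congr rfl fun B hB => ?_
  rw [← prod_sdiff (f := a) (mem_powerset.1 hB)]
  ring

/-- merging the unmarked part of a family with a second family. -/
lemma mk_merge (D u : Γ → ℝ) (X : Finset Γ) : ∀ F : Finset Γ → Finset Γ → ℝ,
    mk (fun _ => 1) (fun _ => 1) X (fun w => mk D u w fun B => mk a c (X \ w) fun C => F (w ∪ C) B) =
      mk (fun _ => 1) c X fun S => mk D (fun g => u g + a g) S (F S) := by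
  induction X using Finset.induction_on with
  | empty => intro F; simp
  | insert g X hg ih =>
    intro F
    have e1 : ∀ w ⊆ X, (mk D u w fun B => mk a c (insert g X \ w) fun C => F (w ∪ C) B) =
        c g * (mk D u w fun B => mk a c (X \ w) fun C => F (w ∪ C) B) +
          a g * mk D u w fun B => mk a c (X \ w) fun C => F (insert g (w ∪ C)) B := by
      intro w hw
      rw [← mk_mul, ← mk_mul, ← mk_add]
      refine mk_congr fun B _ => ?_
      rw [insert_sdiff_of_notMem _ fun k => hg (hw k), mk_insert fun k => hg (mem_sdiff.1 k).1]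
      simp only [union_insert]
    have e2 : ∀ w ⊆ X, (mk D u (insert g w) fun B =>
        mk a c (insert g X \ insert g w) fun C => F (insert g w ∪ C) B) =
        u g * (mk D u w fun B => mk a c (X \ w) fun C => F (insert g (w ∪ C)) B) +
          D g * mk D u w fun B => mk a c (X \ w) fun C => F (insert g (w ∪ C)) (insert g B) := by
      intro w hw
      rw [mk_insert fun k => hg (hw k), insert_sdiff_insert, sdiff_insert_of_notMem hg]
      simp only [insert_union]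
    have e3 : ∀ S ⊆ X, mk D (fun g => u g + a g) (insert g S) (F (insert g S)) =
        (u g + a g) * mk D (fun g => u g + a g) S (F (insert g S)) +
          D g * mk D (fun g => u g + a g) S fun B => F (insert g S) (insert g B) :=
      fun S hS => mk_insert fun k => hg (hS k)
    rw [mk_insert hg, mk_insert hg, mk_congr e1, mk_congr e2, mk_congr e3]
    simp only [mk_add, mk_mul]
    rw [ih F, ih fun S B => F (insert g S) B, ih fun S B => F (insert g S) (insert g B)]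
    ring

lemma sum_pair (φ : Finset Γ → Finset Γ → ℝ) : ∑ C, ∑ B ∈ C.powerset, φ C B =
    ∑ R, ∑ B, if Disjoint B R then φ (B ∪ R) B else 0 := by
  simp only [← sum_filter]
  rw [sum_sigma', sum_sigma']
  refine sum_bij' (fun x _ => ⟨x.1 \ x.2, x.2⟩) (fun x _ => ⟨x.2 ∪ x.1, x.2⟩) ?_ ?_ ?_ ?_ ?_
  · simp [disjoint_sdiff]
  · exact fun _ _ => mem_sigma.2 ⟨mem_univ _, mem_powerset.2 subset_union_left⟩
  · rintro ⟨C, B⟩ h
    simp only [mem_sigma, mem_powerset] at h
    simp [union_eq_right.2 h.2]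
  · rintro ⟨R, B⟩ h
    simp only [mem_sigma, mem_filter] at h
    simp [union_sdiff_cancel_left h.2.2]
  · rintro ⟨C, B⟩ h
    simp only [mem_sigma, mem_powerset] at h
    simp [union_eq_right.2 h.2]

/-- Mecke bound for a marked subfamily. -/
theorem mecke2 (hθ : ∀ z, 0 ≤ θ z) (X : Finset ι) {W : Finset Γ → ℝ} (hW : ∀ C, 0 ≤ W C)
    {m n : Γ → ℝ} (hm : ∀ g, 0 ≤ m g) (hn : ∀ g, 0 ≤ n g)
    (h : ∀ X' ⊆ X, ∀ x, Fst x X' → ∀ C,
      ∑ g ∈ Cᶜ, m g * (W (insert g C) * pot cov θ X' x g) ≤ W C) :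
    (∏ z ∈ X, θ z) * ∑ C, W C * mk m n C (Op.ind (Cvd cov X)) ≤ ∑ C, W C * mk m n C fun _ => 1 := by
  have e : ∀ F : Finset Γ → ℝ, ∑ C, W C * mk m n C F = ∑ R, (∏ g ∈ R, n g) * ∑ B,
      (if Disjoint B R then (∏ g ∈ B, m g) * W (B ∪ R) else 0) * F B := fun F => by
    simp only [mk, mul_sum]
    rw [sum_pair]
    refine sum_congr rfl fun R _ => sum_congr rfl fun B _ => ?_
    split_ifs with hd
    · rw [union_sdiff_cancel_left hd]; ring
    · simp
  rw [e, e, mul_sum]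
  refine sum_le_sum fun R _ => ?_
  rw [mul_left_comm]
  refine mul_le_mul_of_nonneg_left ?_ (prod_nonneg fun g _ => hn g)
  simp only [mul_one]
  have hP : ∀ B : Finset Γ, 0 ≤ ∏ g ∈ B, m g := fun B => prod_nonneg fun g _ => hm g
  refine mecke hθ X _ (fun B => by split_ifs; exacts [mul_nonneg (hP B) (hW _), le_rfl])
    fun X' hX' x hx B => ?_
  by_cases hd : Disjoint B R
  swap
  · rw [if_neg hd]
    exact (sum_eq_zero fun g _ => by
      rw [if_neg fun k => hd (disjoint_insert_left.1 k).2, zero_mul]).le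
  rw [if_pos hd]
  refine le_trans (le_of_eq ?_) (mul_le_mul_of_nonneg_left (h X' hX' x hx (B ∪ R)) (hP B))
  rw [mul_sum, ← sum_subset (compl_subset_compl.2 (subset_union_left : B ⊆ B ∪ R))
    fun g h1 h2 => by
      rw [if_neg fun k => ?_, zero_mul]
      simp only [mem_compl, mem_union, not_not] at h1 h2
      exact (disjoint_insert_left.1 k).1 (h2.resolve_left h1)]
  refine sum_congr rfl fun g hg => ?_
  simp only [mem_compl, mem_union, not_or] at hg
  rw [if_pos (disjoint_insert_left.2 ⟨hg.2, hd⟩), prod_insert hg.1, insert_union]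
  ring

end abs

variable {Λ : Type} [Fintype Λ] [DecidableEq Λ] {T : ℕ} [NeZero T] (ex ey : Fin T → Λ)
variable {ι : Type} [LinearOrder ι]

/-- `A` is present, all other loops are green. -/
noncomputable def Zc (p : Fin T → ℝ) (b : Fin T × Λ → ℝ) (A : Finset (Lp T Λ)) : ℝ :=
  ∑ ξ, (Pw p ξ * if A ⊆ L ex ey ξ then 1 else 0) * ∏ g ∈ L ex ey ξ \ A, (1 - ub b g)

open Classical in
/-- the drift condition in all clean child models. -/
def Drift (p : Fin T → ℝ) (b : Fin T × Λ → ℝ) (μ : Lp T Λ → ℝ) (Cl : Finset (Lp T Λ) → Prop)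
    (cov : Lp T Λ → Finset ι) (θ : ι → ℝ) (X : Finset ι) : Prop :=
  ∀ A, Cl A → qq ex ey p A ≠ 0 → ∀ X' ⊆ X, ∀ x, Fst x X' →
    ls ex ey (pin ex ey p A) (kill b (pts A))
      (fun g => if Cl (insert g A) then μ g * pot cov θ X' x g else 0) ≤
      Zg ex ey (pin ex ey p A) (kill b (pts A))

variable {ex ey} {p : Fin T → ℝ} {b : Fin T × Λ → ℝ} {μ : Lp T Λ → ℝ}
  {Cl : Finset (Lp T Λ) → Prop} {cov : Lp T Λ → Finset ι} {θ : ι → ℝ} {X : Finset ι}

lemma Zc_LD (p : Fin T → ℝ) (b : Fin T × Λ → ℝ) (A : Finset (Lp T Λ)) :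
    Zc ex ey p b A = (LD b 1).Z (Pw p) (L ex ey) A 1 := by
  simp only [Dat.Z, LD_w, bs_one, Zc]

lemma Zc_eq (hp : ∀ s, 0 ≤ p s ∧ p s ≤ 1) (A : Finset (Lp T Λ)) :
    Zc ex ey p b A = qq ex ey p A * Zg ex ey (pin ex ey p A) (kill b (pts A)) := by
  rw [Zc_LD, Z_eq hp, bs_one]

lemma Zc_ls (hp : ∀ s, 0 ≤ p s ∧ p s ≤ 1) (A : Finset (Lp T Λ)) (ψ : Lp T Λ → ℝ) :
    ∑ g ∈ Aᶜ, ub b g * (ψ g * Zc ex ey p b (insert g A)) =
      qq ex ey p A * ls ex ey (pin ex ey p A) (kill b (pts A)) ψ := by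
  have := ls_eq (ex := ex) (ey := ey) (b := b) (Y := 1) hp A 1 ψ
  simpa only [LD_w, bs_one, ← Zc_LD] using this

lemma Zc_nn (hp : ∀ s, 0 ≤ p s ∧ p s ≤ 1) (hb : ∀ v, 0 ≤ b v ∧ b v ≤ 1) (A : Finset (Lp T Λ)) :
    0 ≤ Zc ex ey p b A :=
  sum_nonneg fun ξ _ => mul_nonneg (mul_nonneg (Pw_nonneg hp ξ) (by split_ifs <;> norm_num))
    (prod_nonneg fun g _ => sub_nonneg.2 (ub_le_one hb g))

lemma sum_Zc (p : Fin T → ℝ) (b : Fin T × Λ → ℝ) (F : Finset (Lp T Λ) → ℝ) :
    ∑ C, Zc ex ey p b C * F C =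
      ∑ ξ, Pw p ξ * mk (fun _ => 1) (fun g => 1 - ub b g) (L ex ey ξ) F := by
  simp only [Zc, sum_mul, mk, mul_sum]
  rw [sum_comm]
  refine sum_congr rfl fun ξ _ => ?_
  rw [← sum_subset (subset_univ (L ex ey ξ).powerset) fun A _ h => by
    rw [mem_powerset] at h; simp [h]]
  exact sum_congr rfl fun A h => by rw [if_pos (mem_powerset.1 h), prod_const_one]; ring

open Classical in
/-- **static TP**, general weights: marked `μ * ub b`, unmarked `n`, green `1 - ub b`. -/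
theorem tpG (hp : ∀ s, 0 ≤ p s ∧ p s ≤ 1) (hb : ∀ v, 0 ≤ b v ∧ b v ≤ 1) (hθ : ∀ z, 0 ≤ θ z)
    (hμ : ∀ g, 0 ≤ μ g) {m n : Lp T Λ → ℝ} (hm : ∀ g, 0 ≤ m g ∧ m g ≤ μ g * ub b g)
    (hn : ∀ g, 0 ≤ n g) (hCl : ∀ A g, Cl (insert g A) → Cl A)
    (h : Drift ex ey p b μ Cl cov θ X) :
    (∏ z ∈ X, θ z) * ∑ ξ, Pw p ξ * mk (fun _ => 1) (fun g => 1 - ub b g) (L ex ey ξ)
      (fun C => mk m n C (Op.ind fun B => Cl C ∧ Cvd cov X B)) ≤
      ∑ ξ, Pw p ξ * ∏ g ∈ L ex ey ξ, (m g + n g + (1 - ub b g)) := by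
  have hZ := Zc_nn (ex := ex) (ey := ey) hp hb
  have key := mecke2 (cov := cov) hθ X (W := fun C => if Cl C then Zc ex ey p b C else 0)
    (fun C => by split_ifs; exacts [hZ C, le_rfl]) (fun g => (hm g).1) hn fun X' hX' x hx A => ?_
  · rw [← sum_Zc]
    refine le_trans (le_of_eq ?_) (key.trans ?_)
    · congr 1
      refine sum_congr rfl fun C _ => ?_
      split_ifs with hC
      · exact congrArg _ (mk_congr fun B _ => by simp [Op.ind, hC])
      · simp [mk, Op.ind, hC]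
    · have e : ∀ ξ, ∏ g ∈ L ex ey ξ, (m g + n g + (1 - ub b g)) = mk (fun _ => 1)
          (fun g => 1 - ub b g) (L ex ey ξ) fun C => mk m n C fun _ => 1 := fun ξ => by
        simp only [mk_one]
        rw [prod_add, mk]
        exact sum_congr rfl fun _ _ => by rw [prod_const_one]; ring
      simp only [e]
      rw [← sum_Zc]
      refine sum_le_sum fun C _ => mul_le_mul_of_nonneg_right (by
        split_ifs; exacts [le_rfl, hZ C]) ?_
      rw [mk_one]
      exact prod_nonneg fun g _ => add_nonneg (hm g).1 (hn g)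
  by_cases hA : Cl A
  swap
  · rw [if_neg hA]
    exact (sum_eq_zero fun g _ => by rw [if_neg fun k => hA (hCl A g k)]; ring).le
  rw [if_pos hA]
  refine le_trans (sum_le_sum (g := fun g => ub b g * ((if Cl (insert g A) then
    μ g * pot cov θ X' x g else 0) * Zc ex ey p b (insert g A))) fun g _ => ?_) ?_
  · split_ifs
    · have := mul_le_mul_of_nonneg_right (hm g).2
        (mul_nonneg (hZ (insert g A)) (pot_nn (cov := cov) hθ X' x g))
      linarith
    · simp
  rw [Zc_ls hp, Zc_eq hp]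
  by_cases hq : qq ex ey p A = 0
  · simp [hq]
  · exact mul_le_mul_of_nonneg_left (h A hA hq X' hX' x hx) ((cpt_qq hp).nn _)


lemma qq_mkE (hp : ∀ s, 0 ≤ p s ∧ p s ≤ 1) (D : Lp T Λ → ℝ) (w : Finset (Lp T Λ))
    (f : Finset (Lp T Λ) → ℝ) : qq ex ey p w * mkE (Pw p) (L ex ey) D w f =
      ∑ ξ, Pw p ξ * if w ⊆ L ex ey ξ then mk D (fun g => 1 - D g) (L ex ey ξ \ w) f else 0 := by
  by_cases h0 : qq ex ey p w = 0
  · rw [h0, zero_mul]
    refine (sum_eq_zero fun ξ _ => ?_).symm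
    have := (sum_eq_zero_iff_of_nonneg fun ξ _ => mul_nonneg (Pw_nonneg hp ξ)
      (by split_ifs <;> norm_num)).1 h0 ξ (mem_univ _)
    split_ifs at this ⊢ <;> simp_all
  · exact mul_div_cancel₀ _ h0




/-! ### the drift condition from Green bounds -/

open Classical in
/-- one-point bound for the class `S` of loops in the child model of `A`. -/
def One1 (ex ey : Fin T → Λ) (p : Fin T → ℝ) (b : Fin T × Λ → ℝ) (A : Finset (Lp T Λ))
    (S : Lp T Λ → Prop) (γ : ℝ) : Prop :=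
  qq ex ey p A ≠ 0 → ls ex ey (pin ex ey p A) (kill b (pts A)) (fun l => if S l then 1 else 0) ≤
    Zg ex ey (pin ex ey p A) (kill b (pts A)) * γ

section one
open WN
variable {A : Finset (Lp T Λ)} {S : Lp T Λ → Prop} {γ : ℝ} {x : Fin T × Λ}


/-- exits through `Out`. -/
theorem One1.exit (hp : ∀ s, 0 ≤ p s ∧ p s ≤ 1) (hb : Arc.Fld b) (h0 : 0 ≤ γ) (h2 : γ ≤ 1 / 2)
    (hx : ∀ l, S l → x ∈ l.2) (Out : Fin T × Λ → Prop)
    (hG : ∀ ξ, Pw p ξ ≠ 0 → A ⊆ L ex ey ξ → Disjoint (obv ex ey ξ x) (pts A) →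
      S (lp ex ey ξ x) → ∃ n, Exit ex ey Out x n ξ ∧
        Gc ex ey p b (pts A ∪ exA ex ey x n ξ) ξ x (Arc.arc ex ey x ξ (n + 1)) ≤ γ) :
    One1 ex ey p b A S (2 * γ) := by
  classical
  intro hq
  obtain ⟨ξ0, -, hA⟩ := qq_supp hq
  rw [gas_pin p hA]
  refine (b2c ex ey hp hb h0 (by linarith) (pts A) ξ0 Out x _
    (fun l h => hx l (of_not_not fun k => h (if_neg k))) (fun l => by split_ifs <;> norm_num)
    fun ξ k1 k2 k3 => ?_).trans
      (mul_le_mul_of_nonneg_left ?_ (Zg_pos ex ey (Arc.pin_mem hp _ _) (hb.kill _)).le)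
  · rw [← gas_pin p hA] at k1
    obtain ⟨k4, k5⟩ := sub_L_of_pin hq k1
    exact hG ξ k4 k5 k3 (of_not_not fun k => by simp [k] at k2)
  · rw [div_le_iff₀ (by linarith)]; nlinarith

end one

section drift
open WN
variable {pt : ι → Fin T × Λ} {g : ι → ι → ℝ} {ℓ : ι → ι → ℕ} {N : ℕ} {r w : ℕ → ℝ} {a : ι → ℝ}
  {wA wB κ m : ℝ} {γ : ι → ℝ}

/-- **the drift condition** for point targets. -/
theorem drift_of (hp : ∀ s, 0 ≤ p s ∧ p s ≤ 1) (hb : Arc.Fld b)
    (D : Tgt X g ℓ N r w a wA wB κ θ fun _ _ => True) (inj : Set.InjOn pt X)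
    (mem : ∀ l, ∀ x ∈ cov l, pt x ∈ l.2)
    (hG : ∀ A ξ l, Pw p ξ ≠ 0 → A ⊆ L ex ey ξ → Cl (insert l A) → ∀ v ∈ X ∩ cov l,
      ∀ u ∈ X ∩ cov l, v ≠ u → Gc ex ey p b (pts A) ξ (pt v) (pt u) ≤ g v u)
    (hγ : ∀ x, 0 ≤ γ x ∧ γ x ≤ 1)
    (h1 : ∀ A, Cl A → ∀ x ∈ X, One1 ex ey p b A (fun l => Cl (insert l A) ∧ x ∈ cov l) (γ x))
    (hm : 0 ≤ m) (hμ : ∀ l, (cov l).Nonempty → μ l ≤ m)
    (hn : ∀ x ∈ X, m * (θ x * (2 * γ x) ^ (wB / 2) / (1 - κ) + γ x) ≤ 1) :
    Drift ex ey p b μ Cl cov θ X := by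
  classical
  intro A hA hq X' hX' x hx
  obtain ⟨ξ0, k0, hA0⟩ := qq_supp hq
  have hp' := pin_mem (ex := ex) (ey := ey) hp A
  have hb' := kill_fld hb (pts A)
  have hZ := (Zg_pos ex ey hp' hb').le
  have hxX := hX' hx.1
  set cv : Lp T Λ → Finset ι := fun l => if Cl (insert l A) ∧ x ∈ cov l then X' ∩ cov l else ∅
    with hcv
  have hc : ∀ {l z}, z ∈ cv l → (Cl (insert l A) ∧ x ∈ cov l) ∧ cv l = X' ∩ cov l :=
    fun {l z} h => by
      by_cases k : Cl (insert l A) ∧ x ∈ cov l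
      · exact ⟨k, if_pos k⟩
      · simp [hcv, k] at h
  have hs : ∀ {l z}, z ∈ cv l → z ∈ X ∩ cov l := fun h =>
    inter_subset_inter_right hX' ((hc h).2 ▸ h)
  have H : Cv ex ey (pin ex ey p A) (kill b (pts A)) pt X cv g :=
    ⟨inj, fun l z h => (mem_inter.1 (hs h)).1, fun l z h => mem l z (mem_inter.1 (hs h)).2, D.g0,
      fun l v h u h' k => by
        rw [gas_pin p hA0]
        exact hG A ξ0 l k0 hA0 (hc h).1.1 v (hs h) u (hs h') k⟩
  have hF : ∀ l z, Fst z (cv l) → z = x := fun l z h => le_antisymm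
    (h.2 x ((hc h.1).2 ▸ mem_inter.2 ⟨hx.1, (hc h.1).1.2⟩))
    (hx.2 z (mem_inter.1 ((hc h.1).2 ▸ h.1)).1)
  have T0 : ls ex ey (pin ex ey p A) (kill b (pts A))
      (fun l => if Cl (insert l A) ∧ x ∈ cov l then 1 else 0) ≤
      Zg ex ey (pin ex ey p A) (kill b (pts A)) * γ x := by
    convert h1 A hA x hxX hq
  have T1 := tp1 H hp' hb' D.tree D.ha D.hw D.hA D.hB.le D.hs (θ := θ)
    (γ := fun z => if z = x then γ x else 0) (fun v => (D.hθ v).le)
    (fun v => by split_ifs; exacts [(hγ x).1, le_rfl]) (fun z hz => Or.inr ?_) (σ := 1)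
    zero_le_one (fun l _ => ub_le_one hb'.mem l) (· = x) (fun _ _ => True) D.hκ D.hk hF
    fun _ _ _ _ _ _ _ => trivial
  · rw [filter_eq' X x, if_pos hxX, sum_singleton, if_pos rfl, mul_one] at T1
    refine le_trans (ls_mono (ψ' := fun l => (max (∏ z ∈ cv l, θ z - 1) 0 +
      if Cl (insert l A) ∧ x ∈ cov l then 1 else 0) * m) hp' hb'.mem fun ξ v _ _ => ?_) ?_
    · generalize lp ex ey ξ v = l
      by_cases k : Cl (insert l A) ∧ x ∈ cov l
      · rw [if_pos k.1, if_pos k, pot, if_pos k.2, show cv l = X' ∩ cov l from if_pos k, mul_comm]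
        exact (mul_le_mul_of_nonneg_left (hμ l ⟨x, k.2⟩)
          (prod_nonneg fun z _ => (D.hθ z).le)).trans (mul_le_mul_of_nonneg_right
            (by linarith [le_max_left (∏ z ∈ X' ∩ cov l, θ z - 1) 0]) hm)
      · rw [if_neg k]
        refine le_trans (le_of_eq ?_) (mul_nonneg (by positivity) hm)
        split_ifs with k1
        · rw [pot, if_neg fun k2 => k ⟨k1, k2⟩, mul_zero]
        · rfl
    rw [ls_mul, ls_add]
    have := mul_le_mul_of_nonneg_right (add_le_add T1 T0) hm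
    nlinarith [mul_le_mul_of_nonneg_left (hn x hxX) hZ]
  · by_cases k : z = x
    · rw [if_pos k]
      refine ⟨(hγ x).2, le_trans (ls_mono hp' hb'.mem fun ξ v _ _ => ?_) T0⟩
      split_ifs with k1 k2
      exacts [le_rfl, absurd (hc k1.1).1 k2, zero_le_one, le_rfl]
    · rw [if_neg k, mul_zero]
      exact ⟨zero_le_one, (ls_mono (ψ' := fun _ => 0) hp' hb'.mem fun ξ v _ _ =>
        (if_neg fun h => k (hF _ z h)).le).trans ls_zero.le⟩

end drift

end Crest.Agent.N337.G4
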