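import Crest.Agent.N337.G4.RDefs
import Crest.Agent.N337.E.Step

-- ▼ part N337/G4/RTree
section

/-!
# Row 337, G4 (helper50): static witness trees for the red set
-/

set_option autoImplicit false
set_option linter.unusedSectionVars false

namespace Crest.Agent.N337.G4.Rs

open Finset Crest.Agent.N337.Rep Crest.Agent.N337.Free Crest.Agent.N337.Rg
open Crest.Agent.N337.Arc (Fld)

section abs
variable {X α κ : Type} [Fintype X] [SemilatticeSup α] [Preorder κ] {S : Sys X α κ}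
  {P P' : ℕ → X → Prop} {Lf Lf' : X → Prop} {m : ℕ} {x : X}

theorem FQ.mono (h : FQ S P Lf m x) (hP : ∀ k < m, ∀ y, P k y → P' k y) (hL : ∀ y, Lf y → Lf' y) :
    FQ S P' Lf' m x := by
  induction m generalizing x with
  | zero => exact hL x h
  | succ m ih =>
    exact Sys.Sepd.mono h fun y hy =>
      ⟨hy.1, hP _ (by omega) _ hy.2.1, ih hy.2.2 fun k hk => hP k (by omega)⟩

theorem fl_iff {U : ℕ → X → Prop} : S.Fl U Lf m x ↔ FQ S (S.Iso U) Lf m x := by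
  induction m generalizing x with
  | zero => rfl
  | succ m ih =>
    exact ⟨fun h => Sys.Sepd.mono h fun y hy => ⟨hy.1, hy.2.1, ih.1 hy.2.2⟩,
      fun h => Sys.Sepd.mono h fun y hy => ⟨hy.1, hy.2.1, ih.2 hy.2.2⟩⟩

/-- a failing cell has a leaf. -/
theorem FQ.leaf (h : FQ S P Lf m x) : ∃ y, Lf y ∧ S.d x y + S.loc 0 ≤ S.loc m := by
  induction m generalizing x with
  | zero => exact ⟨x, h, by simp [S.d_self]⟩
  | succ m ih =>
    obtain ⟨Y, h1, h2, -⟩ := h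
    obtain ⟨y, hy⟩ := card_pos.1 (h1 ▸ Nat.succ_pos _ : 0 < Y.card)
    obtain ⟨z, a, b⟩ := ih (h2 y hy).2.2
    have := (h2 y hy).1
    have := S.d_tri x y z
    exact ⟨z, a, by simp only [Sys.loc] at b ⊢; omega⟩

variable {Ω Lb : Type} {μ : (Ω → Prop) → ℝ} {K j : ℕ} {J : ℕ → X → Finset Lb}
  {q : ℕ → ℕ → Lb → ℝ} {Ht : Ω → ℕ → ℕ → Lb → Prop} {L : Ω → X → Prop} {ε : ℕ → ℝ} {vol : ℕ → ℕ}

theorem dom_FQ [Nonempty Lb] (hμ : Sub μ) (hq : ∀ m s v, 0 ≤ q m s v) (hK : S.a1 < K)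
    (hv : ∀ k < m, ∀ x, (univ.filter fun y => S.d x y ≤ S.ρ (k + 1)).card ≤ vol k)
    (hL : ∀ ω y, L ω y → ∃ v ∈ J 0 y, Ht ω 0 (S.sep 0) v) (h0 : ∀ k, 0 ≤ ε k)
    (he : ∀ y, ∑ v ∈ J 0 y, q 0 (S.sep 0) v ≤ ε 0)
    (hε : ∀ k < m, (vol k * ε k) ^ (S.a1 + 1) ≤ ε (k + 1)) (hP : ∀ k < m, ∀ y, P k y → P' k y) :
    Dom μ (fun ω => FQ S P (L ω) m x) (S.Ok K S.sep J m x j) (Wt.Real Ht (fun _ => P') m)
      (Wt.wt q) (ε m) := by
  classical
  induction m generalizing x j with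
  | zero =>
    exact (Sys.dom_leaf hμ (Nat.zero_lt_of_lt hK) le_rfl le_rfl (fun ω => hL ω x) (he x)).imp
      fun σ hσ => hσ.1
  | succ m ih =>
    refine Dom.le (fun R c hc H => ?_) (hε m (by omega))
    exact (hμ.mono _ _ fun ω hω => ⟨hω.1, Sys.Sepd.mono hω.2 fun y hy =>
      ⟨mem_filter.2 ⟨mem_univ _, hy.1⟩, hP m (by omega) y hy.2.1, hy.2.2⟩⟩).trans (Sys.dom_node
        (A := fun y ω => FQ S P (L ω) m y) (Q := fun _ => P') hμ hq (h0 m) hK
        (Nat.zero_lt_of_lt hK) (hv m (by omega) x) (fun y hy => (mem_filter.1 hy).2)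
        (fun y _ j => (ih (fun k hk => hv k (by omega)) (fun k hk => hε k (by omega))
          fun k hk => hP k (by omega)).imp fun σ hσ => hσ.child) R c hc fun σ hσ => H σ hσ.1)

end abs

section prob
variable {Λ : Type} [Fintype Λ] [DecidableEq Λ] {T : ℕ} [NeZero T] {ex ey : Fin T → Λ}
  {p : Fin T → ℝ} {b : Fin T × Λ → ℝ} {ι : Type}

open Classical in
/-- weighted union bound. -/
theorem PR_wsum (hp : ∀ s, 0 ≤ p s ∧ p s ≤ 1) (hb : ∀ v, 0 ≤ b v ∧ b v ≤ 1) (I : Finset ι)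
    {A : CR T Λ → Prop} (B : ι → CR T Λ → Prop) (w : ι → ℝ) (hw : ∀ i ∈ I, 0 ≤ w i)
    (h : ∀ ω, Pos ex ey p b ω → A ω → 1 ≤ ∑ i ∈ I.filter (B · ω), w i) :
    PR ex ey p b A ≤ ∑ i ∈ I, w i * PR ex ey p b (B i) := by
  have hZ := DL.Zt_pos ex ey hp fun v => (hb v).1
  simp only [PR, ← mul_div_assoc, ← sum_div]
  refine div_le_div_of_nonneg_right ?_ hZ.le
  rw [WR_pos]
  unfold RR.WR
  simp only [mul_sum]
  rw [sum_comm (s := I)]
  refine sum_le_sum fun ξ _ => ?_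
  rw [sum_comm (s := I)]
  refine sum_le_sum fun ω _ => ?_
  have hw' := RR.BasAux.tw_nonneg ex ey hb ξ ω
  have h0 := Pw_nonneg hp ξ
  split_ifs with h1
  · have h2 := h _ h1.2.1 h1.2.2
    rw [sum_filter] at h2
    refine (le_mul_of_one_le_left (mul_nonneg h0 hw') h2).trans (le_of_eq ?_)
    rw [sum_mul]
    refine sum_congr rfl fun i _ => ?_
    by_cases h3 : B i (ξ, RR.red ω) <;> simp [h3, h1.1]
  · rw [mul_zero]
    exact sum_nonneg fun i hi => mul_nonneg (hw i hi) (mul_nonneg h0 (by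
      split_ifs; exacts [hw', le_rfl]))

/-- product families. -/
theorem PR_pi (hp : ∀ s, 0 ≤ p s ∧ p s ≤ 1) (hb : ∀ v, 0 ≤ b v ∧ b v ≤ 1) [Fintype ι] {β : Type}
    (𝒜 : ι → Finset β) (B : β → CR T Λ → Prop) [∀ ω, DecidablePred (B · ω)] (c : ι → β → ℝ)
    (w : ι → β → ℝ) (hc : ∀ i, ∀ a ∈ 𝒜 i, 0 ≤ c i a)
    (h : ∀ g : ι → β, (∀ i, g i ∈ 𝒜 i) → PR ex ey p b (fun ω => ∀ i, B (g i) ω) ≤ ∏ i, w i (g i)) :
    PR ex ey p b (fun ω => ∀ i, 1 ≤ ∑ a ∈ (𝒜 i).filter (B · ω), c i a) ≤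
      ∏ i, ∑ a ∈ 𝒜 i, c i a * w i a := by
  classical
  have hg : ∀ g ∈ Fintype.piFinset 𝒜, 0 ≤ ∏ i, c i (g i) := fun g hg =>
    prod_nonneg fun i _ => hc i _ (Fintype.mem_piFinset.1 hg i)
  refine (PR_wsum hp hb (Fintype.piFinset 𝒜) (fun g ω => ∀ i, B (g i) ω) (fun g => ∏ i, c i (g i))
    hg fun ω _ hω => ?_).trans ?_
  · refine ((prod_const_one (s := univ)).ge.trans (prod_le_prod (fun _ _ => zero_le_one)
      fun i _ => hω i)).trans (le_of_eq ?_)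
    rw [prod_univ_sum]
    refine sum_congr ?_ fun _ _ => rfl
    ext g
    simp only [Fintype.mem_piFinset, mem_filter, forall_and]
  · rw [prod_univ_sum]
    refine sum_le_sum fun g hg' => ?_
    rw [prod_mul_distrib]
    exact mul_le_mul_of_nonneg_left (h g (Fintype.mem_piFinset.1 hg')) (hg g hg')

theorem PR_coinF (hp : ∀ s, 0 ≤ p s ∧ p s ≤ 1) (hb : ∀ v, 0 ≤ b v ∧ b v ≤ 1) [Fintype ι]
    (g : ι → Finset (Fin T)) (hd : ∀ i j, i ≠ j → Disjoint (g i) (g j))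
    (h : ∀ i, ∀ s ∈ g i, p s ≤ 1 / 2) :
    PR ex ey p b (fun ω => ∀ i, ∀ s ∈ g i, ω.1 s = true) ≤ ∏ i, ∏ s ∈ g i, 6 * p s := by
  classical
  rw [← prod_biUnion fun i _ j _ => hd i j]
  refine (PR_mono hp hb fun ω _ k s hs => ?_).trans (PR_coins hp hb _ fun s hs => ?_) <;>
    obtain ⟨i, -, hi⟩ := mem_biUnion.1 hs
  exacts [k i s hi, h i s hi]

theorem PR_redF (hp : ∀ s, 0 ≤ p s ∧ p s ≤ 1) (hb : Fld b) [Fintype ι]
    (g : ι → Finset (Fin T × Λ)) (hd : ∀ i j, i ≠ j → Disjoint (g i) (g j)) (r : ι → ℝ)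
    (hr : ∀ i, 0 < r i) (h : (∀ i, ∀ v ∈ g i, b v ≠ 0) → ∀ i, ∀ v ∈ g i,
      ∑ j, ∑ u ∈ g j, Sp.GA ex ey p b v u ≤ r i) :
    PR ex ey p b (fun ω => ∀ i, g i ⊆ ω.2) ≤ ∏ i, (2 * Real.exp 1 * r i) ^ (g i).card := by
  classical
  set ρ : Fin T × Λ → ℝ := fun v => ∑ i, if v ∈ g i then r i else 0 with hρ
  have e : ∀ i, ∀ v ∈ g i, ρ v = r i := fun i v hv => by
    rw [hρ]
    refine (sum_eq_single i (fun j _ hj => if_neg fun k => ?_) fun k => absurd (mem_univ _) k).trans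
      (if_pos hv)
    exact disjoint_left.1 (hd j i hj) k hv
  have := PR_red (ex := ex) (ey := ey) hp hb (univ.biUnion g) ρ (fun v hv => by
    obtain ⟨i, -, hi⟩ := mem_biUnion.1 hv
    exact e i v hi ▸ hr i) fun k v hv => by
      obtain ⟨i, -, hi⟩ := mem_biUnion.1 hv
      rw [e i v hi, sum_biUnion fun i _ j _ => hd i j]
      exact h (fun j u hu => k u (mem_biUnion.2 ⟨j, mem_univ _, hu⟩)) i v hi
  rw [prod_biUnion fun i _ j _ => hd i j] at this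
  refine (PR_mono hp hb.mem fun ω _ k => biUnion_subset.2 fun i _ => k i).trans
    (this.trans (le_of_eq (prod_congr rfl fun i _ => ?_)))
  rw [prod_congr rfl fun v hv => by rw [e i v hv], prod_const]

end prob

variable {L n T : ℕ} [NeZero L] [NeZero T] {ex ey : Fin T → Tor 3 L × Fin n}
  {α κ : Type} [SemilatticeSup α] [Preorder κ] {S : Sys (Tor 3 L) α κ} {p : Fin T → ℝ}
  {b : Pt L n T → ℝ} {P : Pz} {Lf : CR T (Tor 3 L × Fin n) → Tor 3 L → Prop}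

/-- a good leaf for trees of height `m`. -/
def Gl (ex ey : Fin T → Tor 3 L × Fin n) (S : Sys (Tor 3 L) α κ) (p : Fin T → ℝ) (b : Pt L n T → ℝ)
    (P : Pz) (Lf : CR T (Tor 3 L × Fin n) → Tor 3 L → Prop) (m : ℕ) (y : Tor 3 L) : Prop :=
  LfD ex ey p b (S.ρ 0) P.k0 P.η P.cF y (fun ω => Lf ω y) ∧
    ∀ k < m, Far ex ey p b (S.ρ 0) (P.dd k) (2 * P.γ k) y

lemma min_le {x η : ℝ} {a c : ℕ} (h0 : 0 ≤ x) (hη : 0 ≤ η) (h1 : x ≤ (η ^ 2) ^ a)
    (h2 : x ≤ (η ^ 2) ^ c) : x ≤ η ^ (a + c) := by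
  refine (pow_le_pow_iff_left₀ h0 (pow_nonneg hη _) two_ne_zero).1 ?_
  calc x ^ 2 = x * x := sq x
    _ ≤ (η ^ 2) ^ a * (η ^ 2) ^ c := mul_le_mul h1 h2 h0 (h0.trans h1)
    _ = _ := by ring

/-- **static trees are rare**: `k + 1` separated failing cells of level `m` in `A`. -/
theorem tree (hp : ∀ s, 0 ≤ p s ∧ p s ≤ 1) (hb : Fld b) {m : ℕ} (N : NT S P (m + 1))
    {Q : ℕ → Tor 3 L → Prop} {A : Finset (Tor 3 L)} {x : Tor 3 L} {k t : ℕ} (hk : k ≤ S.a1)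
    (ht : A.card ≤ t) (hA : ∀ y ∈ A, tdist x y ≤ S.ρ (m + 1))
    (H : ∀ (z : ℕ → Tor 3 L), z m ∈ A → (∀ i < m, Q i (z i)) →
      (∀ i ≤ m, tdist (z i) (z 0) + S.loc 0 ≤ S.loc i) → Gl ex ey S p b P Lf (m + 1) (z 0)) :
    PR ex ey p b (fun ω => FT S Q (Lf ω) A k m) ≤ (t * P.ε m) ^ (k + 1) := by
  classical
  have hμ := sub_PR (ex := ex) (ey := ey) hp hb.mem
  have ex1 : ∀ y, ∃ (𝒮 : Finset (Finset (Fin T))) (𝒳 : Finset (Finset (Pt L n T)))
      (c r : Finset (Pt L n T) → ℝ), Gl ex ey S p b P Lf (m + 1) y → _ := fun y => by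
    by_cases h : Gl ex ey S p b P Lf (m + 1) y
    · obtain ⟨𝒮, 𝒳, c, r, h⟩ := h.1
      exact ⟨𝒮, 𝒳, c, r, fun _ => h⟩
    · exact ⟨∅, ∅, 0, 0, fun k => absurd k h⟩
  choose 𝒮 𝒳 c r hD using ex1
  set Ht : CR T (Tor 3 L × Fin n) → ℕ → ℕ → Tor 3 L × Bool → Prop := fun ω _ _ v =>
    Gl ex ey S p b P Lf (m + 1) v.1 → Pos ex ey p b ω → if v.2 = true then
      ∃ I ∈ 𝒮 v.1, ∀ s ∈ I, ω.1 s = true else 1 ≤ ∑ X ∈ (𝒳 v.1).filter (· ⊆ ω.2), c v.1 X with hHt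
  set J : ℕ → Tor 3 L → Finset (Tor 3 L × Bool) := fun i y =>
    if i = 0 then {(y, true), (y, false)} else ∅ with hJ
  set Q' : ℕ → Tor 3 L → Prop := fun i y => if i = m then y ∈ A else Q i y with hQ'
  have hK : S.a1 < S.a1 + 1 := Nat.lt_succ_self _
  have hK2 : 2 ≤ S.a1 + 1 := Nat.succ_le_succ N.a1
  have dom := Sys.dom_node (S := S) (K := S.a1 + 1) (cs := S.sep) (J := J) (m := m) (j := 0)
    (s := S.sep m) (x := x) (q := fun _ _ _ => P.η) (Ht := Ht) (Q := fun _ => Q')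
    (A := fun y ω => FQ S Q (Lf ω) m y) hμ (fun _ _ _ => N.η.1) (N.ε m) (n := k + 1) (by omega)
    (by omega) ht (fun y hy => (N.d x y).trans_le (hA y hy)) fun y _ j =>
      (dom_FQ (vol := fun k => (2 * S.ρ (k + 1) + 1) ^ 3) hμ (fun _ _ _ => N.η.1) hK
        (fun k _ x => by simpa only [N.d] using card_ball_le x _) (fun ω y h => ?_) N.ε
        (fun y => ?_) (fun k hk => by exact_mod_cast N.rec' k (by omega))
        fun i hi y h => by simp only [hQ', if_neg hi.ne]; exact h).imp fun σ hσ => hσ.child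
  rotate_left
  · by_cases h1 : Ht ω 0 (S.sep 0) (y, true)
    · exact ⟨_, by simp [hJ], h1⟩
    refine ⟨(y, false), by simp [hJ], fun h2 h3 => ?_⟩
    simpa using ((hD y h2).2.2.2.2 ω h3 h).resolve_left fun h4 => h1 fun _ _ => by simpa using h4
  · have := N.η.2
    simp only [hJ, if_true]
    rw [Finset.sum_pair (by simp)]
    linarith
  refine (hμ.mono _ _ fun ω h => ⟨trivial, Sys.Sepd.mono h fun y hy => ⟨hy.1, by
    simpa only [hQ', if_true] using hy.1, hy.2⟩⟩).trans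
    ((dom (fun _ => True) 1 zero_le_one fun σ ⟨hσ, _⟩ => ?_).trans_eq (one_mul _))
  -- the price of one witness
  rw [one_mul, Wt.wt, prod_const]
  by_cases hne : ∃ ω, Wt.Real Ht (fun _ => Q') (m + 1) σ ω
  swap
  · exact (hμ.mono _ _ fun ω h => hne ⟨ω, h.2⟩).trans (hμ.bot.trans (pow_nonneg N.η.1 _))
  obtain ⟨ω0, h0⟩ := hne
  have lv0 : ∀ u ∈ σ.I, σ.lv u = 0 ∧ (σ.pt u).1 = σ.z u 0 := fun u hu => by
    have := hσ.lf u hu
    by_cases e : σ.lv u = 0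
    · simp only [hJ, e, if_true, mem_insert, mem_singleton] at this
      exact ⟨e, by rcases this with h | h <;> rw [h]⟩
    · simp [hJ, e] at this
  have anc : ∀ u ∈ σ.I, ∀ i ≤ m + 1, tdist (σ.z u i) (σ.z u 0) + S.loc 0 ≤ S.loc i :=
    fun u hu i hi => by
      have := hσ.anc hu (k := i) (by rw [(lv0 u hu).1]; omega) hi
      rwa [(lv0 u hu).1, N.d] at this
  have gl : ∀ u ∈ σ.I, Gl ex ey S p b P Lf (m + 1) (σ.z u 0) := fun u hu => by
    have q := fun i => (h0 u hu).2 i (by rw [(lv0 u hu).1]; omega)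
    refine H (σ.z u) (by simpa only [hQ', if_true] using q m (by omega)) (fun i hi => ?_)
      fun i hi => anc u hu i (by omega)
    simpa only [hQ', if_neg hi.ne] using q i (by omega)
  have far : ∀ u ∈ σ.I, ∀ u' ∈ σ.I, u ≠ u' → ∀ y y' : Tor 3 L, tdist (σ.z u 0) y ≤ S.ρ 0 →
      tdist (σ.z u' 0) y' ≤ S.ρ 0 → ∃ i ≤ m, ell (S.a1 + 1) u u' = i + 1 ∧ P.dd i ≤ tdist y y' :=
    fun u hu u' hu' hne y y' h1 h2 => by
      obtain ⟨i, hi⟩ := Nat.exists_eq_succ_of_ne_zero (ell_pos hK2 hne).ne'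
      have him : i ≤ m := by
        have := (ell_le_iff hK2).2 ((hσ.pre u hu).trans (hσ.pre u' hu').symm)
        omega
      have a1 := (hσ.sep u hu u' hu' i (ell_spec hK2 hi).1 (ell_spec hK2 hi).2).2
      have a2 : S.sq σ u i = S.sep i := by
        unfold Sys.sq
        split_ifs with e
        · exact le_antisymm (e ▸ (hσ.sp u hu).2) (e ▸ (hσ.sp u hu).1)
        · rfl
      rw [a2, N.d] at a1
      have a3 := anc u hu i (by omega)
      have a4 := anc u' hu' i (by omega)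
      have a5 := (N.sep i (by omega)).2
      have a6 := tdist_triangle (σ.z u i) (σ.z u 0) (σ.z u' i)
      have a7 := tdist_triangle (σ.z u 0) y (σ.z u' i)
      have a8 := tdist_triangle y y' (σ.z u' i)
      have a9 := tdist_triangle y' (σ.z u' 0) (σ.z u' i)
      rw [tdist_comm y' (σ.z u' 0), tdist_comm (σ.z u' 0) (σ.z u' i)] at a9
      have : S.loc 0 = S.ρ 0 := rfl
      exact ⟨i, him, hi, by omega⟩
  have ne : ∀ u ∈ σ.I, ∀ u' ∈ σ.I, u ≠ u' → ∀ y : Tor 3 L, tdist (σ.z u 0) y ≤ S.ρ 0 →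
      ¬ tdist (σ.z u' 0) y ≤ S.ρ 0 := fun u hu u' hu' hne y h1 h2 => by
    obtain ⟨i, hi, -, h⟩ := far u hu u' hu' hne y y h1 h2
    have := (N.sep i (by omega)).1
    rw [tdist_self] at h
    omega
  rw [← card_filter_add_card_filter_not (s := σ.I) fun u => (σ.pt u).2 = true]
  set I1 := σ.I.filter fun u => (σ.pt u).2 = true
  set I2 := σ.I.filter fun u => ¬ (σ.pt u).2 = true
  have m1 : ∀ u : I1, u.1 ∈ σ.I := fun u => (mem_filter.1 u.2).1
  have m2 : ∀ u : I2, u.1 ∈ σ.I := fun u => (mem_filter.1 u.2).1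
  refine min_le (PR_nn hp hb.mem) N.η.1 ?_ ?_
  · refine (PR_mono hp hb.mem fun ω h1 h2 u => ?_).trans ((PR_pi hp hb.mem
      (fun u : I1 => 𝒮 (σ.z u 0)) (fun I ω => ∀ s ∈ I, ω.1 s = true) (fun _ _ => 1)
      (fun _ I => ∏ s ∈ I, 6 * p s) (fun _ _ _ => zero_le_one) fun g hg => PR_coinF hp hb.mem g
        (fun u u' hne => disjoint_left.2 fun s h1 h2 => ne u (m1 u) u' (m1 u')
          (fun e => hne (Subtype.ext e)) _ ((hD _ (gl u (m1 u))).1 _ (hg u) s h1).1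
          ((hD _ (gl u' (m1 u'))).1 _ (hg u') s h2).1)
        fun u s hs => ((hD _ (gl u (m1 u))).1 _ (hg u) s hs).2).trans ?_)
    · have := (h2.2 u (m1 u)).1 ((lv0 u (m1 u)).2 ▸ gl u (m1 u)) h1
      rw [if_pos (mem_filter.1 u.2).2, (lv0 u (m1 u)).2] at this
      obtain ⟨I, a, b⟩ := this
      rw [sum_const, nsmul_one]
      exact Nat.one_le_cast.2 (card_pos.2 ⟨I, mem_filter.2 ⟨a, b⟩⟩)
    · rw [← Fintype.card_coe I1, ← card_univ, ← prod_const]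
      exact prod_le_prod (fun u _ => sum_nonneg fun I _ => mul_nonneg zero_le_one
        (prod_nonneg fun s _ => by have := (hp s).1; positivity)) fun u _ => by
          simpa only [one_mul] using (hD _ (gl u (m1 u))).2.1
  · have hc := fun u : I2 => (hD _ (gl u (m2 u))).2.2.1
    refine (PR_mono hp hb.mem fun ω h1 h2 u => ?_).trans ((PR_pi hp hb.mem
      (fun u : I2 => 𝒳 (σ.z u 0)) (fun X ω => X ⊆ ω.2) (fun u => c (σ.z u 0))
      (fun u X => (2 * Real.exp 1 * (r (σ.z u 0) X + P.cF)) ^ X.card)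
      (fun u X hX => (hc u X hX).1) fun g hg => PR_redF hp hb g
        (fun u u' hne => disjoint_left.2 fun v h1 h2 => ne u (m2 u) u' (m2 u')
          (fun e => hne (Subtype.ext e)) _ ((hc u _ (hg u)).2.2.2.1 v h1)
          ((hc u' _ (hg u')).2.2.2.1 v h2)) (fun u => r (σ.z u 0) (g u) + P.cF)
        (fun u => by have := (hc u _ (hg u)).2.1; have := N.cF; positivity)
        fun al u v hv => ?_).trans ?_)
    · have := (h2.2 u (m2 u)).1 ((lv0 u (m2 u)).2 ▸ gl u (m2 u)) h1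
      rwa [if_neg (mem_filter.1 u.2).2, (lv0 u (m2 u)).2] at this
    · rw [← add_sum_erase _ _ (mem_univ u)]
      refine add_le_add ((hc u _ (hg u)).2.2.2.2 (al u) v hv) ?_
      have := sum_ell hK2 ((I2.erase u.1)) u.1 0 (φ := fun w => if h : w ∈ I2 then
        ∑ v' ∈ g ⟨w, h⟩, Sp.GA ex ey p b v v' else 0) (ψ := fun i => P.k0 * (2 * P.γ (i - 1)))
        N.cF.le (fun w hw => ?_) (fun i => by have := (N.γ (i - 1)).1; positivity) fun i hi => by
          obtain ⟨i, rfl⟩ := Nat.exists_eq_succ_of_ne_zero hi.ne'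
          exact (N.γ i).2
      · refine le_trans (le_of_eq ?_) (this.trans_eq (by simp))
        refine sum_bij (fun w _ => w.1) (fun w hw => mem_erase.2
          ⟨fun e => (mem_erase.1 hw).1 (Subtype.ext e), w.2⟩) (fun _ _ _ _ e => Subtype.ext e)
          (fun w hw => ⟨⟨w, (mem_erase.1 hw).2⟩, mem_erase.2
            ⟨fun e => (mem_erase.1 hw).1 (congrArg Subtype.val e), mem_univ _⟩, rfl⟩) fun w _ => ?_
        rw [dif_pos w.2]
      · obtain ⟨hw1, hw2⟩ := mem_erase.1 hw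
        refine ⟨ell_pos hK2 hw1.symm, ?_⟩
        simp only [dif_pos hw2]
        refine (sum_le_card_nsmul _ _ (2 * P.γ (ell (S.a1 + 1) u w - 1)) fun v' hv' => ?_).trans ?_
        · obtain ⟨i, hi, e, h⟩ := far u (m2 u) w (m2 ⟨w, hw2⟩) hw1.symm _ _
            ((hc u _ (hg u)).2.2.2.1 v hv) ((hc ⟨w, hw2⟩ _ (hg _)).2.2.2.1 v' hv')
          rw [e, Nat.add_sub_cancel]
          exact (gl u (m2 u)).2 i (by omega) v v' ((hc u _ (hg u)).2.2.2.1 v hv) (al u v hv)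
            (al _ v' hv') h
        · rw [nsmul_eq_mul]
          exact mul_le_mul_of_nonneg_right (Nat.cast_le.2 (hc ⟨w, hw2⟩ _ (hg _)).2.2.1)
            (by have := (N.γ (ell (S.a1 + 1) u w - 1)).1; positivity)
    · rw [← Fintype.card_coe I2, ← card_univ, ← prod_const]
      exact prod_le_prod (fun u _ => sum_nonneg fun X hX => mul_nonneg (hc u X hX).1 (by
        have := (hc u X hX).2.1; have := N.cF; positivity)) fun u _ => (hD _ (gl u (m2 u))).2.2.2.1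

end Crest.Agent.N337.G4.Rs
end

-- ▼ part N337/G4/RStep

/-!
# Row 337, G4 (helper50): geometry of the fronts, the reset step and the base step
-/

set_option autoImplicit false
set_option linter.unusedSectionVars false

namespace Crest.Agent.N337.G4.Rs

open Finset Crest.Agent.N337.Rep Crest.Agent.N337.Free Crest.Agent.N337.Rg Crest.Agent.N337.Tr
open Crest.Agent.N337.Arc (Fld)

section geo
variable {L : ℕ} [NeZero L] {Q : Gp} {U U' : ℕ → Tor 3 L → Prop} {D : Dat L} {l r r' d d' : ℕ}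
  {y y' : Tor 3 L}

lemma In.up (h : In D r y) (hr : r + tdist y y' ≤ r') : In D r' y' := by
  obtain ⟨B, hB, h⟩ := h
  exact ⟨B, hB, by have := tdist_triangle B.1 y y'; omega⟩

lemma In.mono (h : In D r y) (hr : r ≤ r') : In D r' y := h.up (by rw [tdist_self]; omega)

lemma Fr.near (h : Fr U l d y) (hd : d' + tdist y y' ≤ d) : Fr U l d' y' := fun u hu => by
  have := h u hu
  have := tdist_triangle y y' u
  omega

lemma Fr.anti (h : Fr U l d y) (hU : ∀ u, U' l u → U l u) : Fr U' l d y := fun u hu => h u (hU u hu)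

/-- the fronts move with the point. -/
lemma Cd.near (h : Cd Q U l D r' y) (hr : r + tdist y y' ≤ r') : Cd Q U l D r y' :=
  ⟨fun k => h.1 (k.up (by rwa [tdist_comm])), fun u hu k => h.2 u hu (by
    have := tdist_triangle y y' u; omega)⟩

lemma Cd.mono (h : Cd Q U l D r' y) (hr : r ≤ r') : Cd Q U l D r y :=
  h.near (by rw [tdist_self]; omega)

lemma Cd.anti (h : Cd Q U l D r y) (hU : ∀ u, U' l u → U l u) : Cd Q U' l D r y :=
  ⟨h.1, fun u hu => h.2 u (hU u hu)⟩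

lemma Val.anti (h : Val Q U l D) (hU : ∀ u, U' l u → U l u) : Val Q U' l D :=
  ⟨h.card, h.rad, h.sep, fun u hu => h.cls u (hU u hu)⟩

lemma Cd.fr (h : Cd Q U l D r y) : Fr U l r y := fun u hu => lt_of_not_ge fun k =>
  h.1 ((h.2 u hu (by omega)).up (by rw [tdist_comm]; omega))

/-- no outer erosion. -/
lemma Cd.clos (hV : Val Q U l D) (h : Cd Q U l D r' y) (hr : r ≤ Q.sg l) (hy : tdist y y' ≤ Q.W l)
    (hn : ¬ In D r y') : Cd Q U l D r y' ∨ Cs Q U l y' := by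
  by_cases k : In D (Q.dc l) y'
  · exact .inl ⟨hn, fun u hu h1 => hV.cls u hu (k.up (by omega))⟩
  · refine .inr fun u hu => lt_of_not_ge fun h1 => k ((h.2 u hu ?_).up (by rw [tdist_comm]; omega))
    have := tdist_triangle y y' u
    omega

lemma Ty.mono {mt j l0 : ℕ} {D : ℕ → Dat L} {r r' : ℕ → ℕ} (h : Ty Q U mt j l0 D r' y)
    (hr : ∀ i, j ≤ i → i < mt → r i ≤ r' i) : Ty Q U mt j l0 D r y :=
  ⟨h.1, fun i a b => (h.2 i a b).mono (hr i a b)⟩

lemma Ty.fr {mt j : ℕ} {D : ℕ → Dat L} {r : ℕ → ℕ} (h : Ty Q U mt j 0 D r y) (hm : 1 ≤ mt)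
    (h1 : Q.fr ≤ Q.dc 0) (h2 : j = 0 → Q.fr ≤ r 0) : Fr U 0 Q.fr y := by
  rcases j.eq_zero_or_pos with rfl | hj
  · exact (h.2 0 le_rfl hm).fr.near (by rw [tdist_self]; exact h2 rfl)
  · exact Fr.near (h.1 0 le_rfl hj) (by rw [tdist_self]; exact h1)

variable {α κ : Type} [SemilatticeSup α] [Preorder κ] {S : Sys (Tor 3 L) α κ} {G : Eg}
  {Lf : Tor 3 L → Prop}

/-- the cells near `y`. -/
def T1 (Q : Gp) (l : ℕ) (y : Tor 3 L) : Finset (Tor 3 L) := univ.filter fun z => tdist y z ≤ Q.A l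

open Classical in
/-- the cells in the range of the route, off the front. -/
noncomputable def T2 (S : Sys (Tor 3 L) α κ) (G : Eg) (l : ℕ) (D : Dat L) (r : ℕ) (y : Tor 3 L) :
    Finset (Tor 3 L) := univ.filter fun z => tdist y z ≤ G.Rs l ∧ ¬ In D (r + S.loc l) z

lemma mem_T2 {z : Tor 3 L} : z ∈ T2 S G l D r y ↔ tdist y z ≤ G.Rs l ∧ ¬ In D (r + S.loc l) z := by
  classical
  simp [T2]

lemma T1_sub (N : NG S G Q) (hl : l < G.mt) (h : Cd Q U l D r' y) (hr : r + Q.un l ≤ r') :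
    T1 Q l y ⊆ T2 S G l D r y := fun z hz => by
  have h1 := (mem_filter.1 hz).2
  have := N.A l hl
  exact mem_T2.2 ⟨by omega, fun k => h.1 (k.up (by rw [tdist_comm]; omega))⟩

/-- **the route datum.** -/
theorem rt_of (hd : ∀ x y, S.d x y = tdist x y) (N : NG S G Q) (hl : l < G.mt) (hV : Val Q U l D)
    (h : Cd Q U l D r' y) (hr : r + Q.un l ≤ r') (hr' : r' ≤ Q.sg l)
    (n1 : ¬ FT S (Cp S Q U) Lf (T1 Q l y) 0 l) (n2 : ¬ FT S (Cp S Q U) Lf (T2 S G l D r y) S.a1 l)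
    {x : Sd.V} (hx : tcast L x = y) : Rt S G l (Jr S Q U Lf l) x := by
  classical
  obtain ⟨F, c1, hF⟩ := Sys.cover_of_not_sepd n2
  obtain ⟨a1, a2, a3, a4⟩ := N.A l hl
  obtain ⟨s1, s2, s3⟩ := N.σ l hl
  have w1 := (N.W l hl).1
  have hL := N.hL l hl
  have dl : ∀ z, dist x (lf x z) = tdist y z := fun z => by rw [dist_comm, dist_lf, hx]
  obtain ⟨e, he⟩ : ∃ e, ∀ B ∈ D, tdist y B.1 < G.c * (B.2 + Q.sg l) →
      Sd.hgt e x - Sd.hgt e (lf x B.1) = dist x (lf x B.1) := by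
    by_cases k : ∃ B ∈ D, tdist y B.1 < G.c * (B.2 + Q.sg l)
    · obtain ⟨B, hB, k⟩ := k
      refine (Sd.exists_hgt x (lf x B.1)).imp fun e he B' hB' k' => ?_
      by_cases e1 : B' = B
      · rwa [e1]
      have b1 := hV.sep B' hB' B hB e1
      have b2 := tdist_triangle B'.1 y B.1
      have b3 := Nat.mul_le_mul_right (B'.2 + Q.sg l + (B.2 + Q.sg l)) N.c.1
      rw [tdist_comm B'.1 y] at b2
      rw [mul_add G.c] at b3
      omega
    · exact ⟨(0, true), fun B hB k' => absurd ⟨B, hB, k'⟩ k⟩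
  refine ⟨e, (D.filter fun B => G.c * (B.2 + Q.sg l) ≤ tdist y B.1).image
    (fun B => (lf x B.1, ((B.2 + Q.sg l : ℕ) : ℝ))) ∪ (F.filter fun f => G.c * G.σ l ≤ tdist y f).image
      fun f => (lf x f, (G.σ l : ℝ)), (card_union_le _ _).trans ((add_le_add (card_image_le.trans
        ((card_filter_le _ _).trans hV.card)) (card_image_le.trans ((card_filter_le _ _).trans
          c1))).trans N.q), fun B hB => ?_, fun p hp hpx => ?_⟩
  · rcases mem_union.1 hB with k | k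
    · obtain ⟨B', hB', rfl⟩ := mem_image.1 k
      obtain ⟨b1, b2⟩ := mem_filter.1 hB'
      have := hV.rad B' b1
      refine ⟨Nat.cast_le.2 (by omega), Nat.cast_le.2 (by omega), ?_⟩
      simp only [dl]
      exact_mod_cast b2
    · obtain ⟨f, hf, rfl⟩ := mem_image.1 k
      refine ⟨le_rfl, Nat.cast_le.2 (by omega), ?_⟩
      simp only [dl]
      exact_mod_cast (mem_filter.1 hf).2
  have p1 : tdist y (tcast L p) ≤ G.Rs l := hx ▸ tdist_le_of (by rwa [dist_comm])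
  by_cases k : In D (r + S.loc l) (tcast L p)
  · obtain ⟨B, hB, k⟩ := k
    have b0 := hV.rad B hB
    have b1 : dist p (lf x B.1) ≤ (B.2 + (r + S.loc l) : ℕ) := dist_lf_le hpx k (by omega)
    have b2 : ((B.2 + (r + S.loc l) : ℕ) : ℝ) ≤ (B.2 + Q.sg l : ℕ) := Nat.cast_le.2 (by omega)
    rcases le_or_gt (G.c * (B.2 + Q.sg l)) (tdist y B.1) with k1 | k1
    · exact .inr ⟨_, mem_union_left _ (mem_image_of_mem _ (mem_filter.2 ⟨hB, k1⟩)), b1.trans b2⟩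
    have b3 : B.2 + r' < tdist y B.1 := lt_of_not_ge fun k2 => h.1 ⟨B, hB, by rwa [tdist_comm]⟩
    have b4 : ((B.2 + (r + S.loc l) : ℕ) : ℝ) + G.A l < tdist y B.1 := by
      exact_mod_cast (by omega : B.2 + (r + S.loc l) + G.A l < tdist y B.1)
    have b5 := he B hB k1
    have b6 := Sd.hgt_le e p (lf x B.1)
    have b7 := dist_triangle x p (lf x B.1)
    have b8 := dist_triangle p (lf x B.1) x
    have b9 : (tdist y B.1 : ℝ) + (B.2 + Q.sg l : ℕ) ≤ (G.c + 3) * G.W l := by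
      have := Nat.mul_le_mul_left G.c (by omega : B.2 + Q.sg l ≤ G.W l)
      exact_mod_cast (by rw [add_mul]; omega : tdist y B.1 + (B.2 + Q.sg l) ≤ (G.c + 3) * G.W l)
    rw [dist_comm (lf x B.1) x] at b8
    rw [dist_comm x p] at b7
    rw [dl] at b5 b7 b8
    have := dist_nonneg (x := p) (y := x)
    have : (0 : ℝ) ≤ G.A l := Nat.cast_nonneg _
    exact .inl ⟨by linarith, by linarith, by linarith⟩
  have p2 : FQ S (Cp S Q U) Lf l (tcast L p) :=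
    hp.resolve_left fun k1 => k ((h.2 _ k1 (by omega)).mono (Nat.zero_le _))
  have p3 : Q.A l < tdist y (tcast L p) := lt_of_not_ge fun k1 =>
    n1 ⟨{tcast L p}, rfl, by simpa [T1] using ⟨k1, p2⟩, by simp⟩
  obtain ⟨f, hf, p4⟩ : ∃ f ∈ F, tdist f (tcast L p) ≤ S.sep l := by
    by_contra k1
    exact hF _ (fun f hf => hd f _ ▸ lt_of_not_ge fun k2 => k1 ⟨f, hf, k2⟩) ⟨mem_T2.2 ⟨p1, k⟩, p2⟩
  have := tdist_triangle y f (tcast L p)
  rw [add_mul] at a2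
  exact .inr ⟨_, mem_union_right _ (mem_image_of_mem _ (mem_filter.2 ⟨hf, by omega⟩)),
    dist_lf_le hpx (p4.trans s1) (by omega)⟩

/-- **cover of the junk** (input of G1). -/
theorem covJ (hd : ∀ x y, S.d x y = tdist x y) {F0 : Finset (Tor 3 L)} {R s : ℕ}
    (h : ¬ FQ S (Cp S Q U) Lf (l + 1) y) (hR : R ≤ S.ρ (l + 1))
    (hU : ∀ u, tdist y u ≤ R + Q.dc l + S.loc l → U l u → ∃ f ∈ F0, tdist f u ≤ s)
    (hs : S.sep l ≤ s + Q.dc l + S.loc l) : ∃ F : Finset (Tor 3 L), F.card ≤ F0.card + S.a1 ∧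
      ∀ z, tdist y z ≤ R → Jr S Q U Lf l z → ∃ f ∈ F, tdist f z ≤ s + Q.dc l + S.loc l := by
  classical
  obtain ⟨F, c1, hF⟩ := Sys.cover_of_not_sepd h
  refine ⟨F0 ∪ F, (card_union_le _ _).trans (by omega), fun z hz k => ?_⟩
  by_cases k1 : Cp S Q U l z
  · have k2 := k.resolve_left fun k2 => by have := k1 z k2; rw [tdist_self] at this; omega
    by_contra k3
    exact hF z (fun f hf => hd f z ▸ lt_of_not_ge fun k4 => k3 ⟨f, mem_union_right _ hf, by omega⟩)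
      ⟨hd y z ▸ hz.trans hR, k1, k2⟩
  · simp only [Cp, Fr, not_forall, not_lt] at k1
    obtain ⟨u, h1, h2⟩ := k1
    obtain ⟨f, hf, h3⟩ := hU u (by have := tdist_triangle y z u; omega) h1
    have := tdist_triangle f u z
    rw [tdist_comm u z] at this
    exact ⟨f, mem_union_left _ hf, by omega⟩

/-- **no failing cell at the top**: the leaves live in a small domain. -/
theorem topJ (hd : ∀ x y, S.d x y = tdist x y) (ha : 1 ≤ S.a1) {P : ℕ → Tor 3 L → Prop} {δ : ℕ}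
    (h : ∀ z z', Lf z → Lf z' → tdist z z' ≤ δ) (hs : δ + 2 * S.loc l ≤ S.sep l) :
    ¬ FQ S P Lf (l + 1) y := by
  rintro ⟨Y, h1, h2, h3⟩
  obtain ⟨z, hz, z', hz', hne⟩ := one_lt_card.1 (by omega : 1 < Y.card)
  obtain ⟨u, a1, a2⟩ := (h2 z hz).2.2.leaf
  obtain ⟨u', b1, b2⟩ := (h2 z' hz').2.2.leaf
  have := h3 z hz z' hz' hne
  have := h u u' a1 b1
  have := tdist_triangle z u z'
  have := tdist_triangle u u' z'
  rw [tdist_comm u' z'] at this
  simp only [hd] at *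
  omega

end geo

variable {L n T : ℕ} [NeZero L] [NeZero T] {ex ey : Fin T → Tor 3 L × Fin n}
  {α κ : Type} [SemilatticeSup α] [Preorder κ] {S : Sys (Tor 3 L) α κ} {G : Eg} {Q : Gp}
  {p : Fin T → ℝ} {b b' : Pt L n T → ℝ} {P : Pz} {U : ℕ → Tor 3 L → Prop}
  {Lf : CR T (Tor 3 L × Fin n) → Tor 3 L → Prop}
  {Pr : ℕ → Tor 3 L → Pt L n T → Pt L n T → ℝ → Prop} {l : ℕ} {D : ℕ → Dat L} {r r' : ℕ → ℕ}
  {y : Tor 3 L}

lemma NT.mono {m m' : ℕ} (N : NT S P m) (h : m' ≤ m) : NT S P m' :=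
  ⟨N.d, N.a1, N.η, N.cF, N.γ, N.ε, fun k hk => N.rec' k (by omega), fun k hk => N.sep k (by omega)⟩

/-- claims make good leaves. -/
theorem RIn.gl (I : RIn ex ey S G Q p b P b' U Lf Pr) {m : ℕ} (h0 : Fr U 0 Q.fr y)
    (h : ∀ k ≤ m, Bd ex ey p b Pr k y (2 * P.γ k)) : Gl ex ey S p b P Lf (m + 1) y :=
  ⟨I.leaf y h0 (h 0 (Nat.zero_le _)), fun k hk v u h1 h2 h3 h4 => by
    simpa using h k (by omega) v u 0 (I.far k y v u h1 h2 h3 h4)⟩

/-- the bad event of the reset step. -/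
def Bad0 (S : Sys (Tor 3 L) α κ) (G : Eg) (Q : Gp) (U : ℕ → Tor 3 L → Prop) (Lf : Tor 3 L → Prop)
    (l : ℕ) (D : ℕ → Dat L) (r : ℕ → ℕ) (y : Tor 3 L) : Prop :=
  ∃ i ∈ Ico l G.mt, FT S (Cp S Q U) Lf (T1 Q i y) 0 i ∨
    FT S (Cp S Q U) Lf (T2 S G i (D i) (r i) y) S.a1 i

theorem RIn.core (I : RIn ex ey S G Q p b P b' U Lf Pr) (hl : l ≤ G.mt)
    (hD : ∀ i, l ≤ i → i < G.mt →
      Val Q U i (D i) ∧ Q.fr ≤ r i ∧ r i + Q.un i ≤ r' i ∧ r' i ≤ Q.sg i)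
    (hy : Ty Q U G.mt l l D r' y)
    (h0 : l = 0 → Bd ex ey p b Pr 0 y (2 * P.γ 0) ∨ ∀ x, b (0, x) = 0)
    (hB : PR ex ey p b (fun ω => Bad0 S G Q U (Lf ω) l D r y) ≤ P.γ l / 2) :
    Bd ex ey p b Pr l y (P.γ l) := fun v u o hv => by
  obtain ⟨Bad, g, g0, h1, h2, h3, h4⟩ := I.que l hl y v u o hv fun e => ⟨by
    subst e
    have := hD 0 le_rfl I.ng.mt
    exact hy.fr I.ng.mt I.ng.fr fun _ => by omega, h0 e⟩
  have key := annG (ex := ex) (ey := ey) I.hp I.hb I.hb' I.le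
    (Bad := fun ω => Bad0 S G Q U (Lf ω) l D r y ∨ Bad ω) (fun ξ R R' hR => Or.imp
      (fun ⟨i, hi, k⟩ => ⟨i, hi, k.imp
        (Sys.Sepd.mono · fun z hz => ⟨hz.1, hz.2.mono (fun _ _ _ h => h) fun z => I.mono ξ R R' z hR⟩)
        (Sys.Sepd.mono · fun z hz => ⟨hz.1, hz.2.mono (fun _ _ _ h => h) fun z => I.mono ξ R R' z hR⟩)⟩)
      (h2 ξ R R' hR)) h1 g0 (v := v) fun ω k1 k2 k3 k4 => h4 ω k1 (fun k => k2 (.inr k))
        (fun x hx i a1 a2 => ⟨lf x y, ?_, ?_⟩) k3 k4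
  · have := (sub_PR (ex := ex) (ey := ey) I.hp I.hb.mem).or
      (fun ω => Bad0 S G Q U (Lf ω) l D r y) Bad
    linarith
  · rw [dist_comm, dist_lf, tdist_comm]
    exact Nat.cast_le.2 (hx.trans (I.ng.rr i a2))
  · obtain ⟨d1, -, d2, d3⟩ := hD i a1 a2
    exact rt_of I.nt.d I.ng a2 d1 (hy.2 i a1 a2) d2 d3
      (fun k => k2 (.inl ⟨i, mem_Ico.2 ⟨a1, a2⟩, .inl k⟩))
      (fun k => k2 (.inl ⟨i, mem_Ico.2 ⟨a1, a2⟩, .inr k⟩)) (tcast_lf x y)

/-- **the reset step.** -/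
theorem reset : ResetStmt ex ey S G Q p b P := fun b' U Lf Pr I l hl D r r' hD H y hy => by
  have hμ := sub_PR (ex := ex) (ey := ey) I.hp I.hb.mem
  have hr : ∀ i, l ≤ i → i < G.mt → r i ≤ r' i := fun i a b => by have := hD i a b; omega
  refine I.core hl hD hy (fun e => .inl (by subst e; exact H 0 le_rfl hl 0 le_rfl y (hy.mono hr)))
    ((hμ.union (Ico l G.mt) _ fun _ h => h).trans ((sum_le_sum fun i hi => ?_).trans (I.sum l hl)))
  obtain ⟨a1, a2⟩ := mem_Ico.1 hi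
  obtain ⟨d1, d0, d2, d3⟩ := hD i a1 a2
  obtain ⟨w1, w2⟩ := I.ng.W i a2
  have key : ∀ z : ℕ → Tor 3 L, z i ∈ T2 S G i (D i) (r i) y → (∀ k < i, Cp S Q U k (z k)) →
      (∀ k ≤ i, tdist (z k) (z 0) + S.loc 0 ≤ S.loc k) → Gl ex ey S p b P Lf (i + 1) (z 0) :=
    fun z h1 h2 h3 => by
      obtain ⟨h1, h4⟩ := mem_T2.1 h1
      have h5 := h3 i le_rfl
      have h6 := tdist_triangle y (z i) (z 0)
      have lo : ∀ k < i, Cs Q U k (z 0) := fun k hk =>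
        Fr.near (h2 k hk) (by have := h3 k hk.le; omega)
      have up : ∀ k, i < k → k < G.mt → Cd Q U k (D k) (r k) (z 0) := fun k b1 b2 =>
        (hy.2 k (by omega) b2).near (by
          have := I.ng.un i k b1 b2; have := (hD k (by omega) b2).2.2.1; omega)
      obtain ⟨j, j1, j2, hj⟩ : ∃ j, i ≤ j ∧ j ≤ G.mt ∧ ∀ l0, Ty Q U G.mt j l0 D r (z 0) := by
        rcases (hy.2 i a1 a2).clos d1 (r := r i) (y' := z 0) (by omega) (by omega)
          fun k => h4 (k.up (by rw [tdist_comm]; omega)) with k | k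
        · exact ⟨i, le_rfl, a2.le, fun l0 => ⟨fun k _ => lo k, fun k' b1 b2 =>
            b1.eq_or_lt.elim (fun e => e ▸ k) fun b1 => up k' b1 b2⟩⟩
        · exact ⟨i + 1, by omega, a2, fun l0 => ⟨fun k' _ b1 =>
            (Nat.le_of_lt_succ b1).eq_or_lt.elim (fun e => e ▸ k) (lo k'), up⟩⟩
      refine I.gl ((hj 0).fr I.ng.mt I.ng.fr fun e => ?_) fun k hk =>
        H j (by omega) j2 k (by omega) _ (hj k)
      obtain rfl : i = 0 := by omega
      exact d0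
  have N := I.nt.mono (show i + 1 ≤ G.mt from a2)
  have s1 := T1_sub I.ng a2 (hy.2 i a1 a2) d2
  have s2 : ∀ z ∈ T2 S G i (D i) (r i) y, tdist y z ≤ S.ρ (i + 1) := fun z hz =>
    (mem_T2.1 hz).1.trans w2
  refine (hμ.or _ _).trans (add_le_add ?_ ?_)
  · simpa using tree (A := T1 Q i y) I.hp I.hb N (Nat.zero_le _) (card_ball_le y (Q.A i)) (fun z hz => s2 z (s1 hz))
      fun z hz => key z (s1 hz)
  · simpa using tree I.hp I.hb N le_rfl ((card_le_card fun z hz =>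
      mem_filter.2 ⟨mem_univ _, s2 z hz⟩).trans (card_ball_le y (S.ρ (i + 1)))) s2 key

/-- **the base step.** -/
theorem base : BaseStmt ex ey S G Q p b P := fun b' U Lf Pr I h0 l hl D r r' hD y hy => by
  refine I.core hl hD hy (fun _ => .inr h0) ((PR_zero I.hp I.hb.mem h0 fun ξ hξ ⟨i, _, k⟩ => ?_).trans
    (by have := (I.nt.γ l).1; positivity))
  obtain ⟨A, m, Y, h1, h2, -⟩ : ∃ A m, FT S (Cp S Q U) (Lf (ξ, ∅)) A m i :=
    k.elim (fun k => ⟨_, _, k⟩) fun k => ⟨_, _, k⟩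
  obtain ⟨z, hz⟩ := card_pos.1 (h1 ▸ Nat.succ_pos _ : 0 < Y.card)
  obtain ⟨u, hu, -⟩ := (h2 z hz).2.leaf
  exact I.zero ξ u hξ hu

end Crest.Agent.N337.G4.Rs
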