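import Crest.Agent.N337.G4.Speed
import Crest.Agent.N337.A.Sup
import Crest.Agent.N337.A.Geo
import Mathlib
import Crest.Agent.N337.G4.RStep

-- ▼ part N337/G4/Jump
section

/-!
# Row 337, G4 (helper23): from the kill on a time slice to the kill on a cylinder
-/

set_option autoImplicit false
set_option linter.unusedSectionVars false

namespace Crest.Agent.N337.G4.Sp

open Finset Equiv Function Matrix Crest.Agent.N337.Rep Crest.Agent.N337.LY0 Crest.Agent.N337.DL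
  Crest.Agent.N337.Arc

section gen
variable {S : Type} [Fintype S] [DecidableEq S]

/-- one source: the weight of the arc from the source to the sinks. -/
lemma Tm_one (π : Perm S) (t b : S → ℝ) (u : S) : Tm π (Pi.single u 1) t b =
    ∏ c, (1 + pr π b c) + aw π b t (π u) * ∏ c ∈ univ.erase (o π u), (1 + pr π b c) := by
  obtain ⟨P, h1, h2⟩ := Tr_update π (fun v => mv 0 (t v) (b v)) u
  have e : (fun v => mv ((Pi.single u 1 : S → ℝ) v) (t v) (b v)) =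
      update (fun v => mv 0 (t v) (b v)) u (mv 1 (t u) (b u)) := by
    funext v; rcases eq_or_ne v u with rfl | h <;> simp [*]
  have h3 := h2 (mv 0 (t u) (b u))
  rw [update_eq_self u fun v => mv 0 (t v) (b v), Tr_up] at h3
  have h4 : aw π b t (π u) = (mv 0 (t u) (b u) * P) 0 1 := by
    rw [← h1, Pc, Pk_up]; simp [aw]
  rw [Tm, e, Tp, ← mul_prod_erase _ _ (mem_univ (o π u)), h2,
    ← mul_prod_erase univ (fun c => 1 + pr π b c) (mem_univ (o π u)), h3, h4, ← add_mul]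
  congr 1
  · simp only [mv, trace_fin_two, mul_apply, Fin.sum_univ_two, of_apply,
      cons_val', cons_val_zero, cons_val_one, cons_val_fin_one]
    ring
  · refine prod_congr rfl fun c hc => ?_
    rw [← Tr_up π t b c]
    exact Tr_congr π fun v hv => update_of_ne (fun h => ne_of_mem_erase hc (by rw [← hv, h])) _ _

lemma aw_le_one (π : Perm S) {b : S → ℝ} (hb : ∀ v, 0 ≤ b v ∧ b v ≤ 1) (v x : S) :
    aw π b (Pi.single v 1) x ≤ 1 := by
  refine le_trans (sum_le_sum (g := fun j => (Pi.single v 1 : S → ℝ) (π^[j] x)) fun j _ =>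
    mul_le_of_le_one_right (by rw [Pi.single_apply]; split_ifs <;> norm_num)
      (prod_le_one (fun i _ => (hb _).1) fun i _ => (hb _).2)) ?_
  rw [← sum_ob π x (Pi.single v 1 : S → ℝ), sum_pi_single']
  split_ifs <;> norm_num

lemma aw_nonneg (π : Perm S) {b : S → ℝ} (hb : ∀ v, 0 ≤ b v) (v x : S) :
    0 ≤ aw π b (Pi.single v 1) x :=
  sum_nonneg fun j _ => mul_nonneg (by rw [Pi.single_apply]; split_ifs <;> norm_num)
    (prod_nonneg fun i _ => hb _)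

end gen

variable {Λ : Type} [Fintype Λ] [DecidableEq Λ] {T : ℕ} [NeZero T] (ex ey : Fin T → Λ)
variable {p : Fin T → ℝ} {b : Fin T × Λ → ℝ}

/-- the annealed Green function as a sum over arcs. -/
lemma AG_arc (hp : ∀ s, 0 ≤ p s ∧ p s ≤ 1) (hb : Fld b) (v u : Fin T × Λ) :
    RR.AG ex ey p b v u = ∑ ξ, Pw p ξ * (aw (Sg ex ey ξ) b (Pi.single v 1) (Sg ex ey ξ u) *
      ∏ c ∈ univ.erase (o (Sg ex ey ξ) u), (1 + pr (Sg ex ey ξ) b c)) := by
  have h := Ft_two ex ey hp hb u v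
  simp only [Ft_eq, Tm_one, mul_add, sum_add_distrib] at h
  exact (add_left_cancel h).symm

open Classical in
/-- killing points that are dead anyway on a good event. -/
theorem jump_gen (hp : ∀ s, 0 ≤ p s ∧ p s ≤ 1) (hb : Fld b) (O : Finset (Fin T × Λ))
    (Sl : (Fin T → Bool) → Prop) (v u : Fin T × Λ)
    (h1 : ∀ ξ, Sl ξ → ∀ w ∈ O, ∃ k, b ((Sg ex ey ξ)^[k] w) = 0)
    (h2 : ∀ ξ, Sl ξ → ∀ i j, i < j → (Sg ex ey ξ)^[j + 1] u = v → (Sg ex ey ξ)^[i + 1] u ∈ O →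
      ∃ k < j, b ((Sg ex ey ξ)^[k + 1] u) = 0) :
    RR.AG ex ey p b v u ≤ RR.AG ex ey p (kill b O) v u +
      ∑ ξ, Pw p ξ * A.lw ex ey b ξ * if Sl ξ then 0 else 1 := by
  have hb' := hb.kill O
  rw [AG_arc ex ey hp hb, AG_arc ex ey hp hb', ← sum_add_distrib]
  refine sum_le_sum fun ξ _ => ?_
  rw [mul_assoc, ← mul_add]
  refine mul_le_mul_of_nonneg_left ?_ (Pw_nonneg hp ξ)
  set π := Sg ex ey ξ with hπ
  have n1 : ∀ {b : Fin T × Λ → ℝ}, Fld b → 0 ≤ ∏ c ∈ univ.erase (o π u), (1 + pr π b c) :=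
    fun hb => prod_nonneg fun c _ => add_nonneg zero_le_one (pr_nonneg (fun v => (hb.mem v).1) c)
  split_ifs with hS
  · rw [mul_zero, add_zero]
    refine le_of_eq (congrArg₂ _ (sum_congr rfl fun j _ => ?_) (prod_congr rfl fun c _ => ?_))
    · by_cases hv : π^[j] (π u) = v
      · congr 1
        by_cases hO : ∃ i < j, π^[i + 1] u ∈ O
        · obtain ⟨i, hi, hO⟩ := hO
          obtain ⟨k, hk, h0⟩ := h2 ξ hS i j hi hv hO
          exact (prod_eq_zero (mem_range.2 hk) h0).trans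
            (prod_eq_zero (f := fun i => kill b O (π^[i] (π u))) (mem_range.2 hi) (if_pos hO)).symm
        · exact prod_congr rfl fun i hi => (if_neg fun h => hO ⟨i, mem_range.1 hi, h⟩).symm
      · simp [hv]
    · congr 1
      by_cases hO : ∃ w ∈ O, o π w = c
      · obtain ⟨w, hw, rfl⟩ := hO
        obtain ⟨k, hk⟩ := h1 ξ hS w hw
        rw [pr_zero (o_it π k w) hk, pr_zero (a := kill b O) rfl (if_pos hw)]
      · exact pr_congr fun w hw => (if_neg fun h => hO ⟨w, h, hw⟩).symm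
  · rw [mul_one, A.lw, ← mul_prod_erase _ _ (mem_univ (o π u))]
    refine le_add_of_nonneg_of_le (mul_nonneg (aw_nonneg π (fun v => (hb'.mem v).1) _ _) (n1 hb'))
      (mul_le_mul_of_nonneg_right ((aw_le_one π hb.mem _ _).trans (le_add_of_nonneg_right
        (pr_nonneg (fun v => (hb.mem v).1) _))) (n1 hb))

section geo
variable {ex ey} {d : Λ → Λ → ℕ} {W : Fin T × Λ → Prop} {v0 : ℕ} {ξ : Fin T → Bool}

lemma it_val (ξ : Fin T → Bool) (k : ℕ) (a : Fin T × Λ) :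
    ((Sg ex ey ξ)^[k] a).1.val = (a.1.val + k) % T := by
  rw [← A.Sg_pow_val (ex := ex) (ey := ey) ξ k a, Perm.coe_pow]

lemma it_step (ξ : Fin T → Bool) (k : ℕ) (a : Fin T × Λ) :
    ((Sg ex ey ξ)^[k + 1] a).2 = ((Sg ex ey ξ)^[k] a).2 ∨ (ξ ((Sg ex ey ξ)^[k] a).1 = true ∧
      ((Sg ex ey ξ)^[k + 1] a).2 = swap (ex ((Sg ex ey ξ)^[k] a).1) (ey ((Sg ex ey ξ)^[k] a).1)
        ((Sg ex ey ξ)^[k] a).2) := by
  rw [iterate_succ_apply']
  generalize (Sg ex ey ξ)^[k] a = w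
  obtain ⟨s, x⟩ := w
  rw [Sg_apply]
  cases h : ξ s <;> simp [sg]

lemma it_one (hd : A.Met ex ey d) (ξ : Fin T → Bool) (k : ℕ) (a : Fin T × Λ) :
    d ((Sg ex ey ξ)^[k] a).2 ((Sg ex ey ξ)^[k + 1] a).2 ≤ 1 := by
  rcases it_step (ex := ex) (ey := ey) ξ k a with h | ⟨-, h⟩ <;> rw [h]
  · rw [hd.1]; exact zero_le_one
  · rw [swap_apply_def]
    split_ifs with h1 h2
    · exact hd.ends (.inl h1) (.inr rfl)
    · exact hd.ends (.inr h2) (.inl rfl)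
    · rw [hd.1]; exact zero_le_one

lemma seg (hS : A.Slow ex ey d (A.Act ex ey d ξ) W v0) (a : Fin T × Λ) {i j : ℕ} (hij : i ≤ j)
    (hj : a.1.val + j ≤ T) (hW : ∀ k, i ≤ k → k < j → W ((Sg ex ey ξ)^[k] a)) :
    d ((Sg ex ey ξ)^[i] a).2 ((Sg ex ey ξ)^[j] a).2 ≤ v0 := by
  have := hS (a.1.val + i) (a.1.val + j) (fun r => ((Sg ex ey ξ)^[r - a.1.val] a).2) (by omega) hj
    fun r h1 h2 => by
      have e : ((Sg ex ey ξ)^[r.val - a.1.val] a).1 = r := Fin.ext (by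
        rw [it_val, show a.1.val + (r.val - a.1.val) = r.val by omega, Nat.mod_eq_of_lt r.2])
      have e2 : r.val + 1 - a.1.val = r.val - a.1.val + 1 := by omega
      refine ⟨?_, ?_⟩
      · have := hW (r.val - a.1.val) (by omega) (by omega)
        rwa [← Prod.mk.eta (p := (Sg ex ey ξ)^[r.val - a.1.val] a), e] at this
      · have := it_step (ex := ex) (ey := ey) ξ (r.val - a.1.val) a
        rw [e, ← e2] at this
        exact this.imp_right fun h => ⟨.inl h.1, h.2⟩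
  simpa only [Nat.add_sub_cancel_left] using this

variable {D : Finset Λ}

lemma fwd (hd : A.Met ex ey d) (hS : A.Slow ex ey d (A.Act ex ey d ξ) W v0)
    (hW : ∀ u, u.2 ∈ A.nbd d (v0 + 1) D → u.2 ∉ D → b u ≠ 0 → W u) {a : Fin T × Λ} (ha : a.2 ∈ D)
    (n : ℕ) (hn : a.1.val + n ≤ T) (hb : ∀ k, 0 < k → k < n → b ((Sg ex ey ξ)^[k] a) ≠ 0) :
    ((Sg ex ey ξ)^[n] a).2 ∈ A.nbd d (v0 + 1) D := by
  classical
  induction n using Nat.strong_induction_on with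
  | _ n ih =>
  set l := Nat.findGreatest (fun k => ((Sg ex ey ξ)^[k] a).2 ∈ D) n with hl
  have h1 : ((Sg ex ey ξ)^[l] a).2 ∈ D :=
    Nat.findGreatest_spec (P := fun k => ((Sg ex ey ξ)^[k] a).2 ∈ D) (Nat.zero_le n) ha
  refine A.mem_nbd.2 ⟨_, h1, ?_⟩
  rcases (Nat.findGreatest_le (P := fun k => ((Sg ex ey ξ)^[k] a).2 ∈ D) n).eq_or_lt with h | h
  · rw [hl, h, hd.1]; exact Nat.zero_le _
  have h2 := seg hS a (i := l + 1) (j := n) h hn fun k h3 h4 => hW _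
    (ih k h4 (by omega) fun k' h5 h6 => hb k' h5 (by omega))
    (Nat.findGreatest_is_greatest (P := fun k => ((Sg ex ey ξ)^[k] a).2 ∈ D) h3 h4.le)
    (hb k (by omega) h4)
  have h3 := it_one hd ξ l a
  have h4 := hd.2.2.1 ((Sg ex ey ξ)^[l] a).2 ((Sg ex ey ξ)^[l + 1] a).2 ((Sg ex ey ξ)^[n] a).2
  rw [hd.2.1]; omega

lemma bwd (hd : A.Met ex ey d) (hS : A.Slow ex ey d (A.Act ex ey d ξ) W v0)
    (hW : ∀ u, u.2 ∈ A.nbd d (v0 + 1) D → u.2 ∉ D → b u ≠ 0 → W u) (n : ℕ) (a : Fin T × Λ)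
    (ha : ((Sg ex ey ξ)^[n] a).2 ∈ D) (hn : a.1.val + n < T)
    (hb : ∀ k, 0 < k → k < n → b ((Sg ex ey ξ)^[k] a) ≠ 0) : a.2 ∈ A.nbd d (v0 + 1) D := by
  classical
  induction n using Nat.strong_induction_on generalizing a with
  | _ n ih =>
  have hex : ∃ k, ((Sg ex ey ξ)^[k] a).2 ∈ D := ⟨n, ha⟩
  have hl := Nat.find_min' hex ha
  refine A.mem_nbd.2 ⟨_, Nat.find_spec hex, ?_⟩
  rcases Nat.eq_zero_or_pos (Nat.find hex) with h | h
  · rw [h, iterate_zero, id, hd.1]; exact Nat.zero_le _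
  have h2 := seg hS a (i := 1) (j := Nat.find hex) h (by omega) fun k h3 h4 => hW _
    (ih (n - k) (by omega) _ (by rwa [← iterate_add_apply, Nat.sub_add_cancel (by omega)])
      (by rw [it_val, Nat.mod_eq_of_lt (by omega)]; omega) fun k' h5 h6 => by
        rw [← iterate_add_apply]; exact hb _ (by omega) (by omega))
    (Nat.find_min hex h4) (hb k (by omega) (by omega))
  have h3 := it_one hd ξ 0 a
  have h4 := hd.2.2.1 a.2 ((Sg ex ey ξ)^[1] a).2 ((Sg ex ey ξ)^[Nat.find hex] a).2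
  rw [iterate_zero, id, zero_add] at h3
  omega

/-- after a visit to `D` the strand dies before it leaves the neighbourhood. -/
lemma dead (hd : A.Met ex ey d) (hS : A.Slow ex ey d (A.Act ex ey d ξ) W v0)
    (hW : ∀ u, u.2 ∈ A.nbd d (v0 + 1) D → u.2 ∉ D → b u ≠ 0 → W u)
    (h0 : ∀ x ∈ A.nbd d (v0 + 1) D, b (0, x) = 0) {a : Fin T × Λ} (ha : a.2 ∈ D) :
    ∃ k, b ((Sg ex ey ξ)^[k] a) = 0 ∧ ∀ j ≤ k, ((Sg ex ey ξ)^[j] a).2 ∈ A.nbd d (v0 + 1) D := by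
  classical
  have h1 : ∃ k ≤ T - a.1.val, b ((Sg ex ey ξ)^[k] a) = 0 := by
    by_contra hc
    push Not at hc
    have ha1 := a.1.2
    have h2 := fwd hd hS hW ha (T - a.1.val) (by omega) fun k _ hk => hc k hk.le
    refine hc _ le_rfl ?_
    have e : ((Sg ex ey ξ)^[T - a.1.val] a).1 = 0 := Fin.ext (by
      rw [it_val, show a.1.val + (T - a.1.val) = T by omega, Nat.mod_self]; rfl)
    rw [← Prod.mk.eta (p := (Sg ex ey ξ)^[T - a.1.val] a), e]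
    exact h0 _ h2
  have h3 := (Nat.find_spec h1).1
  have ha1 := a.1.2
  exact ⟨Nat.find h1, (Nat.find_spec h1).2, fun j hj => fwd hd hS hW ha j (by omega)
    fun k _ hk h => Nat.find_min h1 (m := k) (by omega) ⟨by omega, h⟩⟩

end geo

open Classical in
/-- **JUMP**: a field that vanishes on the time-`0` slice over the neighbourhood of `D` is compared
with the field killed on the cylinder over `D`. -/
theorem jump (hp : ∀ s, 0 ≤ p s ∧ p s ≤ 1) (hb : Fld b) {d : Λ → Λ → ℕ} (hd : A.Met ex ey d)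
    {D : Finset Λ} {v0 : ℕ} {W : Fin T × Λ → Prop}
    (hW : ∀ u, u.2 ∈ A.nbd d (v0 + 1) D → u.2 ∉ D → b u ≠ 0 → W u)
    (h0 : ∀ x ∈ A.nbd d (v0 + 1) D, b (0, x) = 0) {v u : Fin T × Λ}
    (huv : v.2 ∉ A.nbd d (v0 + 1) D ∨ u.2 ∉ A.nbd d (v0 + 1) D) :
    GA ex ey p b v u ≤ GA ex ey p (kill b (A.cyl D)) v u +
      (∑ ξ, Pw p ξ * A.lw ex ey b ξ *
        if A.Slow ex ey d (A.Act ex ey d ξ) W v0 then 0 else 1) / Zt ex ey p b := by
  have hb' := hb.kill (A.cyl D)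
  have hZ := Zt_pos ex ey hp fun v => (hb.mem v).1
  have key := jump_gen ex ey hp hb (A.cyl D) (fun ξ => A.Slow ex ey d (A.Act ex ey d ξ) W v0) v u
    (fun ξ hS w hw => (dead hd hS hW h0 (A.mem_cyl.1 hw)).imp fun _ h => h.1)
    fun ξ hS i j hij hv hO => by
      rw [A.mem_cyl] at hO
      rcases huv with h | h
      · obtain ⟨k, hk, hk'⟩ := dead hd hS hW h0 hO
        refine ⟨k + i, ?_, by rwa [add_assoc, iterate_add_apply]⟩
        by_contra hc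
        have := hk' (j - i) (by omega)
        rw [← iterate_add_apply, show j - i + (i + 1) = j + 1 by omega, hv] at this
        exact h this
      · by_contra hc
        push Not at hc
        by_cases ht : u.1.val + (i + 1) < T
        · exact h (bwd hd hS hW (i + 1) u hO ht fun k h1 h2 => by
            have := hc (k - 1) (by omega); rwa [Nat.sub_add_cancel h1] at this)
        · have hu := u.1.2
          set t := (u.1.val + (i + 1)) % T with htt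
          have t1 : t < T := Nat.mod_lt _ (by omega)
          have t2 := Nat.div_add_mod (u.1.val + (i + 1)) T
          have t3 : T * 1 ≤ T * ((u.1.val + (i + 1)) / T) :=
            Nat.mul_le_mul_left _ ((Nat.le_div_iff_mul_le (by omega)).2 (by omega))
          have e : ((Sg ex ey ξ)^[i - t + 1] u).1 = 0 := Fin.ext (by
            rw [it_val, show u.1.val + (i - t + 1) = T * ((u.1.val + (i + 1)) / T) by omega,
              Nat.mul_mod_right]; rfl)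
          have h2 := bwd hd hS hW t ((Sg ex ey ξ)^[i - t + 1] u)
            (by rwa [← iterate_add_apply, show t + (i - t + 1) = i + 1 by omega])
            (by rw [e]; simpa using t1) fun k h1 h2 => by
              rw [← iterate_add_apply, ← add_assoc]; exact hc _ (by omega)
          refine hc (i - t) (by omega) ?_
          rw [← Prod.mk.eta (p := (Sg ex ey ξ)^[i - t + 1] u), e]
          exact h0 _ h2
  refine (div_le_div_of_nonneg_right key hZ.le).trans ?_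
  rw [add_div]
  exact add_le_add (div_le_div_of_nonneg_left (AG_nonneg ex ey hp hb' v u)
    (Zt_pos ex ey hp fun v => (hb'.mem v).1)
    (Zt_mono ex ey hp (fun v => (hb'.mem v).1) (WN.kill_le (fun v => (hb.mem v).1) _))) le_rfl

/-- **JUMP** with the local fast-chain bound. -/
theorem jump_fast (hp : ∀ s, 0 ≤ p s ∧ p s ≤ 1) (hb : Fld b) {d : Λ → Λ → ℕ} (hd : A.Met ex ey d)
    {D : Finset Λ} {v1 f N : ℕ} {K : ℝ} {W : Fin T × Λ → Prop}
    (hR : A.Rate ex ey d ⟨p, b⟩ (v1 + 2) K) (hS : A.Slow ex ey d (A.Cheap ex ey d ⟨p, b⟩) W v1)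
    (hW : ∀ u, u.2 ∈ A.nbd d ((f + 1) * (v1 + 1) + 1) D → u.2 ∉ D → b u ≠ 0 → W u)
    (hN : (A.nbd d ((f + 1) * (v1 + 1) + 1) D).card ≤ N)
    (h0 : ∀ x ∈ A.nbd d ((f + 1) * (v1 + 1) + 1) D, b (0, x) = 0) {v u : Fin T × Λ}
    (huv : v.2 ∉ A.nbd d ((f + 1) * (v1 + 1) + 1) D ∨ u.2 ∉ A.nbd d ((f + 1) * (v1 + 1) + 1) D) :
    GA ex ey p b v u ≤ GA ex ey p (kill b (A.cyl D)) v u + N * Real.exp (40 * K - f) := by
  classical
  have hM : (⟨p, b⟩ : A.Mdl T Λ).Ok 1 := ⟨hp, hb.mem, fun x => (hb.lt x).le⟩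
  have hl : A.Lab (fun (_ : Finset (Fin T × Λ)) (_ : Unit) => (1 : ℝ)) :=
    ⟨fun _ _ => zero_le_one, fun _ => by simp⟩
  have h := A.fastS ex ey (W := fun u => W u ∧ u.2 ∈ A.nbd d ((f + 1) * (v1 + 1) + 1) D) f hd hM
    zero_le_one hR (hS.mono (fun _ h => h) (fun _ h => h.1) le_rfl) hl (fun _ h => h.2) hN
  refine (jump ex ey hp hb hd (W := fun u => W u ∧ u.2 ∈ A.nbd d ((f + 1) * (v1 + 1) + 1) D)
    (fun u h1 h2 h3 => ⟨hW u h1 h2 h3, h1⟩) h0 huv).trans (add_le_add le_rfl (le_trans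
      (le_of_eq ?_) h))
  rw [A.Pb, A.Ev]
  congr 1
  refine (A.Bs.sum_wt_phi ex ey ⟨p, b⟩ hl _).symm.trans (sum_congr rfl fun ω _ => ?_)
  split_ifs <;> rfl

end Crest.Agent.N337.G4.Sp
end

-- ▼ part N337/G4/Jump0
section

/-!
# Row 337, G4 (helper99): the jump for a source inside the killed zone
-/

set_option autoImplicit false
set_option linter.unusedSectionVars false

namespace Crest.Agent.N337.G4.Sp

open Finset Function Equiv Crest.Agent.N337.Rep Crest.Agent.N337.DL Crest.Agent.N337.Arc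

variable {Λ : Type} [Fintype Λ] [DecidableEq Λ] {T : ℕ} [NeZero T] (ex ey : Fin T → Λ)
variable {p : Fin T → ℝ} {b : Fin T × Λ → ℝ}

open Classical in
/-- an arc from `D` to the outside of the neighbourhood is dead on slow coins. -/
theorem jump0' (hp : ∀ s, 0 ≤ p s ∧ p s ≤ 1) (hb : Fld b) {d : Λ → Λ → ℕ} (hd : A.Met ex ey d)
    {D : Finset Λ} {v0 : ℕ} {W : Fin T × Λ → Prop}
    (hW : ∀ u, u.2 ∈ A.nbd d (v0 + 1) D → u.2 ∉ D → b u ≠ 0 → W u)
    (h0 : ∀ x ∈ A.nbd d (v0 + 1) D, b (0, x) = 0) {v u : Fin T × Λ} (hu : u.2 ∈ D)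
    (hv : v.2 ∉ A.nbd d (v0 + 1) D) :
    GA ex ey p b v u ≤ (∑ ξ, Pw p ξ * A.lw ex ey b ξ *
        if A.Slow ex ey d (A.Act ex ey d ξ) W v0 then 0 else 1) / Zt ex ey p b := by
  refine div_le_div_of_nonneg_right ?_ (Zt_pos ex ey hp fun v => (hb.mem v).1).le
  rw [AG_arc ex ey hp hb]
  refine sum_le_sum fun ξ _ => ?_
  rw [mul_assoc]
  refine mul_le_mul_of_nonneg_left ?_ (Pw_nonneg hp ξ)
  have n1 : 0 ≤ ∏ c ∈ univ.erase (o (Sg ex ey ξ) u), (1 + pr (Sg ex ey ξ) b c) :=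
    prod_nonneg fun c _ => add_nonneg zero_le_one (pr_nonneg (fun v => (hb.mem v).1) c)
  split_ifs with hS
  · rw [mul_zero]
    refine le_of_eq (mul_eq_zero_of_left (sum_eq_zero fun j _ => ?_) _)
    by_cases e : (Sg ex ey ξ)^[j] (Sg ex ey ξ u) = v
    · refine mul_eq_zero_of_right _ ?_
      by_contra hc
      have h1 : ∀ k, 0 < k → k < j + 1 → b ((Sg ex ey ξ)^[k] u) ≠ 0 := fun k a c h =>
        hc (prod_eq_zero (i := k - 1) (mem_range.2 (by omega)) (by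
          rwa [← iterate_succ_apply, Nat.succ_eq_add_one, Nat.sub_add_cancel a]))
      have hu1 := u.1.2
      by_cases ht : u.1.val + (j + 1) ≤ T
      · exact hv (e ▸ fwd hd hS hW hu (j + 1) ht h1)
      · have h2 := fwd hd hS hW hu (T - u.1.val) (by omega) fun k a c => h1 k a (by omega)
        refine h1 (T - u.1.val) (by omega) (by omega) ?_
        have e : ((Sg ex ey ξ)^[T - u.1.val] u).1 = 0 := Fin.ext (by
          rw [it_val, show u.1.val + (T - u.1.val) = T by omega, Nat.mod_self]; rfl)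
        rw [← Prod.mk.eta (p := (Sg ex ey ξ)^[T - u.1.val] u), e]
        exact h0 _ h2
    · simp [e]
  · rw [mul_one, A.lw, ← mul_prod_erase _ _ (mem_univ (o (Sg ex ey ξ) u))]
    exact mul_le_mul_of_nonneg_right ((aw_le_one _ hb.mem _ _).trans (le_add_of_nonneg_right
      (pr_nonneg (fun v => (hb.mem v).1) _))) n1

/-- **JUMP**, source over the killed zone. -/
theorem jump0 (hp : ∀ s, 0 ≤ p s ∧ p s ≤ 1) (hb : Fld b) {d : Λ → Λ → ℕ} (hd : A.Met ex ey d)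
    {D : Finset Λ} {v1 f N : ℕ} {K : ℝ} {W : Fin T × Λ → Prop}
    (hR : A.Rate ex ey d ⟨p, b⟩ (v1 + 2) K) (hS : A.Slow ex ey d (A.Cheap ex ey d ⟨p, b⟩) W v1)
    (hW : ∀ u, u.2 ∈ A.nbd d ((f + 1) * (v1 + 1) + 1) D → u.2 ∉ D → b u ≠ 0 → W u)
    (hN : (A.nbd d ((f + 1) * (v1 + 1) + 1) D).card ≤ N)
    (h0 : ∀ x ∈ A.nbd d ((f + 1) * (v1 + 1) + 1) D, b (0, x) = 0) {v u : Fin T × Λ}
    (hu : u.2 ∈ D) (hv : v.2 ∉ A.nbd d ((f + 1) * (v1 + 1) + 1) D) :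
    GA ex ey p b v u ≤ N * Real.exp (40 * K - f) := by
  classical
  have hM : (⟨p, b⟩ : A.Mdl T Λ).Ok 1 := ⟨hp, hb.mem, fun x => (hb.lt x).le⟩
  have hl : A.Lab (fun (_ : Finset (Fin T × Λ)) (_ : Unit) => (1 : ℝ)) :=
    ⟨fun _ _ => zero_le_one, fun _ => by simp⟩
  have h := A.fastS ex ey (W := fun u => W u ∧ u.2 ∈ A.nbd d ((f + 1) * (v1 + 1) + 1) D) f hd hM
    zero_le_one hR (hS.mono (fun _ h => h) (fun _ h => h.1) le_rfl) hl (fun _ h => h.2) hN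
  refine (jump0' ex ey hp hb hd (W := fun u => W u ∧ u.2 ∈ A.nbd d ((f + 1) * (v1 + 1) + 1) D)
    (fun u h1 h2 h3 => ⟨hW u h1 h2 h3, h1⟩) h0 hu hv).trans (le_trans (le_of_eq ?_) h)
  rw [A.Pb, A.Ev]
  congr 1
  refine (A.Bs.sum_wt_phi ex ey ⟨p, b⟩ hl _).symm.trans (sum_congr rfl fun ω _ => ?_)
  split_ifs <;> rfl

end Crest.Agent.N337.G4.Sp
end

-- ▼ part N337/G4/Nest
section

/-!
# Row 337, G4 (helper23): the nested induction along un-kill paths (model free)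

Members `M` are ordered by killing.  `B M l x c`: the claims of level `l` at `x` hold with bound `c`.
`Cs l`: clean at level `l`; `Cd l d r`: clean at level `l` off the front of radius `r` of the
datum `d`.
-/

set_option autoImplicit false

namespace Crest.Agent.N337.G4.Sp

/-- the data of the nested induction. -/
structure NS (Mem X Dat : Type) where
  /-- `le M' M`: `M'` is more killed than `M`. -/
  le : Mem → Mem → Prop
  /-- number of levels. -/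
  L : ℕ
  B : Mem → ℕ → X → ℝ → Prop
  γ : ℕ → ℝ
  Cs : ℕ → Mem → X → Prop
  Cd : ℕ → Dat → ℕ → Mem → X → Prop
  Val : ℕ → Mem → Dat → Prop
  /-- stage `k` of the un-kill path of the datum `d`. -/
  F : ℕ → Dat → ℕ → Mem → Prop
  /-- stage `k` of the path of the fugacity. -/
  G : ℕ → Mem → Prop
  K : ℕ → ℕ
  ρ : ℕ → ℕ
  σ : ℕ → ℕ
  Δ : ℕ → ℕ

namespace NS

variable {Mem X Dat : Type} (N : NS Mem X Dat)

/-- type `(l0, j)`. -/
def Ty (j l0 : ℕ) (D : ℕ → Dat) (r : ℕ → ℕ) (M : Mem) (x : X) : Prop :=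
  (∀ i, l0 ≤ i → i < j → N.Cs i M x) ∧ ∀ i, j ≤ i → i < N.L → N.Cd i (D i) (r i) M x

/-- admissible data at the levels `≥ l`, with room `s` for the radii. -/
def Ad (l : ℕ) (D : ℕ → Dat) (r : ℕ → ℕ) (s : ℕ) (M : Mem) : Prop :=
  ∀ i, l ≤ i → i < N.L → N.Val i M (D i) ∧ N.ρ i ≤ r i ∧ r i + s ≤ N.σ i

/-- the claims of type `j` with bound `c γ`. -/
def Cl (j : ℕ) (D : ℕ → Dat) (r : ℕ → ℕ) (c : ℝ) (M : Mem) : Prop :=
  ∀ l0 ≤ j, ∀ x, N.Ty j l0 D r M x → N.B M l0 x (c * N.γ l0)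

/-- the hypotheses. -/
structure Ok : Prop where
  refl : ∀ M, N.le M M
  trans : ∀ M M' M'', N.le M'' M' → N.le M' M → N.le M'' M
  γ0 : ∀ l, 0 ≤ N.γ l
  B_mono : ∀ M l x c c', c ≤ c' → N.B M l x c → N.B M l x c'
  Cs_mono : ∀ l M M' x, N.le M' M → N.Cs l M x → N.Cs l M' x
  Cd_mono : ∀ l d r r' M M' x, N.le M' M → r' ≤ r → N.Cd l d r M x → N.Cd l d r' M' x
  Val_mono : ∀ l M M' d, N.le M' M → N.Val l M d → N.Val l M' d
  F_mono : ∀ l d k M M', N.le M' M → N.F l d k M → N.F l d k M'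
  G_mono : ∀ k M M', N.le M' M → N.G k M → N.G k M'
  Δ_le : ∀ l < N.L, (N.K l + 1) * N.Δ l ≤ N.Δ (l + 1)
  σ_ge : ∀ l < N.L, N.ρ l + (N.K l + 1) * N.Δ l ≤ N.σ l
  /-- a clean point has a datum. -/
  pick : ∀ l < N.L, ∀ D r M x, N.Ad (l + 1) D r 0 M → N.Ty (l + 1) l D r M x →
    ∃ d, N.Val l M d ∧ N.Cd l d (N.σ l) M x
  /-- when the datum is killed, points off the front are clean. -/
  start : ∀ l < N.L, ∀ d M x, N.F l d 0 M → N.Val l M d → N.Cd l d (N.ρ l) M x → N.Cs l M x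
  /-- jump and drift. -/
  step : ∀ l < N.L, ∀ d, ∀ k < N.K l, ∀ M, N.F l d (k + 1) M → N.Val l M d →
    ∃ M', N.le M' M ∧ N.F l d k M' ∧ ∀ l0 ≤ l, ∀ x c, N.Cd l d (N.ρ l) M x →
      N.B M' l0 x c → N.B M l0 x (c + N.γ l0)
  last : ∀ l < N.L, ∀ d M, N.F l d (N.K l) M
  /-- the reset step. -/
  reset : ∀ l ≤ N.L, ∀ D r M, N.Ad l D r (N.Δ l) M → (∀ j, l ≤ j → j ≤ N.L → N.Cl j D r 2 M) →
    ∀ x, N.Ty l l D (fun i => r i + N.Δ l) M x → N.B M l x (N.γ l)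
  /-- no red loops. -/
  base : ∀ M, N.G 0 M → ∀ l0 ≤ N.L, ∀ x, (∀ i, l0 ≤ i → i < N.L → N.Cs i M x) →
    N.B M l0 x (2 * N.γ l0)
  stepG : ∀ k < N.K N.L, ∀ M, N.G (k + 1) M → ∃ M', N.le M' M ∧ N.G k M' ∧
    ∀ l0 ≤ N.L, ∀ x c, N.B M' l0 x c → N.B M l0 x (c + N.γ l0)
  lastG : ∀ M, N.G (N.K N.L) M

variable {N}

lemma Ty.mono (h : N.Ok) {j l0 : ℕ} {D : ℕ → Dat} {r r' : ℕ → ℕ} {M M' : Mem} {x : X}
    (t : N.Ty j l0 D r M x) (hM : N.le M' M) (hr : ∀ i, j ≤ i → i < N.L → r' i ≤ r i) :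
    N.Ty j l0 D r' M' x :=
  ⟨fun i a b => h.Cs_mono _ _ _ _ hM (t.1 i a b),
    fun i a b => h.Cd_mono _ _ _ _ _ _ _ hM (hr i a b) (t.2 i a b)⟩

lemma Cl.mono (h : N.Ok) {j : ℕ} {D : ℕ → Dat} {r r' : ℕ → ℕ} {c : ℝ} {M : Mem}
    (t : N.Cl j D r c M) (hr : ∀ i, j ≤ i → i < N.L → r i ≤ r' i) : N.Cl j D r' c M :=
  fun l0 h0 x hx => t l0 h0 x (hx.mono h (h.refl M) hr)

lemma Cl.two (h : N.Ok) {j : ℕ} {D : ℕ → Dat} {r : ℕ → ℕ} {M : Mem} (t : N.Cl j D r 1 M) :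
    N.Cl j D r 2 M := fun l0 h0 x hx =>
  h.B_mono _ _ _ _ _ (by linarith [h.γ0 l0]) (t l0 h0 x hx)

/-- the self-improvement at level `l`. -/
def GS (N : NS Mem X Dat) (l : ℕ) : Prop :=
  ∀ D r M, N.Ad l D r (N.Δ l) M → (∀ M', N.le M' M → ∀ j, l ≤ j → j ≤ N.L → N.Cl j D r 2 M') →
    N.Cl l D (fun i => r i + N.Δ l) 1 M

/-- the un-kill path of the datum of level `l`. -/
lemma path (h : N.Ok) {l : ℕ} (hl : l < N.L) (gs : N.GS l) {D : ℕ → Dat} {r : ℕ → ℕ} {M : Mem}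
    (hA : N.Ad l D r ((N.K l + 1) * N.Δ l) M)
    (hH : ∀ M', N.le M' M → ∀ j, l < j → j ≤ N.L → N.Cl j D r 2 M') :
    N.Cl l D (fun i => r i + (N.K l + 1) * N.Δ l) 1 M := by
  have up : ∀ k ≤ N.K l, (∀ M', N.le M' M → N.F l (D l) k M' →
      N.Cl l D (fun i => r i + k * N.Δ l) 2 M') → ∀ M', N.le M' M → N.F l (D l) k M' →
      N.Cl l D (fun i => r i + (k + 1) * N.Δ l) 1 M' := fun k hk H M' hM hF => by
    refine (gs D (fun i => r i + k * N.Δ l) M' (fun i a b => ?_) fun M'' hM' j a b => ?_).mono h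
      fun i _ _ => le_of_eq (by ring)
    · obtain ⟨a1, a2, a3⟩ := hA i a b
      refine ⟨h.Val_mono _ _ _ _ hM a1, a2.trans (Nat.le_add_right _ _), le_trans ?_ a3⟩
      nlinarith
    · rcases a.eq_or_lt with rfl | a
      · exact H M'' (h.trans _ _ _ hM' hM) (h.F_mono _ _ _ _ _ hM' hF)
      · exact (hH M'' (h.trans _ _ _ hM' hM) j a b).mono h fun i _ _ => Nat.le_add_right _ _
  obtain ⟨v1, v2, -⟩ := hA l le_rfl hl
  have key : ∀ k ≤ N.K l, ∀ M', N.le M' M → N.F l (D l) k M' →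
      N.Cl l D (fun i => r i + k * N.Δ l) 2 M' := fun k hk => by
    induction k with
    | zero =>
      intro M' hM hF l0 h0 x hx
      refine hH M' hM (l + 1) l.lt_succ_self hl l0 (by omega) x ⟨fun i a b => ?_, fun i a b => ?_⟩
      · rcases (Nat.le_of_lt_succ b).eq_or_lt with rfl | b
        · exact h.start _ hl _ _ _ hF (h.Val_mono _ _ _ _ hM v1)
            (h.Cd_mono _ _ _ _ _ _ _ (h.refl _) (v2.trans (Nat.le_add_right _ _)) (hx.2 i le_rfl hl))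
        · exact hx.1 i a b
      · simpa using hx.2 i (by omega) b
    | succ k ih =>
      intro M' hM hF l0 h0 x hx
      obtain ⟨M'', a1, a2, a3⟩ := h.step l hl _ k hk M' hF (h.Val_mono _ _ _ _ hM v1)
      have := up k (by omega) (ih (by omega)) M'' (h.trans _ _ _ a1 hM) a2 l0 h0 x
        (hx.mono h a1 fun _ _ _ => le_rfl)
      exact h.B_mono _ _ _ _ _ (by linarith) (a3 l0 h0 x _
        (h.Cd_mono _ _ _ _ _ _ _ (h.refl _) (v2.trans (Nat.le_add_right _ _)) (hx.2 l le_rfl hl)) this)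
  exact up _ le_rfl (key _ le_rfl) M (h.refl M) (h.last l hl _ _)

lemma gs (h : N.Ok) : ∀ l ≤ N.L, N.GS l := by
  have diag : ∀ l ≤ N.L, ∀ D r M, N.Ad l D r (N.Δ l) M →
      (∀ M', N.le M' M → ∀ j, l ≤ j → j ≤ N.L → N.Cl j D r 2 M') →
      ∀ x, N.Ty l l D (fun i => r i + N.Δ l) M x → N.B M l x (1 * N.γ l) :=
    fun l hl D r M hA hH x hx => by
      rw [one_mul]; exact h.reset l hl D r M hA (hH M (h.refl M)) x hx
  intro l hl
  induction l with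
  | zero =>
    intro D r M hA hH l0 h0 x hx
    obtain rfl := Nat.le_zero.1 h0
    exact diag 0 hl D r M hA hH x hx
  | succ l ih =>
    intro D r M hA hH l0 h0 x hx
    rcases h0.eq_or_lt with rfl | h0
    · exact diag _ hl D r M hA hH x hx
    obtain ⟨d, d1, d2⟩ := h.pick l hl D (fun i => r i + N.Δ (l + 1)) M x
      (fun i a b => ⟨(hA i a b).1, (hA i a b).2.1.trans (Nat.le_add_right _ _), (hA i a b).2.2⟩)
      ⟨fun i a b => hx.1 i (by omega) b, hx.2⟩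
    have e1 : ∀ i, l < i → Function.update D l d i = D i := fun i hi => Function.update_of_ne hi.ne' _ _
    have e2 : ∀ i, l < i → Function.update r l (N.ρ l) i = r i :=
      fun i hi => Function.update_of_ne hi.ne' _ _
    have s1 := h.Δ_le l hl
    have s2 := h.σ_ge l hl
    refine path h hl (ih (by omega)) (D := Function.update D l d) (r := Function.update r l (N.ρ l))
      (fun i a b => ?_) (fun M' hM j a b l1 h1 y hy => hH M' hM j a b l1 h1 y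
        ⟨hy.1, fun i a' b' => ?_⟩) l0 (by omega) x ⟨fun i a b => hx.1 i a (by omega), fun i a b => ?_⟩
    · rcases a.eq_or_lt with rfl | a
      · simpa using ⟨d1, s2⟩
      · rw [e1 i a, e2 i a]
        obtain ⟨a1, a2, a3⟩ := hA i a b
        exact ⟨a1, a2, by omega⟩
    · have := hy.2 i a' b'
      rwa [e1 i (by omega), e2 i (by omega)] at this
    · rcases a.eq_or_lt with rfl | a
      · simpa using h.Cd_mono _ _ _ _ _ _ _ (h.refl _) s2 d2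
      · rw [e1 i a]
        exact h.Cd_mono _ _ _ _ _ _ _ (h.refl _) (by dsimp only; rw [e2 i a]; omega) (hx.2 i a b)

/-- **NEST**, clean points. -/
theorem top (h : N.Ok) (D : ℕ → Dat) (r : ℕ → ℕ) (M : Mem) : N.Cl N.L D r 1 M := by
  have up : ∀ k, (∀ M', N.G k M' → N.Cl N.L D r 2 M') → ∀ M', N.G k M' → N.Cl N.L D r 1 M' :=
    fun k H M' hG l0 h0 x hx => gs h _ le_rfl D r M' (fun i a b => absurd b (by omega))
      (fun M'' hM j a b => by
        obtain rfl := a.antisymm b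
        exact H M'' (h.G_mono _ _ _ hM hG)) l0 h0 x ⟨hx.1, fun i a b => absurd b (by omega)⟩
  have key : ∀ k ≤ N.K N.L, ∀ M', N.G k M' → N.Cl N.L D r 2 M' := fun k hk => by
    induction k with
    | zero => exact fun M' hG l0 h0 x hx => h.base M' hG l0 h0 x hx.1
    | succ k ih =>
      intro M' hG l0 h0 x hx
      obtain ⟨M'', a1, a2, a3⟩ := h.stepG k hk M' hG
      exact h.B_mono _ _ _ _ _ (by linarith) (a3 l0 h0 x _
        (up k (ih (by omega)) M'' a2 l0 h0 x (hx.mono h a1 fun _ _ _ => le_rfl)))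
  exact up _ (key _ le_rfl) M (h.lastG M)

/-- **NEST**, all types: radii `ρ i + ∑_{t ≤ i} Δ (t + 1)` suffice. -/
theorem all (h : N.Ok) {R : ℕ → ℕ} (hR : ∀ i < N.L, N.ρ i + ∑ t ∈ Finset.range (i + 1), N.Δ (t + 1) ≤
      R i ∧ R i ≤ N.σ i) {j : ℕ} (hj : j ≤ N.L) {D : ℕ → Dat} {M : Mem}
    (hV : ∀ i, j ≤ i → i < N.L → N.Val i M (D i)) : N.Cl j D R 1 M := by
  have key : ∀ n j, j + n = N.L → ∀ M, (∀ i, j ≤ i → i < N.L → N.Val i M (D i)) →
      ∀ j', j ≤ j' → j' ≤ N.L →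
        N.Cl j' D (fun i => N.ρ i + ∑ t ∈ Finset.Ico j (i + 1), N.Δ (t + 1)) 1 M := by
    intro n
    induction n with
    | zero =>
      intro j e M _ j' a b
      obtain rfl : j' = N.L := by omega
      exact top h _ _ M
    | succ n ih =>
      intro j e M hV j' a b
      have hl : j < N.L := by omega
      have sp : ∀ i, j ≤ i → ∑ t ∈ Finset.Ico j (i + 1), N.Δ (t + 1) =
          N.Δ (j + 1) + ∑ t ∈ Finset.Ico (j + 1) (i + 1), N.Δ (t + 1) :=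
        fun i hi => Finset.sum_eq_sum_Ico_succ_bot (by omega) _
      have s1 := h.Δ_le j hl
      rcases a.eq_or_lt with rfl | a
      · refine (path h hl (gs h j hl.le)
          (r := fun i => N.ρ i + ∑ t ∈ Finset.Ico (j + 1) (i + 1), N.Δ (t + 1)) (fun i a' b' => ?_)
          fun M' hM j' a' b' => (ih (j + 1) (by omega) M' (fun i a b =>
            h.Val_mono _ _ _ _ hM (hV i (by omega) b)) j' a' b').two h).mono h fun i a' _ => ?_
        · refine ⟨hV i a' b', Nat.le_add_right _ _, ?_⟩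
          have := Finset.sum_le_sum_of_subset (f := fun t => N.Δ (t + 1))
            (show Finset.Ico j (i + 1) ⊆ Finset.range (i + 1) from fun t ht =>
              Finset.mem_range.2 (Finset.mem_Ico.1 ht).2)
          have := sp i a'
          have := hR i b'
          dsimp only
          omega
        · have := sp i a'
          omega
      · refine (ih (j + 1) (by omega) M (fun i a b => hV i (by omega) b) j' a b).mono h
          fun i a' _ => ?_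
        have := sp i (by omega)
        omega
  refine (key (N.L - j) j (by omega) M hV j le_rfl hj).mono h fun i a b => ?_
  have := Finset.sum_le_sum_of_subset (f := fun t => N.Δ (t + 1))
    (show Finset.Ico j (i + 1) ⊆ Finset.range (i + 1) from fun t ht =>
      Finset.mem_range.2 (Finset.mem_Ico.1 ht).2)
  have := hR i b
  omega

end NS

end Crest.Agent.N337.G4.Sp
end

-- ▼ part N337/G4/Path
section

/-!
# Row 337, G4 (helper23): members and un-kill paths; the analytic fields of `NS.Ok`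
-/

set_option autoImplicit false
set_option linter.unusedSectionVars false

namespace Crest.Agent.N337.G4.Sp

open Finset Crest.Agent.N337.Rep Crest.Agent.N337.DL Crest.Agent.N337.Arc

variable {Λ X : Type} [Fintype Λ] [DecidableEq Λ] [DecidableEq X] {T : ℕ} [NeZero T]

/-- members: more killed sites, smaller field (`st` = site of a slot). -/
structure Mem (st : Λ → X) (b0 : Fin T × Λ → ℝ) (Z0 : Finset X) where
  Z : Finset X
  b : Fin T × Λ → ℝ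
  sub : Z0 ⊆ Z
  nn : ∀ v, 0 ≤ b v
  le : ∀ v, b v ≤ b0 v
  dead : ∀ v, st v.2 ∈ Z → b v = 0

/-- the slots over a set of sites. -/
def slots (st : Λ → X) (Z : Finset X) : Finset Λ := univ.filter fun y => st y ∈ Z

/-- geometric data; the junk predicates only depend on the killed set. -/
structure GD (T : ℕ) (Λ X Dat : Type) where
  L : ℕ
  γ : ℕ → ℝ
  /-- `Pr l Z x v u o`: the pair (target `v`, source `u`) is claimed at `x` with offset `o`. -/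
  Pr : ℕ → Finset X → X → Fin T × Λ → Fin T × Λ → ℝ → Prop
  Cs : ℕ → Finset X → X → Prop
  Cd : ℕ → Dat → ℕ → Finset X → X → Prop
  Val : ℕ → Finset X → Dat → Prop
  /-- the sites killed with a datum -/
  kz : ℕ → Dat → Finset X
  K : ℕ → ℕ
  ρ : ℕ → ℕ
  σ : ℕ → ℕ
  Δ : ℕ → ℕ
  /-- speed of the cheap steps, number of expensive steps, size of the slice -/
  v : ℕ → ℕ
  f : ℕ → ℕ
  Nn : ℕ → ℕ

variable {Dat : Type} (ex ey : Fin T → Λ) (p : Fin T → ℝ) (st : Λ → X) (b0 : Fin T × Λ → ℝ)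
  (Z0 : Finset X) (d : Λ → Λ → ℕ) (g : GD T Λ X Dat)

namespace GD

/-- the neighbourhood of the killed zone. -/
def Dp (l : ℕ) (a : Dat) : Finset Λ :=
  A.nbd d ((g.f l + 1) * (g.v l + 1) + 1) (slots st (g.kz l a))

/-- the claims of level `l` at `x`. -/
def Bd (M : Mem st b0 Z0) (l : ℕ) (x : X) (c : ℝ) : Prop :=
  ∀ v u o, g.Pr l M.Z x v u o → GA ex ey p M.b v u ≤ c + o

/-- the nested system (`u l` = ladder of level `l`). -/
def ns (u : ℕ → ℕ → ℝ) : NS (Mem st b0 Z0) X Dat where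
  le M' M := M.Z ⊆ M'.Z ∧ ∀ v, M'.b v ≤ M.b v
  L := g.L
  B M l x c := 0 ≤ c ∧ g.Bd ex ey p st b0 Z0 M l x c
  γ := g.γ
  Cs l M := g.Cs l M.Z
  Cd l a r M := g.Cd l a r M.Z
  Val l M := g.Val l M.Z
  F l a k M := match k with
    | 0 => g.kz l a ⊆ M.Z
    | k + 1 => ∀ y ∈ g.Dp st d l a, M.b (0, y) ≤ u l k
  G k M := ∀ y, M.b (0, y) ≤ u g.L k
  K l := if l < g.L then g.K l + 2 else g.K l + 1
  ρ := g.ρ
  σ := g.σ
  Δ := g.Δ

/-- type `(l0, j)` for a killed set. -/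
def Ty (j l0 : ℕ) (D : ℕ → Dat) (r : ℕ → ℕ) (Z : Finset X) (x : X) : Prop :=
  (∀ i, l0 ≤ i → i < j → g.Cs i Z x) ∧ ∀ i, j ≤ i → i < g.L → g.Cd i (D i) (r i) Z x

/-- admissible data. -/
def Ad (l : ℕ) (D : ℕ → Dat) (r : ℕ → ℕ) (s : ℕ) (Z : Finset X) : Prop :=
  ∀ i, l ≤ i → i < g.L → g.Val i Z (D i) ∧ g.ρ i ≤ r i ∧ r i + s ≤ g.σ i

/-- the hypotheses (`Kr` = rate constant). -/
structure Ok (Kr : ℕ → ℝ) : Prop where
  hp : ∀ s, 0 ≤ p s ∧ p s ≤ 1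
  hb : Fld b0
  hd : A.Met ex ey d
  γ_pos : ∀ l, 0 < g.γ l ∧ g.γ l ≤ 3
  γ_anti : Antitone g.γ
  Pr_mono : ∀ l Z Z' x v u κ, Z ⊆ Z' → (st v.2 ∈ Z' → st v.2 ∈ Z) → (st u.2 ∈ Z' → st u.2 ∈ Z) →
    g.Pr l Z x v u κ → g.Pr l Z' x v u κ
  Pr_pos : ∀ l Z x v u κ, g.Pr l Z x v u κ → 0 ≤ κ
  Cs_mono : ∀ l Z Z' x, Z ⊆ Z' → g.Cs l Z x → g.Cs l Z' x
  Cd_mono : ∀ l a r r' Z Z' x, Z ⊆ Z' → r' ≤ r → g.Cd l a r Z x → g.Cd l a r' Z' x
  Val_mono : ∀ l Z Z' a, Z ⊆ Z' → g.Val l Z a → g.Val l Z' a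
  Δ_le : ∀ l < g.L, (g.K l + 3) * g.Δ l ≤ g.Δ (l + 1)
  σ_ge : ∀ l < g.L, g.ρ l + (g.K l + 3) * g.Δ l ≤ g.σ l
  lad : ∀ l ≤ g.L, 3 * (g.Nn l : ℝ) ≤ g.γ l * Real.exp (g.γ l * g.K l / 6)
  top : Fintype.card Λ ≤ g.Nn g.L
  fast : ∀ l < g.L, g.Nn l * Real.exp (40 * Kr l - g.f l) ≤ g.γ l
  rate : ∀ l < g.L, A.Rate ex ey d ⟨p, b0⟩ (g.v l + 2) (Kr l)
  card : ∀ l < g.L, ∀ Z a, Z0 ⊆ Z → g.Val l Z a → (g.Dp st d l a).card ≤ g.Nn l
  slow : ∀ l < g.L, ∀ Z a, Z0 ⊆ Z → g.Val l Z a → A.Slow ex ey d (A.Cheap ex ey d ⟨p, b0⟩)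
    (fun u => u.2 ∈ g.Dp st d l a ∧ st u.2 ∉ g.kz l a ∧ st u.2 ∉ Z ∧ b0 u ≠ 0) (g.v l)
  far : ∀ l < g.L, ∀ Z a x, Z0 ⊆ Z → g.Val l Z a → g.Cd l a (g.ρ l) Z x → ∀ l0 ≤ l, ∀ v u κ,
    g.Pr l0 Z x v u κ → v.2 ∉ g.Dp st d l a
  pick : ∀ l < g.L, ∀ D r Z x, Z0 ⊆ Z → g.Ad (l + 1) D r 0 Z → g.Ty (l + 1) l D r Z x →
    ∃ a, g.Val l Z a ∧ g.Cd l a (g.σ l) Z x
  start : ∀ l < g.L, ∀ a Z x, Z0 ⊆ Z → g.kz l a ⊆ Z → g.Val l Z a → g.Cd l a (g.ρ l) Z x →
    g.Cs l Z x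
  reset : ∀ l ≤ g.L, ∀ D r (M : Mem st b0 Z0), g.Ad l D r (g.Δ l) M.Z →
    (∀ j, l ≤ j → j ≤ g.L → ∀ l0 ≤ j, ∀ x, g.Ty j l0 D r M.Z x →
      g.Bd ex ey p st b0 Z0 M l0 x (2 * g.γ l0)) →
    ∀ x, g.Ty l l D (fun i => r i + g.Δ l) M.Z x → g.Bd ex ey p st b0 Z0 M l x (g.γ l)
  base : ∀ l ≤ g.L, ∀ D r (M : Mem st b0 Z0), (∀ y, M.b (0, y) = 0) → g.Ad l D r (g.Δ l) M.Z →
    ∀ x, g.Ty l l D (fun i => r i + g.Δ l) M.Z x → g.Bd ex ey p st b0 Z0 M l x (2 * g.γ l)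

variable {ex ey p st b0 Z0 d g} {Kr : ℕ → ℝ}

lemma _root_.Crest.Agent.N337.G4.Sp.Mem.fld (M : Mem st b0 Z0) (hb : Fld b0) : Fld M.b :=
  fld_of_le hb M.nn M.le

/-- a drift step on the time-`0` slice over `P`. -/
lemma drift (h : g.Ok ex ey p st b0 Z0 d Kr) (M : Mem st b0 Z0) {P : Finset Λ} {l N : ℕ}
    (hN : P.card ≤ N) {a a' : ℝ} (h0 : 0 ≤ a) (h1 : a ≤ a') (h2 : a' ≤ 1)
    (h3 : 3 * (N : ℝ) * (a' - a) ≤ g.γ l ∨ (a' < 1 ∧ 3 * (a' - a) ≤ g.γ l * (1 - a')))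
    (hM : ∀ y ∈ P, M.b (0, y) ≤ a') : ∃ M' : Mem st b0 Z0, (M.Z ⊆ M'.Z ∧ ∀ v, M'.b v ≤ M.b v) ∧
      (∀ y ∈ P, M'.b (0, y) ≤ a) ∧ ∀ l0 ≤ l, ∀ x c, g.Bd ex ey p st b0 Z0 M' l0 x c →
        g.Bd ex ey p st b0 Z0 M l0 x (c + g.γ l0) := by
  obtain ⟨b', f1, f2, f3, -, f5⟩ := speed_mem ex ey (P := P.image fun y => ((0 : Fin T), y))
    (γ := g.γ l) h.hp (M.fld h.hb) h0 h1 h2 (fun v hv => by
      obtain ⟨y, hy, rfl⟩ := mem_image.1 hv; exact hM y hy) (h3.imp_left fun h3 => le_trans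
        (mul_le_mul_of_nonneg_right (mul_le_mul_of_nonneg_left
          (Nat.cast_le.2 (card_image_le.trans hN)) (by norm_num)) (sub_nonneg.2 h1)) h3)
  refine ⟨⟨M.Z, b', M.sub, fun v => (f1.mem v).1, fun v => (f2 v).trans (M.le v),
    fun v hv => le_antisymm (M.dead v hv ▸ f2 v) (f1.mem v).1⟩, ⟨Subset.rfl, f2⟩,
    fun y hy => f3 _ (mem_image_of_mem _ hy), fun l0 hl x c hc v u κ hP => ?_⟩
  have a1 : GA ex ey p b' v u ≤ c + κ := hc v u κ hP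
  have a2 := (abs_le.1 (f5 v u)).2
  have a3 := h.γ_anti hl
  linarith

/-- data at all levels for a clean point. -/
lemma data (h : g.Ok ex ey p st b0 Z0 d Kr) (a : Dat) {Z : Finset X} (hZ : Z0 ⊆ Z) {x : X} (n : ℕ) :
    ∀ j, j + n = g.L → (∀ i, j ≤ i → i < g.L → g.Cs i Z x) →
      ∃ D : ℕ → Dat, ∀ i, j ≤ i → i < g.L → g.Val i Z (D i) ∧ g.Cd i (D i) (g.σ i) Z x := by
  induction n with
  | zero => exact fun j e _ => ⟨fun _ => a, fun i a b => absurd b (by omega)⟩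
  | succ n ih =>
    intro j e hx
    obtain ⟨D, hD⟩ := ih (j + 1) (by omega) fun i a b => hx i (by omega) b
    obtain ⟨c, c1⟩ := h.pick j (by omega) D g.σ Z x hZ
      (fun i a b => ⟨(hD i a b).1, le_trans (Nat.le_add_right _ _) (h.σ_ge i b), le_rfl⟩)
      ⟨fun i a b => hx i a (by omega), fun i a b => (hD i a b).2⟩
    refine ⟨Function.update D j c, fun i a b => ?_⟩
    rcases a.eq_or_lt with rfl | a
    · simpa using c1
    · rw [Function.update_of_ne a.ne']; exact hD i a b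

lemma Δ_mono (h : g.Ok ex ey p st b0 Z0 d Kr) {l i : ℕ} (h1 : l ≤ i) (h2 : i ≤ g.L) :
    g.Δ l ≤ g.Δ i := by
  induction i, h1 using Nat.le_induction with
  | base => exact le_rfl
  | succ i _ ih =>
    exact (ih (by omega)).trans ((Nat.le_mul_of_pos_left _ (by omega)).trans (h.Δ_le i h2))

theorem ns_ok (h : g.Ok ex ey p st b0 Z0 d Kr) (a0 : Dat) :
    ∃ u, (g.ns ex ey p st b0 Z0 d u).Ok := by
  have hu : ∀ l, ∃ u : ℕ → ℝ, l ≤ g.L → u 0 = 0 ∧ u (g.K l + 1) = 1 ∧ ∀ k ≤ g.K l, 0 ≤ u k ∧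
      u k ≤ u (k + 1) ∧ u (k + 1) ≤ 1 ∧ (3 * (g.Nn l : ℝ) * (u (k + 1) - u k) ≤ g.γ l ∨
        (u (k + 1) < 1 ∧ 3 * (u (k + 1) - u k) ≤ g.γ l * (1 - u (k + 1)))) := fun l => by
    by_cases hl : l ≤ g.L
    · exact (ladder (h.γ_pos l).1 (h.γ_pos l).2 (h.lad l hl)).imp fun _ h _ => h
    · exact ⟨0, fun h => absurd h hl⟩
  choose u hu using hu
  have eK : ∀ l < g.L, (g.ns ex ey p st b0 Z0 d u).K l = g.K l + 2 := fun l hl => if_pos hl
  have eL : (g.ns ex ey p st b0 Z0 d u).K g.L = g.K g.L + 1 := if_neg (lt_irrefl _)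
  refine ⟨u, ⟨fun M => ⟨Subset.rfl, fun _ => le_rfl⟩,
    fun M M' M'' a b => ⟨b.1.trans a.1, fun v => (a.2 v).trans (b.2 v)⟩,
    fun l => (h.γ_pos l).1.le, fun M l x c c' hc hB => ⟨hB.1.trans hc, fun v w κ hP =>
      (hB.2 v w κ hP).trans (add_le_add hc le_rfl)⟩,
    fun l M M' x a => h.Cs_mono _ _ _ _ a.1, fun l a r r' M M' x b => h.Cd_mono _ _ _ _ _ _ _ b.1,
    fun l M M' a b => h.Val_mono _ _ _ _ b.1, fun l a k M M' b hF => ?_,
    fun k M M' b hG y => (b.2 _).trans (hG y), fun l hl => ?_, fun l hl => ?_,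
    fun l hl D r M x => h.pick l hl D r _ x M.sub, fun l hl a M x => h.start l hl a _ x M.sub,
    fun l hl a k hk M hF hV => ?_, fun l hl a M => ?_, fun l hl D r M hA hH x hx =>
      ⟨(h.γ_pos l).1.le, h.reset l hl D r M hA (fun j a b l0 c y hy => (hH j a b l0 c y hy).2) x hx⟩,
    fun M hG l hl x hx => ?_, fun k hk M hG => ?_, fun M y => ?_⟩⟩
  · cases k
    · exact Subset.trans hF b.1
    · exact fun y hy => (b.2 _).trans (hF y hy)
  · rw [eK l hl]; exact h.Δ_le l hl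
  · rw [eK l hl]; exact h.σ_ge l hl
  · rw [eK l hl] at hk
    obtain ⟨u0, -, u2⟩ := hu l (le_of_lt hl)
    cases k with
    | zero =>
      have hb := M.fld h.hb
      refine ⟨⟨M.Z ∪ g.kz l a, kill M.b (A.cyl (slots st (g.kz l a))),
        M.sub.trans subset_union_left, fun v => ((hb.kill _).mem v).1,
        fun v => (WN.kill_le M.nn _ v).trans (M.le v), fun v hv => ?_⟩,
        ⟨subset_union_left, WN.kill_le M.nn _⟩, subset_union_right,
        fun l0 h0 x c hx hc => ⟨add_nonneg hc.1 (h.γ_pos l0).1.le, fun v w κ hP => ?_⟩⟩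
      · unfold kill
        split_ifs with h1
        · rfl
        · exact M.dead v ((mem_union.1 hv).resolve_right fun h2 =>
            h1 (A.mem_cyl.2 (mem_filter.2 ⟨mem_univ _, h2⟩)))
      · have hW : ∀ z : Fin T × Λ, z.2 ∈ g.Dp st d l a → z.2 ∉ slots st (g.kz l a) → M.b z ≠ 0 →
            z.2 ∈ g.Dp st d l a ∧ st z.2 ∉ g.kz l a ∧ st z.2 ∉ M.Z ∧ b0 z ≠ 0 :=
          fun z h1 h2 h3 => ⟨h1, fun h4 => h2 (mem_filter.2 ⟨mem_univ _, h4⟩),
            fun h4 => h3 (M.dead z h4), fun h4 => h3 (le_antisymm (h4 ▸ M.le z) (M.nn z))⟩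
        have hv := h.far l hl _ a x M.sub hV hx l0 h0 v w κ hP
        have hz : ∀ y ∈ g.Dp st d l a, M.b (0, y) = 0 :=
          fun y hy => le_antisymm (u0 ▸ hF y hy) (M.nn _)
        have a3 := h.γ_anti h0
        have a4 := h.fast l hl
        show _ ≤ c + g.γ l0 + κ
        by_cases hw : st w.2 ∈ g.kz l a
        · have a2 := jump0 ex ey h.hp hb h.hd (h.rate l hl) (h.slow l hl _ a M.sub hV) hW
            (h.card l hl _ a M.sub hV) hz (mem_filter.2 ⟨mem_univ _, hw⟩) hv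
          linarith [hc.1, h.Pr_pos _ _ _ _ _ _ hP]
        have a1 : GA ex ey p (kill M.b (A.cyl (slots st (g.kz l a)))) v w ≤ c + κ :=
          hc.2 v w κ (h.Pr_mono _ _ _ _ _ _ _ subset_union_left
            (fun k => (mem_union.1 k).resolve_right fun k => hv (A.mem_nbd.2
              ⟨v.2, mem_filter.2 ⟨mem_univ _, k⟩, by rw [h.hd.1]; omega⟩))
            (fun k => (mem_union.1 k).resolve_right hw) hP)
        have a2 := jump_fast ex ey h.hp hb h.hd (h.rate l hl) (h.slow l hl _ a M.sub hV) hW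
          (h.card l hl _ a M.sub hV) hz (u := w) (.inl hv)
        linarith
    | succ k =>
      obtain ⟨a1, a2, a3, a4⟩ := u2 k (by omega)
      obtain ⟨M', b1, b2, b3⟩ := drift h M (h.card l hl _ a M.sub hV) a1 a2 a3 a4 hF
      exact ⟨M', b1, b2, fun l0 h0 x c _ k =>
        ⟨add_nonneg k.1 (h.γ_pos l0).1.le, b3 l0 h0 x c k.2⟩⟩
  · rw [eK l hl]
    exact fun y _ => (hu l (le_of_lt hl)).2.1 ▸ ((M.fld h.hb).mem _).2
  · obtain ⟨D, hD⟩ := data h a0 M.sub (g.L - l) l (by have : l ≤ g.L := hl; omega) hx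
    have key : ∀ i, l ≤ i → i < g.L → g.ρ i + g.Δ l ≤ g.σ i := fun i a b =>
      le_trans (Nat.add_le_add_left ((Δ_mono h a b.le).trans
        (Nat.le_mul_of_pos_left _ (by omega))) _) (h.σ_ge i b)
    exact ⟨mul_nonneg zero_le_two (h.γ_pos l).1.le,
      h.base l hl D g.ρ M (fun y => le_antisymm ((hu _ le_rfl).1 ▸ hG y) (M.nn _))
      (fun i a b => ⟨(hD i a b).1, le_rfl, key i a b⟩) x ⟨fun i a b => absurd b (by omega),
        fun i a b => h.Cd_mono _ _ _ _ _ _ _ Subset.rfl (key i a b) (hD i a b).2⟩⟩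
  · rw [show (g.ns ex ey p st b0 Z0 d u).K (g.ns ex ey p st b0 Z0 d u).L = _ from eL] at hk
    obtain ⟨a1, a2, a3, a4⟩ := (hu _ le_rfl).2.2 k (by omega)
    obtain ⟨M', b1, b2, b3⟩ := drift h M (P := univ) h.top a1 a2 a3 a4 fun y _ => hG y
    exact ⟨M', b1, fun y => b2 y (mem_univ _), fun l0 h0 x c k =>
      ⟨add_nonneg k.1 (h.γ_pos l0).1.le, b3 l0 h0 x c k.2⟩⟩
  · rw [show (g.ns ex ey p st b0 Z0 d u).K (g.ns ex ey p st b0 Z0 d u).L = _ from eL]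
    exact (hu _ le_rfl).2.1 ▸ ((M.fld h.hb).mem _).2

/-- **G4, Green part**: all members, all types. -/
theorem all (h : g.Ok ex ey p st b0 Z0 d Kr) {R : ℕ → ℕ}
    (hR : ∀ i < g.L, g.ρ i + ∑ t ∈ range (i + 1), g.Δ (t + 1) ≤ R i ∧ R i ≤ g.σ i)
    (M : Mem st b0 Z0) {j : ℕ} (hj : j ≤ g.L) {D : ℕ → Dat}
    (hV : ∀ i, j ≤ i → i < g.L → g.Val i M.Z (D i)) {l0 : ℕ} (h0 : l0 ≤ j) {x : X}
    (hx : g.Ty j l0 D R M.Z x) : g.Bd ex ey p st b0 Z0 M l0 x (g.γ l0) := by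
  obtain ⟨u, hu⟩ := ns_ok h (D 0)
  have := (NS.all hu (R := R) hR hj (M := M) hV l0 h0 x hx).2
  rwa [one_mul] at this


end GD

end Crest.Agent.N337.G4.Sp
end

-- ▼ part N337/G4/Inst

/-!
# Row 337, G4 (helper23): the nested induction on the fronts of `G4/RDefs`
-/

set_option autoImplicit false
set_option linter.unusedSectionVars false

namespace Crest.Agent.N337.G4.Sp

open Finset Crest.Agent.N337.Rep Crest.Agent.N337.Free Crest.Agent.N337.Rg Crest.Agent.N337.Tr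
  Crest.Agent.N337.G4.Rs
open Crest.Agent.N337.Arc (Fld)

section geo
variable {L : ℕ} [NeZero L]

/-- cubes of the torus are collected in well separated groups. -/
theorem mergeT (c σ n : ℕ) : ∀ l : Dat L, l.card ≤ n → ∃ F : Dat L, F.card ≤ n ∧
    (∀ m ∈ l, ∃ G ∈ F, tdist G.1 m.1 + m.2 ≤ G.2) ∧
    (∀ G ∈ F, ∀ G' ∈ F, G ≠ G' → c * (G.2 + σ + (G'.2 + σ)) ≤ tdist G.1 G'.1) ∧
    ∀ G ∈ F, ∃ m ∈ l, tdist G.1 m.1 + m.2 ≤ G.2 ∧ G.2 + σ ≤ (2 * c + 2) ^ n * (m.2 + σ) := by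
  induction n with
  | zero =>
    intro l h1
    rw [card_eq_zero.1 (Nat.le_zero.1 h1)]
    exact ⟨∅, by simp⟩
  | succ n ih =>
    intro l h1
    by_cases hs : ∀ G ∈ l, ∀ G' ∈ l, G ≠ G' → c * (G.2 + σ + (G'.2 + σ)) ≤ tdist G.1 G'.1
    · exact ⟨l, h1, fun m hm => ⟨m, hm, by simp [tdist_self]⟩, hs, fun G hG => ⟨G, hG,
        by simp [tdist_self], Nat.le_mul_of_pos_left _ (by positivity)⟩⟩
    have : ∃ G ∈ l, ∃ G' ∈ l, G ≠ G' ∧ G'.2 ≤ G.2 ∧
        tdist G.1 G'.1 < c * (G.2 + σ + (G'.2 + σ)) := by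
      push Not at hs
      obtain ⟨G, hG, G', hG', hne, hd⟩ := hs
      rcases le_total G'.2 G.2 with h | h
      · exact ⟨G, hG, G', hG', hne, h, hd⟩
      · exact ⟨G', hG', G, hG, hne.symm, h, by rw [tdist_comm, add_comm (G'.2 + σ)]; exact hd⟩
    obtain ⟨G, hG, G', hG', hne, hle, hd⟩ := this
    have hG'' : G' ∈ l.erase G := mem_erase.2 ⟨hne.symm, hG'⟩
    obtain ⟨F, f1, f2, f3, f4⟩ := ih
      (insert (G.1, G.2 + tdist G.1 G'.1 + G'.2) ((l.erase G).erase G')) (by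
        have a1 := card_insert_le (G.1, G.2 + tdist G.1 G'.1 + G'.2) ((l.erase G).erase G')
        have a2 := card_erase_of_mem hG''
        have a3 := card_erase_of_mem hG
        have a4 := card_pos.2 ⟨_, hG''⟩
        omega)
    obtain ⟨K, hK, hKH⟩ := f2 _ (mem_insert_self _ _)
    dsimp only at hKH
    refine ⟨F, by omega, fun m hm => ?_, f3, fun K' hK' => ?_⟩
    · by_cases e1 : m = G
      · exact ⟨K, hK, by rw [e1]; omega⟩
      by_cases e2 : m = G'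
      · exact ⟨K, hK, by have := tdist_triangle K.1 G.1 G'.1; rw [e2]; omega⟩
      exact f2 m (mem_insert_of_mem (mem_erase.2 ⟨e2, mem_erase.2 ⟨e1, hm⟩⟩))
    · obtain ⟨m, hm, m1, m2⟩ := f4 K' hK'
      rcases mem_insert.1 hm with rfl | hm
      · refine ⟨G, hG, by dsimp only at m1; omega, m2.trans ?_⟩
        rw [pow_succ, mul_assoc]
        refine Nat.mul_le_mul_left _ ?_
        dsimp only
        nlinarith [Nat.mul_le_mul_left c hle]
      · refine ⟨m, mem_of_mem_erase (mem_of_mem_erase hm), m1, m2.trans ?_⟩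
        rw [pow_succ, mul_assoc]
        exact Nat.mul_le_mul_left _ (Nat.le_mul_of_pos_left _ (by omega))

variable {Q : Gp} {U U' : ℕ → Tor 3 L → Prop} {l r r' : ℕ} {D : Dat L} {x y : Tor 3 L}

lemma In_mono (h : In D r y) (hr : r ≤ r') : In D r' y :=
  h.imp fun _ h => ⟨h.1, h.2.trans (Nat.add_le_add_left hr _)⟩

lemma In_move {e : ℕ} (h : In D r y) (he : tdist y x ≤ e) : In D (r + e) x := by
  obtain ⟨B, h1, h2⟩ := h
  exact ⟨B, h1, by have := tdist_triangle B.1 y x; omega⟩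

lemma Cd_mono (h : Cd Q U l D r y) (hU : ∀ u, U' l u → U l u) (hr : r' ≤ r) : Cd Q U' l D r' y :=
  ⟨fun h1 => h.1 (In_mono h1 hr), fun u hu h1 => h.2 u (hU u hu) (by omega)⟩

lemma Cd_not (h : Cd Q U l D r y) : ¬ U l y := fun hu =>
  h.1 (In_mono (h.2 y hu (by rw [tdist_self]; omega)) (Nat.zero_le _))

/-- **a datum from a cover by balls far from the point.** -/
theorem pick_gen {F : Finset (Tor 3 L)} {s e R H : ℕ} (hF : F.card ≤ Q.N)
    (hc : ∀ u, U l u → tdist x u ≤ H → ∃ f ∈ F, tdist f u ≤ s)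
    (hR : (2 * Q.c + 2) ^ Q.N * (s + Q.sg l) ≤ R) (hm : R ≤ Q.Rm l)
    (hf : ∀ f ∈ F, 2 * R + Q.sg l + e < tdist x f)
    (hH : (Q.N + 1) * (2 * Q.Rm l + Q.W l + 2 * Q.dc l + Q.sg l + e) ≤ H) :
    ∃ D, Val Q U l D ∧ ∀ y, tdist x y ≤ e → Cd Q U l D (Q.sg l) y := by
  obtain ⟨𝒢, g1, g2, g3, g4⟩ := mergeT Q.c (Q.sg l) Q.N (F.image fun f => (f, s))
    (card_image_le.trans hF)
  set w := 2 * Q.Rm l + Q.W l + 2 * Q.dc l + Q.sg l + e with hw
  have g5 : ∀ G ∈ 𝒢, G.2 ≤ R ∧ ∃ f ∈ F, tdist G.1 f ≤ R := fun G hG => by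
    obtain ⟨m, hm, m1, m2⟩ := g4 G hG
    obtain ⟨f, hf, rfl⟩ := mem_image.1 hm
    dsimp only at m1 m2
    exact ⟨by omega, f, hf, by omega⟩
  obtain ⟨k, hk, hk'⟩ : ∃ k ≤ Q.N, ∀ G ∈ 𝒢, tdist x G.1 ≤ (k + 1) * w → tdist x G.1 ≤ k * w := by
    by_contra hn
    push Not at hn
    have h1 : range (Q.N + 1) ⊆ 𝒢.image fun G => (tdist x G.1 - 1) / w := fun k hk => by
      obtain ⟨G, hG, a1, a2⟩ := hn k (Nat.lt_succ_iff.1 (mem_range.1 hk))
      exact mem_image.2 ⟨G, hG, Nat.div_eq_of_lt_le (by omega) (by omega)⟩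
    have := (card_le_card h1).trans card_image_le
    rw [card_range] at this
    omega
  have kw : (k + 1) * w ≤ H := (Nat.mul_le_mul_right _ (by omega)).trans hH
  rw [add_mul, one_mul] at kw hk'
  have key : ∀ u, U l u → tdist x u + Q.Rm l ≤ k * w + w →
      In (𝒢.filter fun G => tdist x G.1 ≤ k * w) 0 u := fun u hu h1 => by
    obtain ⟨f, hf, h2⟩ := hc u hu (by omega)
    obtain ⟨G, hG, h3⟩ := g2 _ (mem_image_of_mem _ hf)
    dsimp only at h3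
    have a1 := tdist_triangle G.1 f u
    have a2 := tdist_triangle x u G.1
    have a3 := (g5 G hG).1
    rw [tdist_comm u] at a2
    exact ⟨G, mem_filter.2 ⟨hG, hk' G hG (by omega)⟩, by omega⟩
  refine ⟨𝒢.filter fun G => tdist x G.1 ≤ k * w, ⟨(card_filter_le _ _).trans g1,
    fun B hB => (g5 B (mem_filter.1 hB).1).1.trans hm,
    fun B hB B' hB' => g3 B (mem_filter.1 hB).1 B' (mem_filter.1 hB').1,
    fun u hu ⟨B, hB, h1⟩ => key u hu ?_⟩, fun y hy => ⟨fun ⟨B, hB, h1⟩ => ?_,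
    fun u hu h1 => key u hu ?_⟩⟩
  · have a1 := tdist_triangle x B.1 u
    have a2 := (mem_filter.1 hB).2
    have a3 := (g5 B (mem_filter.1 hB).1).1
    omega
  · obtain ⟨a1, f, a2, a3⟩ := g5 B (mem_filter.1 hB).1
    have a4 := hf f a2
    have a5 := tdist_triangle x y f
    have a6 := tdist_triangle y B.1 f
    rw [tdist_comm y B.1] at a6
    omega
  · have := tdist_triangle x y u
    omega

/-- a datum for a point with no junk nearby. -/
theorem pick_fr {F : Finset (Tor 3 L)} {s e d H : ℕ} (hF : F.card ≤ Q.N)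
    (hc : ∀ u, U l u → tdist x u ≤ H → ∃ f ∈ F, tdist f u ≤ s)
    (hR : (2 * Q.c + 2) ^ Q.N * (s + Q.sg l) ≤ Q.Rm l) (hx : Fr U l d x)
    (hd : 2 * Q.Rm l + Q.sg l + e + s ≤ d)
    (hH : (Q.N + 1) * (2 * Q.Rm l + Q.W l + 2 * Q.dc l + Q.sg l + e) ≤ H) :
    ∃ D, Val Q U l D ∧ ∀ y, tdist x y ≤ e → Cd Q U l D (Q.sg l) y := by
  classical
  refine pick_gen (F := F.filter fun f => ∃ u, U l u ∧ tdist f u ≤ s)
    ((card_filter_le _ _).trans hF) (fun u hu h1 => ?_) hR le_rfl (fun f hf => ?_) hH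
  · obtain ⟨f, h2, h3⟩ := hc u hu h1
    exact ⟨f, mem_filter.2 ⟨h2, u, hu, h3⟩, h3⟩
  · obtain ⟨-, u, h1, h2⟩ := mem_filter.1 hf
    have := hx u h1
    have := tdist_triangle x f u
    omega

/-- a datum for all points near an isolated point. -/
theorem pick_iso {α κ : Type} [SemilatticeSup α] [Preorder κ] {S : Sys (Tor 3 L) α κ}
    (hd : ∀ x y, S.d x y = tdist x y) {e : ℕ} (h : S.Iso U l x) (hN : S.N ≤ Q.N)
    (h1 : Q.sg l + e ≤ S.sep l) (h2 : 4 * (2 * Q.c + 2) ^ Q.N + 1 ≤ S.Lam)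
    (h3 : (2 * Q.c + 2) ^ Q.N * (S.Sx l + Q.sg l) ≤ Q.Rm l)
    (hH : (Q.N + 1) * (2 * Q.Rm l + Q.W l + 2 * Q.dc l + Q.sg l + e) ≤ S.H l) :
    ∃ D, Val Q U l D ∧ ∀ y, tdist x y ≤ e → Cd Q U l D (Q.sg l) y := by
  obtain ⟨s, F, a1, a2, a3, a4, a5⟩ := h
  simp only [hd] at a4 a5
  refine pick_gen (a3.trans hN) a4 le_rfl
    ((Nat.mul_le_mul_left _ (Nat.add_le_add_right a2 _)).trans h3) (fun f hf => ?_) hH
  have b1 := a5 f hf
  have b2 := Nat.mul_le_mul_right s h2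
  have b3 := Nat.mul_le_mul_left ((2 * Q.c + 2) ^ Q.N) (show s + Q.sg l ≤ 2 * s by omega)
  rw [tdist_comm] at b1
  nlinarith

end geo

/-- numbers of the paths. -/
structure Np where
  /-- steps of the ladder; radii in units of `un l` -/
  K : ℕ → ℕ
  ρ : ℕ → ℕ
  σ : ℕ → ℕ
  Δ : ℕ → ℕ
  /-- speed of the cheap steps, number of expensive steps, size of the slice -/
  v : ℕ → ℕ
  f : ℕ → ℕ
  Nn : ℕ → ℕ
  /-- range of the junk predicate, radius and range of the covers, range of the pairs -/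
  lc : ℕ → ℕ
  Sc : ℕ → ℕ
  Hc : ℕ → ℕ
  r0 : ℕ
  Kr : ℕ → ℝ

variable {L n T : ℕ} [NeZero L] [NeZero T] (ex ey : Fin T → Tor 3 L × Fin n)
  {α κ : Type} [SemilatticeSup α] [Preorder κ] (S : Sys (Tor 3 L) α κ) (G : Eg) (Q : Gp) (P : Pz)
  (N : Np)

/-- **numerics of the paths** (`vol` = number of slots). -/
structure NP (n vol : ℕ) : Prop where
  γ : ∀ l, 0 < P.γ l ∧ P.γ l ≤ 3
  anti : Antitone P.γ
  Δ0 : 1 ≤ N.Δ 0
  Δ : ∀ l < G.mt, (N.K l + 3) * N.Δ l ≤ N.Δ (l + 1)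
  σ : ∀ l < G.mt, N.ρ l + ∑ t ∈ range (l + 1), N.Δ (t + 1) ≤ N.σ l ∧ N.σ l * Q.un l ≤ Q.sg l
  lad : ∀ l ≤ G.mt, 3 * (N.Nn l : ℝ) ≤ P.γ l * Real.exp (P.γ l * N.K l / 6)
  top : vol ≤ N.Nn G.mt
  fast : ∀ l < G.mt, N.Nn l * Real.exp (40 * N.Kr l - N.f l) ≤ P.γ l
  card : ∀ l < G.mt,
    Q.N * ((2 * (Q.Rm l + N.lc l + ((N.f l + 1) * (N.v l + 1) + 1)) + 1) ^ 3 * n) ≤ N.Nn l
  ρ : ∀ l < G.mt, Q.fr ≤ N.ρ l * Q.un l ∧
    N.lc l + ((N.f l + 1) * (N.v l + 1) + 1) + N.r0 ≤ N.ρ l * Q.un l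
  Rm : ∀ l < G.mt, (2 * Q.c + 2) ^ Q.N * (N.Sc l + Q.sg l) ≤ Q.Rm l
  dc : ∀ l < G.mt, 2 * Q.Rm l + Q.sg l + N.Sc l ≤ Q.dc l
  H : ∀ l < G.mt, (Q.N + 1) * (2 * Q.Rm l + Q.W l + 2 * Q.dc l + Q.sg l) ≤ N.Hc l

variable (p : Fin T → ℝ) (b0 : Pt L n T → ℝ) (Z0 : Finset (Tor 3 L))
  (U : Finset (Tor 3 L) → ℕ → Tor 3 L → Prop)
  (Pr : Finset (Tor 3 L) → ℕ → Tor 3 L → Pt L n T → Pt L n T → ℝ → Prop)

/-- **the inputs of G4** (`U Z` = junk for the killed set `Z`). -/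
structure GIn : Prop where
  np : NP G Q P N n (L ^ 3 * n)
  hp : ∀ s, 0 ≤ p s ∧ p s ≤ 1
  hb : Fld b0
  nn : ∀ s, tdist (ex s).1 (ey s).1 ≤ 1
  anti : ∀ Z Z' l y, Z ⊆ Z' → U Z' l y → U Z l y
  dead : ∀ l < G.mt, ∀ Z y, (∀ z, tdist y z ≤ N.lc l → z ∈ Z) → ¬ U Z l y
  cov : ∀ l < G.mt, ∀ Z x, Z0 ⊆ Z → (l + 1 < G.mt → ¬ U Z (l + 1) x) → ∃ F : Finset (Tor 3 L),
    F.card ≤ Q.N ∧ ∀ u, U Z l u → tdist x u ≤ N.Hc l → ∃ f ∈ F, tdist f u ≤ N.Sc l
  rate : ∀ l < G.mt, A.Rate ex ey (fun x y => tdist x.1 y.1) ⟨p, b0⟩ (N.v l + 2) (N.Kr l)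
  slow : ∀ l < G.mt, (∃ u, U Z0 l u) → ∀ Z, Z0 ⊆ Z → A.Slow ex ey (fun x y => tdist x.1 y.1)
    (A.Cheap ex ey (fun x y => tdist x.1 y.1) ⟨p, b0⟩)
    (fun u => u.2.1 ∉ Z ∧ ¬ U Z l u.2.1 ∧ b0 u ≠ 0) (N.v l)
  mono : ∀ Z Z' l x v u o, Z ⊆ Z' → (v.2.1 ∈ Z' → v.2.1 ∈ Z) → (u.2.1 ∈ Z' → u.2.1 ∈ Z) →
    Pr Z l x v u o → Pr Z' l x v u o
  pos : ∀ Z l x v u o, Pr Z l x v u o → 0 ≤ o
  near : ∀ Z l x v u o, Pr Z l x v u o → tdist x v.2.1 ≤ N.r0
  rin : ∀ M : Mem Prod.fst b0 Z0, ∃ b' Lf, RIn ex ey S G Q p M.b P b' (U M.Z) Lf (Pr M.Z)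

open Classical in
/-- the geometric data. -/
noncomputable def gd : GD T (Tor 3 L × Fin n) (Tor 3 L) (Dat L) where
  L := G.mt
  γ := P.γ
  Pr l Z := Pr Z l
  Cs l Z := Cs Q (U Z) l
  Cd l a r Z := Cd Q (U Z) l a (r * Q.un l)
  Val l Z a := Val Q (U Z) l a ∧ (a.Nonempty → ∃ u, U Z0 l u)
  kz l a := univ.filter (In a (N.lc l))
  K := N.K
  ρ := N.ρ
  σ := N.σ
  Δ := N.Δ
  v := N.v
  f := N.f
  Nn := N.Nn

variable {ex ey S G Q P N p b0 Z0 U Pr}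

lemma mem_Dp {l : ℕ} {a : Dat L} {y : Tor 3 L × Fin n}
    (h : y ∈ (gd G Q P N Z0 U Pr).Dp Prod.fst (fun x y => tdist x.1 y.1) l a) :
    In a (N.lc l + ((N.f l + 1) * (N.v l + 1) + 1)) y.1 := by
  classical
  obtain ⟨z, h1, h2⟩ := A.mem_nbd.1 h
  exact In_move (mem_filter.1 (mem_filter.1 h1).2).2 (by rw [tdist_comm]; exact h2)

/-- no junk, no datum. -/
lemma trim (h : GIn ex ey S G Q P N p b0 Z0 U Pr) {Z : Finset (Tor 3 L)} (hZ : Z0 ⊆ Z) {l : ℕ}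
    {a : Dat L} (hV : Val Q (U Z) l a) : ∃ a', (Val Q (U Z) l a' ∧ (a'.Nonempty → ∃ u, U Z0 l u)) ∧
      ∀ r y, Cd Q (U Z) l a r y → Cd Q (U Z) l a' r y := by
  by_cases hU : ∃ u, U Z0 l u
  · exact ⟨a, ⟨hV, fun _ => hU⟩, fun _ _ h => h⟩
  · have hn : ∀ u, ¬ U Z l u := fun u hu => hU ⟨u, h.anti _ _ _ _ hZ hu⟩
    exact ⟨∅, ⟨⟨by simp, by simp, by simp, fun u hu => absurd hu (hn u)⟩, by simp⟩,
      fun r y _ => ⟨by simp [In], fun u hu => absurd hu (hn u)⟩⟩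

theorem gd_ok (h : GIn ex ey S G Q P N p b0 Z0 U Pr) :
    (gd G Q P N Z0 U Pr).Ok ex ey p Prod.fst b0 Z0 (fun x y => tdist x.1 y.1) N.Kr := by
  classical
  have np := h.np
  have Δ1 : ∀ l ≤ G.mt, 1 ≤ N.Δ l := fun l hl => by
    induction l with
    | zero => exact np.Δ0
    | succ l ih => exact (Nat.mul_pos (by omega) (ih (by omega))).trans_le (np.Δ l hl)
  have rad : ∀ l ≤ G.mt, ∀ D r Z, (gd G Q P N Z0 U Pr).Ad l D r (N.Δ l) Z → ∀ i, l ≤ i → i < G.mt →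
      Val Q (U Z) i (D i) ∧ Q.fr ≤ r i * Q.un i ∧ r i * Q.un i + Q.un i ≤ (r i + N.Δ l) * Q.un i ∧
        (r i + N.Δ l) * Q.un i ≤ Q.sg i := fun l hl D r Z hA i a b => by
    obtain ⟨a1, a2, a3⟩ := hA i a b
    refine ⟨a1.1, (np.ρ i b).1.trans (Nat.mul_le_mul_right _ a2), ?_,
      (Nat.mul_le_mul_right _ a3).trans (np.σ i b).2⟩
    rw [add_mul]
    exact Nat.add_le_add_left (Nat.le_mul_of_pos_left _ (Δ1 l hl)) _
  have ρσ : ∀ l < G.mt, N.ρ l + (N.K l + 3) * N.Δ l ≤ N.σ l := fun l hl =>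
    le_trans (Nat.add_le_add_left ((np.Δ l hl).trans (single_le_sum (f := fun t => N.Δ (t + 1))
      (fun _ _ => Nat.zero_le _) (self_mem_range_succ l))) _) (np.σ l hl).1
  refine ⟨h.hp, h.hb, ⟨fun _ => tdist_self _, fun _ _ => tdist_comm _ _,
    fun _ _ _ => tdist_triangle _ _ _, h.nn⟩, np.γ, np.anti,
    fun l Z Z' x v u o => h.mono Z Z' l x v u o, fun l Z => h.pos Z l,
    fun l Z Z' x hZ hx u hu => hx u (h.anti _ _ _ _ hZ hu),
    fun l a r r' Z Z' x hZ hr hx => Cd_mono hx (fun u => h.anti _ _ _ _ hZ)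
      (Nat.mul_le_mul_right _ hr),
    fun l Z Z' a hZ hV => ⟨hV.1.anti fun u => h.anti _ _ _ _ hZ, hV.2⟩,
    np.Δ, ρσ, np.lad, le_of_eq_of_le (by simp) np.top, np.fast, h.rate, fun l hl Z a _ ⟨hV, _⟩ => ?_,
    fun l hl Z a hZ ⟨hV, hV'⟩ => ?_,
    fun l hl Z a x _ hV hx l0 _ v u o hP => ?_, fun l hl D r Z x hZ _ hx => ?_,
    fun l hl a Z x _ hk _ hx u hu => ?_, fun l hl D r M hA hH x hx => ?_,
    fun l hl D r M h0 hA x hx => ?_⟩
  · refine le_trans (card_le_card (t := a.biUnion fun B => (univ.filter fun z =>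
      tdist B.1 z ≤ Q.Rm l + N.lc l + ((N.f l + 1) * (N.v l + 1) + 1)) ×ˢ univ) fun y hy => ?_)
      (card_biUnion_le.trans ((sum_le_card_nsmul _ _ _ fun B _ => ?_).trans
        ((Nat.mul_le_mul_right _ hV.card).trans (np.card l hl))))
    · obtain ⟨B, h1, h2⟩ := mem_Dp hy
      have := hV.rad B h1
      exact mem_biUnion.2 ⟨B, h1, mem_product.2 ⟨mem_filter.2 ⟨mem_univ _, by omega⟩, mem_univ _⟩⟩
    · rw [card_product, card_univ, Fintype.card_fin]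
      exact Nat.mul_le_mul_right _ (card_ball_le _ _)
  · rcases a.eq_empty_or_nonempty with rfl | ha
    · intro s t γ hst ht hP
      rcases hst.eq_or_lt with rfl | hst
      · exact (tdist_self _).le.trans (Nat.zero_le _)
      · obtain ⟨B, hB, -⟩ := mem_Dp (hP ⟨s, by omega⟩ le_rfl hst).1.1
        simp at hB
    refine (h.slow l hl (hV' ha) Z hZ).mono (fun _ h => h) (fun u hu => ?_) le_rfl
    refine ⟨hu.2.2.1, fun hU => hu.2.1 (mem_filter.2 ⟨mem_univ _, In_mono (hV.cls _ hU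
      (In_mono (mem_Dp hu.1) ?_)) (Nat.zero_le _)⟩), hu.2.2.2⟩
    have a1 := (np.ρ l hl).2
    have a2 := (np.σ l hl).2
    have a3 := Nat.mul_le_mul_right (Q.un l) ((Nat.le_add_right _ _).trans (ρσ l hl))
    omega
  · exact fun h2 => hx.1 (In_mono (In_move (mem_Dp h2)
      (by rw [tdist_comm]; exact h.near _ _ _ _ _ _ hP)) (np.ρ l hl).2)
  · obtain ⟨F, h1, h2⟩ := h.cov l hl Z x hZ fun h1 => Cd_not (hx.2 (l + 1) le_rfl h1)
    obtain ⟨a, a1, a2⟩ := pick_fr (e := 0) h1 h2 (np.Rm l hl) (hx.1 l le_rfl l.lt_succ_self)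
      (np.dc l hl) (np.H l hl)
    obtain ⟨a', a3, a4⟩ := trim h hZ a1
    exact ⟨a', a3, Cd_mono (a4 _ _ (a2 x (tdist_self x).le)) (fun _ h => h) (np.σ l hl).2⟩
  · by_contra hc
    exact h.dead l hl Z u (fun z hz => hk (mem_filter.2 ⟨mem_univ _,
      In_mono (In_move (hx.2 u hu (by omega)) hz) (by omega)⟩)) hu
  · obtain ⟨b', Lf, hI⟩ := h.rin M
    exact Rs.reset b' _ Lf _ hI l hl D _ _ (rad l hl D r M.Z hA) hH x hx
  · obtain ⟨b', Lf, hI⟩ := h.rin M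
    exact fun v u o hP => (Rs.base b' _ Lf _ hI h0 l hl D _ _ (rad l hl D r M.Z hA) x hx v u o
      hP).trans (by have := (np.γ l).1; show _ ≤ 2 * P.γ l + o; linarith)

/-- **G4, Green part**: all members, all types (fronts of radius `sg`). -/
theorem g4_all (h : GIn ex ey S G Q P N p b0 Z0 U Pr)
    (M : Mem Prod.fst b0 Z0) {j l0 : ℕ} (hj : j ≤ G.mt) (h0 : l0 ≤ j) {D : ℕ → Dat L}
    (hV : ∀ i, j ≤ i → i < G.mt → Val Q (U M.Z) i (D i)) {y : Tor 3 L}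
    (hy : Ty Q (U M.Z) G.mt j l0 D Q.sg y) : Bd ex ey p M.b (Pr M.Z) l0 y (P.γ l0) := by
  choose! D' h1 h2 using fun i a b => trim h M.sub (hV i a b)
  exact GD.all (gd_ok h) (R := N.σ) (fun i hi => ⟨(h.np.σ i hi).1, le_rfl⟩) M hj h1 h0
    ⟨hy.1, fun i a b => Cd_mono (h2 i a b _ _ (hy.2 i a b)) (fun _ h => h) (h.np.σ i b).2⟩

/-- **G4, Green part**: a point with a datum at every level `≥ l0`. -/
theorem g4_pt (h : GIn ex ey S G Q P N p b0 Z0 U Pr)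
    (M : Mem Prod.fst b0 Z0) {l0 : ℕ} (h0 : l0 ≤ G.mt) {y : Tor 3 L}
    (hy : ∀ i, l0 ≤ i → i < G.mt → ∃ D, Val Q (U M.Z) i D ∧ Cd Q (U M.Z) i D (Q.sg i) y) :
    Bd ex ey p M.b (Pr M.Z) l0 y (P.γ l0) := by
  choose! D hD using hy
  exact g4_all h M h0 le_rfl (D := D) (fun i a b => (hD i a b).1)
    ⟨fun i a b => absurd b (by omega), fun i a b => (hD i a b).2⟩

end Crest.Agent.N337.G4.Sp
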