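import Crest.Agent.N337.R.Defs
import Crest.Agent.N337.W.Env

-- ▼ part N337/G4/T4
section

/-!
# Row 337, G4 (helper23): the four-point bound

`|Z ∂_z W(a → c) - W(a → c) ∂_z Z| ≤ 3/2 Z (W(a → z) + W(z → c))` from the Lee–Yang half-plane
property `DL.half`.
-/

set_option autoImplicit false
set_option linter.unusedSectionVars false

namespace Crest.Agent.N337.G4.Sp

open Finset Equiv Function Matrix Crest.Agent.N337.Rep Crest.Agent.N337.LY0 Crest.Agent.N337.DL
  Crest.Agent.N337.Arc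

section gen
variable {S : Type} [Fintype S] [DecidableEq S] {R : Type} [CommRing R]

/-- the generating function of one configuration. -/
noncomputable def Tm (π : Perm S) (s t b : S → R) : R := Tp π fun v => mv (s v) (t v) (b v)

lemma Tm_pt (π : Perm S) (s t b : S → R) (z : S) : ∃ A B C D : R, ∀ α β η : R,
    Tm π (update s z α) (update t z β) (update b z η) = A + α * B + β * C + (η + α * β) * D := by
  obtain ⟨P, hP⟩ := Tp_update π (fun v => mv (s v) (t v) (b v)) z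
  refine ⟨P 0 0, P 0 1, P 1 0, P 1 1, fun α β η => ?_⟩
  have e : (fun v => mv (update s z α v) (update t z β v) (update b z η v)) =
      update (fun v => mv (s v) (t v) (b v)) z (mv α β η) := by
    funext v
    rcases eq_or_ne v z with rfl | h
    · simp
    · simp [update_of_ne h]
  rw [Tm, e, hP]
  simp [mv, trace_fin_two, vecMul, dotProduct]; ring

lemma Tm_s (π : Perm S) (s t b : S → R) (z : S) (α : R) : Tm π (update s z α) t b =
    Tm π (update s z 0) t b + α * (Tm π (update s z 1) t b - Tm π (update s z 0) t b) := by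
  obtain ⟨A, B, C, D, h⟩ := Tm_pt π s t b z
  have h' := fun a => h a (t z) (b z)
  simp only [update_eq_self] at h'
  rw [h', h', h']; ring

lemma Tm_t (π : Perm S) (s t b : S → R) (z : S) (β : R) : Tm π s (update t z β) b =
    Tm π s (update t z 0) b + β * (Tm π s (update t z 1) b - Tm π s (update t z 0) b) := by
  obtain ⟨A, B, C, D, h⟩ := Tm_pt π s t b z
  have h' := fun a => h (s z) a (b z)
  simp only [update_eq_self] at h'
  rw [h', h', h']; ring

lemma Tm_b (π : Perm S) (s t b : S → R) (z : S) (η : R) : Tm π s t (update b z (b z + η)) =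
    Tm π s t b + η * (Tm π s t (update b z (b z + 1)) - Tm π s t b) := by
  obtain ⟨A, B, C, D, h⟩ := Tm_pt π s t b z
  have h' := fun a => h (s z) (t z) a
  simp only [update_eq_self] at h'
  have h0 := h' (b z)
  rw [update_eq_self] at h0
  rw [h', h', h0]; ring

/-- raising the weight of `z` is a source and a sink at `z`. -/
lemma Tm_mix (π : Perm S) (s t b : S → R) (z : S) :
    Tm π s t (update b z (b z + 1)) - Tm π s t b =
      Tm π (update s z 1) (update t z 1) b - Tm π (update s z 1) (update t z 0) b -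
        Tm π (update s z 0) (update t z 1) b + Tm π (update s z 0) (update t z 0) b := by
  obtain ⟨A, B, C, D, h⟩ := Tm_pt π s t b z
  have h1 := h (s z) (t z) (b z + 1)
  have h0 := h (s z) (t z) (b z)
  have h2 := fun a c => h a c (b z)
  simp only [update_eq_self] at h0 h1 h2
  rw [h0, h1, h2, h2, h2, h2]; ring

lemma Tm_cont [TopologicalSpace R] [IsTopologicalRing R] {X : Type} [TopologicalSpace X]
    (π : Perm S) {s t b : X → S → R} (hs : ∀ v, Continuous fun e => s e v)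
    (ht : ∀ v, Continuous fun e => t e v) (hb : ∀ v, Continuous fun e => b e v) :
    Continuous fun e => Tm π (s e) (t e) (b e) := by
  refine continuous_finsetProd _ fun c _ => ?_
  have hg : ∀ v, Continuous fun e => mv (s e v) (t e v) (b e v) := fun v => by
    have := hs v; have := ht v; have := hb v
    refine continuous_matrix fun i j => ?_
    fin_cases i <;> fin_cases j <;> simp [mv] <;> fun_prop
  have : ∀ k, Continuous fun e =>
      Pk (fun i => mv (s e (π^[i] (bp c))) (t e (π^[i] (bp c))) (b e (π^[i] (bp c)))) k := by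
    intro k
    induction k with
    | zero => exact continuous_const
    | succ k ih => exact (hg _).matrix_mul ih
  exact (this _).matrix_trace

lemma Tm_deriv (π : Perm S) (s t b c : S → ℝ) :
    HasDerivAt (fun w : ℝ => Tm π s t fun v => b v + w * c v)
      (∑ z, c z * (Tm π s t (update b z (b z + 1)) - Tm π s t b)) 0 := by
  set U : S → M2 ℝ := fun v => mv (s v) (t v) (b v) with hU
  set G : S → M2 ℝ := fun v => c v • !![0, 0; 0, 1] with hG
  have e : ∀ w : ℝ, (Tm π s t fun v => b v + w * c v) =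
      ∏ g, Tr π (fun v => U v + w • G v) g := fun w => by
    rw [Tm, Tp]
    congr 2
    funext g
    congr 1
    funext v; ext i j; fin_cases i <;> fin_cases j <;> simp [mv, hU, hG]; ring
  simp only [e]
  refine (HasDerivAt.fun_finsetProd fun g _ => Tr_deriv π U G g).congr_deriv ?_
  rw [← sum_fiberwise univ (o π)]
  refine sum_congr rfl fun g _ => ?_
  rw [smul_eq_mul, mul_sum]
  refine sum_congr rfl fun z hz => ?_
  obtain rfl : o π z = g := (mem_filter.1 hz).2
  obtain ⟨P, hP⟩ := Tp_update π U z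
  have h1 : Tp π (update U z (G z)) =
      (∏ j ∈ univ.erase (o π z), Tr π (fun v => U v + (0 : ℝ) • G v) j) *
        Tr π (update U z (G z)) (o π z) := by
    rw [Tp, ← mul_prod_erase _ _ (mem_univ (o π z)), mul_comm]
    congr 1
    exact prod_congr rfl fun c hc => Tr_congr π fun v hv => by
      rw [update_of_ne fun h => ne_of_mem_erase hc (by rw [← hv, h]), zero_smul, add_zero]
  have h2 : Tm π s t b = (U z * P).trace := by rw [← hP, update_eq_self, Tm]
  have h3 : Tm π s t (update b z (b z + 1)) = (mv (s z) (t z) (b z + 1) * P).trace := by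
    rw [← hP, Tm]
    congr 1
    funext v
    rcases eq_or_ne v z with rfl | h
    · simp
    · simp [update_of_ne h, hU]
  rw [← h1, hP, h2, h3]
  simp only [hU, hG, mv, trace_fin_two, mul_apply, Fin.sum_univ_two, Matrix.smul_apply, of_apply,
    cons_val', cons_val_zero, cons_val_one, cons_val_fin_one, smul_eq_mul]
  ring

lemma up00 {R : Type} [Zero R] (z : S) : update (0 : S → R) z 0 = 0 := update_eq_self z 0

lemma Tm_t0 (π : Perm S) (s b : S → ℝ) : Tm π s 0 b = ∏ c, (1 + pr π b c) := by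
  have hc : Continuous fun l : ℝ => Tm π (fun v => l * s v) 0 b :=
    Tm_cont π (fun v => by fun_prop) (fun v => continuous_const) fun v => continuous_const
  have h1 : ∀ l : ℝ, l ≠ 0 → Tm π (fun v => l * s v) 0 b = Tm π s 0 b := fun l hl => by
    simpa [Tm] using Tp_gauge π (mul_inv_cancel₀ hl) s 0 b
  have h2 := tendsto_nhds_unique
    (hc.continuousAt.tendsto.mono_left (nhdsWithin_le_nhds (a := (0 : ℝ)) (s := {(0 : ℝ)}ᶜ)))
    (tendsto_const_nhds.congr' (by
      filter_upwards [self_mem_nhdsWithin] with l hl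
      exact (h1 l hl).symm))
  rw [← h2]
  simpa [Tm] using Tp_zero π 0 b

end gen

lemma re_conj {A B : ℂ} (h : ∀ α : ℂ, 0 < α.re → A + α * B ≠ 0) :
    0 ≤ A.re * B.re + A.im * B.im := by
  by_contra hn
  have hB : B ≠ 0 := fun e => hn (by simp [e])
  refine h (-A / B) ?_ (by field_simp; ring)
  rw [Complex.div_re, ← add_div]
  exact div_pos (by simp only [Complex.neg_re, Complex.neg_im]; linarith)
    (Complex.normSq_pos.2 hB)

variable {Λ : Type} [Fintype Λ] [DecidableEq Λ] {T : ℕ} [NeZero T] (ex ey : Fin T → Λ)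
variable {p : Fin T → ℝ} {b : Fin T × Λ → ℝ}

/-- the complex generating function. -/
noncomputable def Fc (p : Fin T → ℝ) (b : Fin T × Λ → ℝ) (σ τ : Fin T × Λ → ℂ) : ℂ :=
  ∑ ξ, (Pw p ξ : ℂ) * Tm (Sg ex ey ξ) σ τ fun v => b v

lemma Ft_eq (p : Fin T → ℝ) (b s t : Fin T × Λ → ℝ) :
    Ft ex ey p b s t = ∑ ξ, Pw p ξ * Tm (Sg ex ey ξ) s t b := rfl

lemma Fc_real (p : Fin T → ℝ) (b s t : Fin T × Λ → ℝ) :
    Fc ex ey p b (fun v => s v) (fun v => t v) = Ft ex ey p b s t := by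
  simp only [Ft, Fc, Tm]
  rw [← Complex.ofRealHom_eq_coe (∑ ξ, _), map_sum]
  simp only [map_mul, Tp_map, Complex.ofRealHom_eq_coe]

lemma Fc_t (p : Fin T → ℝ) (b : Fin T × Λ → ℝ) (σ τ : Fin T × Λ → ℂ) (z : Fin T × Λ) (β : ℂ) :
    Fc ex ey p b σ (update τ z β) = Fc ex ey p b σ (update τ z 0) +
      β * (Fc ex ey p b σ (update τ z 1) - Fc ex ey p b σ (update τ z 0)) := by
  simp only [Fc, ← sum_sub_distrib, mul_sum, ← sum_add_distrib]
  exact sum_congr rfl fun ξ _ => by rw [Tm_t]; ring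

/-- the half-plane property at one source. -/
lemma half_re (hp : ∀ s, 0 ≤ p s ∧ p s ≤ 1) (hb : ∀ v, 0 ≤ b v) {σ τ : Fin T × Λ → ℂ}
    (hσ : ∀ v, 0 ≤ (σ v).re) (hτ : ∀ v, 0 ≤ (τ v).re) (x : Fin T × Λ) {A B : ℂ}
    (hA : Fc ex ey p b (update σ x 0) τ = A) (hB : Fc ex ey p b (update σ x 1) τ = A + B) :
    0 ≤ A.re * B.re + A.im * B.im := by
  set F : ℂ → ℝ → ℂ := fun c e => Fc ex ey p b (update (fun v => σ v + e) x c) fun v => τ v + e
    with hF
  have cF : ∀ c, Continuous (F c) := fun c =>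
    continuous_finsetSum _ fun ξ _ => continuous_const.mul (Tm_cont _ (fun v => by
      rcases eq_or_ne v x with rfl | h
      · simpa using continuous_const
      · simp only [update_of_ne h]; fun_prop) (fun v => by fun_prop) fun v => continuous_const)
  have c2 : Continuous fun e => (F 0 e).re * (F 1 e - F 0 e).re + (F 0 e).im * (F 1 e - F 0 e).im := by
    have := cF 0; have := cF 1; fun_prop
  have key := ge_of_tendsto (c2.continuousAt.tendsto.mono_left
    (nhdsWithin_le_nhds (a := (0 : ℝ)) (s := Set.Ioi 0))) (b := 0) (by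
      filter_upwards [self_mem_nhdsWithin] with e he
      refine re_conj fun α hα h => half ex ey hp hb (σ := update (fun v => σ v + e) x α)
        (τ := fun v => τ v + e) (fun v => ?_) (fun v => ?_) ?_
      · rcases eq_or_ne v x with rfl | h
        · simpa using hα
        · simpa [update_of_ne h] using add_pos_of_nonneg_of_pos (hσ v) he
      · simpa using add_pos_of_nonneg_of_pos (hτ v) he
      · rw [← h, hF]
        simp only [Fc, ← sum_sub_distrib, mul_sum, ← sum_add_distrib]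
        exact sum_congr rfl fun ξ _ => by
          rw [← Tm, Tm_s]; ring)
  simp only [hF, Complex.ofReal_zero, add_zero] at key
  rwa [hA, hB, add_sub_cancel_left] at key

lemma Ft_s0 (p : Fin T → ℝ) (b t : Fin T × Λ → ℝ) : Ft ex ey p b 0 t = Zt ex ey p b := by
  simp only [Ft, Pi.zero_apply, Tp_zero, Zt]

lemma Ft_t0 (p : Fin T → ℝ) (b s : Fin T × Λ → ℝ) : Ft ex ey p b s 0 = Zt ex ey p b := by
  simp only [Ft_eq, Tm_t0, Zt]

lemma Ft_s (p : Fin T → ℝ) (b s t : Fin T × Λ → ℝ) (z : Fin T × Λ) (α : ℝ) :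
    Ft ex ey p b (update s z α) t = Ft ex ey p b (update s z 0) t +
      α * (Ft ex ey p b (update s z 1) t - Ft ex ey p b (update s z 0) t) := by
  simp only [Ft_eq, ← sum_sub_distrib, mul_sum, ← sum_add_distrib]
  exact sum_congr rfl fun ξ _ => by rw [Tm_s]; ring

lemma Ft_t (p : Fin T → ℝ) (b s t : Fin T × Λ → ℝ) (z : Fin T × Λ) (β : ℝ) :
    Ft ex ey p b s (update t z β) = Ft ex ey p b s (update t z 0) +
      β * (Ft ex ey p b s (update t z 1) - Ft ex ey p b s (update t z 0)) := by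
  simp only [Ft_eq, ← sum_sub_distrib, mul_sum, ← sum_add_distrib]
  exact sum_congr rfl fun ξ _ => by rw [Tm_t]; ring

/-- the slope of the generating function in the weight of `z`. -/
noncomputable def Dz (p : Fin T → ℝ) (b s t : Fin T × Λ → ℝ) (z : Fin T × Λ) : ℝ :=
  Ft ex ey p (update b z (b z + 1)) s t - Ft ex ey p b s t

lemma Ft_b (p : Fin T → ℝ) (b s t : Fin T × Λ → ℝ) (z : Fin T × Λ) (η : ℝ) :
    Ft ex ey p (update b z (b z + η)) s t = Ft ex ey p b s t + η * Dz ex ey p b s t z := by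
  simp only [Dz, Ft_eq, ← sum_sub_distrib, mul_sum, ← sum_add_distrib]
  exact sum_congr rfl fun ξ _ => by rw [Tm_b]; ring

lemma Dz_mix (p : Fin T → ℝ) (b s t : Fin T × Λ → ℝ) (z : Fin T × Λ) :
    Dz ex ey p b s t z = Ft ex ey p b (update s z 1) (update t z 1) -
      Ft ex ey p b (update s z 1) (update t z 0) - Ft ex ey p b (update s z 0) (update t z 1) +
        Ft ex ey p b (update s z 0) (update t z 0) := by
  simp only [Dz, Ft_eq, ← sum_sub_distrib, ← sum_add_distrib]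
  exact sum_congr rfl fun ξ _ => by rw [← mul_sub, Tm_mix]; ring

lemma Ft_bderiv (p : Fin T → ℝ) (b s t c : Fin T × Λ → ℝ) :
    HasDerivAt (fun w : ℝ => Ft ex ey p (fun v => b v + w * c v) s t)
      (∑ z, c z * Dz ex ey p b s t z) 0 := by
  simp only [Ft_eq]
  refine (HasDerivAt.fun_sum fun ξ _ =>
    (Tm_deriv (Sg ex ey ξ) s t b c).const_mul (Pw p ξ)).congr_deriv ?_
  simp only [Dz, Ft_eq, ← sum_sub_distrib, mul_sum]
  rw [sum_comm]
  exact sum_congr rfl fun z _ => sum_congr rfl fun ξ _ => by ring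

/-- one source. -/
lemma Ft_one_s (hp : ∀ s, 0 ≤ p s ∧ p s ≤ 1) (hb : Fld b) (a : Fin T × Λ) (t : Fin T × Λ → ℝ) :
    Ft ex ey p b (Pi.single a 1) t = Zt ex ey p b + E1 ex ey p b (Pi.single a 1) t := by
  have h := Ft_deriv ex ey hp hb.mem hb.lt (Pi.single a 1) t
  have e : ∀ w : ℝ, Ft ex ey p b (fun v => w * (Pi.single a 1 : Fin T × Λ → ℝ) v) t =
      Zt ex ey p b + w * (Ft ex ey p b (Pi.single a 1) t - Zt ex ey p b) := fun w => by
    have e1 : (fun v => w * (Pi.single a 1 : Fin T × Λ → ℝ) v) = update (0 : Fin T × Λ → ℝ) a w := by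
      funext v; rcases eq_or_ne v a with rfl | h <;> simp [*]
    rw [e1, Ft_s, up00, Ft_s0]; rfl
  simp only [e] at h
  have h2 := ((hasDerivAt_id (0 : ℝ)).mul_const
    (Ft ex ey p b (Pi.single a 1) t - Zt ex ey p b)).const_add (Zt ex ey p b)
  have := h.unique h2
  linarith

/-- one sink. -/
lemma Ft_one_t (hp : ∀ s, 0 ≤ p s ∧ p s ≤ 1) (hb : Fld b) (s : Fin T × Λ → ℝ) (c : Fin T × Λ) :
    Ft ex ey p b s (Pi.single c 1) = Zt ex ey p b + E1 ex ey p b s (Pi.single c 1) := by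
  have h := Ft_deriv ex ey hp hb.mem hb.lt s (Pi.single c 1)
  have e : ∀ w : ℝ, Ft ex ey p b (fun v => w * s v) (Pi.single c 1) =
      Zt ex ey p b + w * (Ft ex ey p b s (Pi.single c 1) - Zt ex ey p b) := fun w => by
    rcases eq_or_ne w 0 with rfl | hw
    · simp only [zero_mul, add_zero]; exact Ft_s0 ex ey p b (Pi.single c 1)
    have e1 : (Pi.single c 1 : Fin T × Λ → ℝ) =
        fun v => w⁻¹ * (update 0 c w : Fin T × Λ → ℝ) v := by
      funext v; rcases eq_or_ne v c with rfl | h <;> simp [*]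
    have e2 : Ft ex ey p b (fun v => w * s v) (Pi.single c 1) = Ft ex ey p b s (update 0 c w) := by
      rw [e1]; simp only [Ft, Tp_gauge _ (mul_inv_cancel₀ hw)]
    rw [e2, Ft_t, up00, Ft_t0]; rfl
  simp only [e] at h
  have h2 := ((hasDerivAt_id (0 : ℝ)).mul_const
    (Ft ex ey p b s (Pi.single c 1) - Zt ex ey p b)).const_add (Zt ex ey p b)
  have := h.unique h2
  linarith

lemma E1_add_s (p : Fin T → ℝ) (b s s' t : Fin T × Λ → ℝ) :
    E1 ex ey p b (s + s') t = E1 ex ey p b s t + E1 ex ey p b s' t := by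
  simp only [E1, ← sum_add_distrib]
  refine sum_congr rfl fun ω _ => ?_
  have : gr (s + s') ω = gr s ω + gr s' ω := by funext v; simp only [gr, Pi.add_apply]; split_ifs <;> simp
  rw [this, mulVec_add, dotProduct_add, mul_add]

lemma E1_add_t (p : Fin T → ℝ) (b s t t' : Fin T × Λ → ℝ) :
    E1 ex ey p b s (t + t') = E1 ex ey p b s t + E1 ex ey p b s t' := by
  simp only [E1, ← sum_add_distrib]
  refine sum_congr rfl fun ω _ => ?_
  have : gr (t + t') ω = gr t ω + gr t' ω := by funext v; simp only [gr, Pi.add_apply]; split_ifs <;> simp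
  rw [this, add_dotProduct, mul_add]

lemma E1_single (p : Fin T → ℝ) (b : Fin T × Λ → ℝ) (a c : Fin T × Λ) :
    E1 ex ey p b (Pi.single a 1) (Pi.single c 1) = RR.AG ex ey p b c a := by
  refine sum_congr rfl fun ω _ => ?_
  have e : ∀ a : Fin T × Λ, gr (Pi.single a 1) ω = Pi.single a (if ω a = none then 1 else 0) :=
    fun a => by
      funext v
      rcases eq_or_ne v a with rfl | h <;> simp [gr, *]
  rw [e, e, mulVec_single, single_dotProduct]
  by_cases h1 : ω a = none <;> by_cases h2 : ω c = none <;> simp [h1, h2]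

/-- the two-point function from the generating function. -/
lemma Ft_two (hp : ∀ s, 0 ≤ p s ∧ p s ≤ 1) (hb : Fld b) (a c : Fin T × Λ) :
    Ft ex ey p b (Pi.single a 1) (Pi.single c 1) = Zt ex ey p b + RR.AG ex ey p b c a := by
  rw [Ft_one_s ex ey hp hb, E1_single]

lemma Dz_zero (hp : ∀ s, 0 ≤ p s ∧ p s ≤ 1) (hb : Fld b) (z : Fin T × Λ) :
    Dz ex ey p b 0 0 z = RR.AG ex ey p b z z := by
  have h := Ft_two ex ey hp hb z z
  rw [Dz_mix, up00, Ft_t0, Ft_s0, Ft_s0]
  change Ft ex ey p b (Pi.single z 1) (Pi.single z 1) - _ - _ + _ = _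
  rw [h]; ring

lemma up_add {S : Type} [DecidableEq S] {a z : S} (h : z ≠ a) :
    update (Pi.single a 1 : S → ℝ) z 1 = Pi.single a 1 + Pi.single z 1 ∧
      update (Pi.single a 1 : S → ℝ) z 0 = Pi.single a 1 := by
  constructor <;> funext v <;> rcases eq_or_ne v z with rfl | h' <;> simp [*]

/-- the quadratic form of the four-point bound. -/
lemma quad (hp : ∀ s, 0 ≤ p s ∧ p s ≤ 1) (hb : Fld b) {a c z : Fin T × Λ} (ha : z ≠ a)
    (hc : z ≠ c) (b1 b2 : ℝ) :
    b1 * b2 * Zt ex ey p b *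
        (Dz ex ey p b (Pi.single a 1) (Pi.single c 1) z - RR.AG ex ey p b z z) ≤
      (b1 * RR.AG ex ey p b c a + b2 * RR.AG ex ey p b z a) *
        (b1 * RR.AG ex ey p b c z + b2 * RR.AG ex ey p b z z) := by
  set τ : Fin T × Λ → ℂ := update (update 0 c (b1 * Complex.I)) z (b2 * Complex.I) with hτ
  have bi : ∀ s : Fin T × Λ → ℝ, Fc ex ey p b (fun v => s v) τ = Zt ex ey p b +
      b1 * Complex.I * (Ft ex ey p b s (Pi.single c 1) - Zt ex ey p b) +
      b2 * Complex.I * (Ft ex ey p b s (Pi.single z 1) - Zt ex ey p b) -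
      b1 * b2 * (Ft ex ey p b s (Pi.single c 1 + Pi.single z 1) -
        Ft ex ey p b s (Pi.single c 1) - Ft ex ey p b s (Pi.single z 1) + Zt ex ey p b) := by
    intro s
    have r : ∀ i j : ℝ, Fc ex ey p b (fun v => s v) (update (update 0 z (j : ℂ)) c (i : ℂ)) =
        Ft ex ey p b s (i • Pi.single c 1 + j • Pi.single z 1) := fun i j => by
      rw [← Fc_real]
      congr 1
      funext v
      rcases eq_or_ne v c with rfl | h
      · simp [hc.symm]
      · rcases eq_or_ne v z with rfl | h' <;> simp [*]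
    have r00 := r 0 0; have r01 := r 0 1; have r10 := r 1 0; have r11 := r 1 1
    simp only [Complex.ofReal_zero, Complex.ofReal_one, zero_smul, one_smul, add_zero, zero_add,
      Ft_t0] at r00 r01 r10 r11
    rw [hτ, Fc_t, update_comm hc.symm, update_comm hc.symm, Fc_t _ _ _ _ _ _ c,
      Fc_t _ _ _ _ _ (update 0 z 1) c, r00, r01, r10, r11]
    linear_combination (b1 * b2 * ((Ft ex ey p b s (Pi.single c 1 + Pi.single z 1) : ℂ) -
      Ft ex ey p b s (Pi.single c 1) - Ft ex ey p b s (Pi.single z 1) + Zt ex ey p b)) *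
        Complex.I_mul_I
  have hA := bi (Pi.single z 1)
  have hC := bi (Pi.single a 1 + Pi.single z 1)
  have hD := Dz_mix ex ey p b (Pi.single a 1) (Pi.single c 1) z
  rw [(up_add ha).1, (up_add ha).2, (up_add hc).1, (up_add hc).2] at hD
  simp only [Ft_one_s ex ey hp hb, Ft_one_t ex ey hp hb, E1_add_s, E1_add_t, E1_single] at hA hC hD
  have key := half_re ex ey hp (fun v => (hb.mem v).1)
    (σ := fun v => ((Pi.single z 1 : Fin T × Λ → ℝ) v : ℂ)) (τ := τ) (fun v => by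
      rw [Complex.ofReal_re, Pi.single_apply]; split_ifs <;> norm_num) (fun v => by
      rcases eq_or_ne v z with rfl | h
      · simp [hτ]
      · rcases eq_or_ne v c with rfl | h' <;> simp [*]) a
    (A := Fc ex ey p b (fun v => (Pi.single z 1 : Fin T × Λ → ℝ) v) τ)
    (B := Fc ex ey p b (fun v => (Pi.single a 1 + Pi.single z 1 : Fin T × Λ → ℝ) v) τ -
      Fc ex ey p b (fun v => (Pi.single z 1 : Fin T × Λ → ℝ) v) τ) (by
      congr 1; funext v
      rcases eq_or_ne v a with rfl | h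
      · simp [ha.symm]
      · simp [h]) (by
      rw [add_sub_cancel]
      congr 1; funext v
      rcases eq_or_ne v a with rfl | h
      · simp [ha.symm]
      · simp [h])
  rw [hA, hC] at key
  simp at key
  rw [hD]
  nlinarith [key]

lemma zg_fld (hb : Fld b) (ω : Env T Λ) : Fld (zg b ω) := ⟨zg_mem hb.mem ω, zg_lt hb.lt ω⟩

lemma Ge_nonneg (hp : ∀ s, 0 ≤ p s ∧ p s ≤ 1) (hb : Fld b) (ω : Env T Λ) (v u : Fin T × Λ) :
    0 ≤ Ge ex ey p b ω v u := by
  rw [Ge, mul_apply]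
  exact sum_nonneg fun w _ => mul_nonneg (WN.Gi_nonneg ex ey (th_mem ex ey hp ω) (zg_fld hb ω) _ _)
    (Kb_nonneg ex ey (th_mem ex ey hp ω) _ _)

lemma AG_nonneg (hp : ∀ s, 0 ≤ p s ∧ p s ≤ 1) (hb : Fld b) (v u : Fin T × Λ) :
    0 ≤ RR.AG ex ey p b v u :=
  sum_nonneg fun ω _ => mul_nonneg (nv_nonneg ex ey hp hb.mem hb.lt ω) (by
    split_ifs; exacts [Ge_nonneg ex ey hp hb ω v u, le_rfl])

lemma Kb_row (p : Fin T → ℝ) : Kb ex ey p *ᵥ 1 = 1 := by
  funext ⟨r, y⟩
  rw [mulVec, dotProduct, Fintype.sum_prod_type, sum_eq_single (r - 1)]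
  · have : ∀ x, y = swap (ex (r - 1)) (ey (r - 1)) x ↔ swap (ex (r - 1)) (ey (r - 1)) y = x :=
      fun x => by rw [swap_apply_eq_iff]
    simp [Kb_apply, sum_add_distrib, this]
  · intro s _ hs
    have : ¬ r = s + 1 := fun e => hs (by rw [e, add_sub_cancel_right])
    simp [Kb_apply, this]
  · simp

lemma Kb_col (p : Fin T → ℝ) : 1 ᵥ* Kb ex ey p = 1 := by
  funext ⟨s, x⟩
  rw [vecMul, dotProduct, Fintype.sum_prod_type, sum_eq_single (s + 1)]
  · simp [Kb_apply, sum_add_distrib]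
  · intro r _ hr
    simp [Kb_apply, hr]
  · simp

lemma Ge_row (hp : ∀ s, 0 ≤ p s ∧ p s ≤ 1) (hb : Fld b) (ω : Env T Λ) (v : Fin T × Λ) :
    ∑ z, Ge ex ey p b ω v z * (1 - zg b ω z) = 1 := by
  have hZ := (Zg_pos ex ey (th_mem ex ey hp ω) (zg_mem hb.mem ω) (zg_lt hb.lt ω)).ne'
  have h : Ge ex ey p b ω *ᵥ (1 - zg b ω) = 1 := by
    have e : 1 - zg b ω = 1 - diagonal (zg b ω) *ᵥ 1 := by funext v; simp [mulVec_diagonal]
    rw [e, mulVec_sub, Ge, mulVec_mulVec, Matrix.mul_assoc, WN.Gi_mul ex ey hZ, sub_mulVec,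
      ← mulVec_mulVec, Kb_row, one_mulVec, sub_sub_cancel]
  exact congrFun h v

lemma Ge_col (hp : ∀ s, 0 ≤ p s ∧ p s ≤ 1) (hb : Fld b) (ω : Env T Λ) (u : Fin T × Λ) :
    ∑ z, (1 - zg b ω z) * Ge ex ey p b ω z u = 1 := by
  have hZ := (Zg_pos ex ey (th_mem ex ey hp ω) (zg_mem hb.mem ω) (zg_lt hb.lt ω)).ne'
  have h : (1 - zg b ω) ᵥ* Ge ex ey p b ω = 1 := by
    have e : 1 - zg b ω = 1 ᵥ* (1 - Kb ex ey (th ex ey p ω) * diagonal (zg b ω)) := by
      rw [vecMul_sub, vecMul_one, ← vecMul_vecMul, Kb_col]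
      funext v; simp [vecMul_diagonal]
    rw [e, Ge, vecMul_vecMul, ← Matrix.mul_assoc, WN.Gi, mul_nonsing_inv _ (Ne.isUnit hZ),
      Matrix.one_mul, Kb_col]
  exact congrFun h u

/-- sum rule over the targets. -/
theorem sum_tgt (hp : ∀ s, 0 ≤ p s ∧ p s ≤ 1) (hb : Fld b) (u : Fin T × Λ) :
    ∑ z, (1 - b z) * RR.AG ex ey p b z u ≤ Zt ex ey p b := by
  simp only [RR.AG, mul_sum]
  rw [sum_comm, ← sum_nv ex ey hp]
  refine sum_le_sum fun ω _ => ?_
  simp only [mul_left_comm (1 - b _), ← mul_sum]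
  refine mul_le_of_le_one_right (nv_nonneg ex ey hp hb.mem hb.lt ω) ?_
  refine (sum_le_sum fun z _ => ?_).trans (Ge_col ex ey hp hb ω u).le
  split_ifs with h
  · simp [zg, h.1]
  · rw [mul_zero]
    exact mul_nonneg (sub_nonneg.2 (zg_mem hb.mem ω z).2) (Ge_nonneg ex ey hp hb ω z u)

/-- sum rule over the sources. -/
theorem sum_src (hp : ∀ s, 0 ≤ p s ∧ p s ≤ 1) (hb : Fld b) (v : Fin T × Λ) :
    ∑ z, (1 - b z) * RR.AG ex ey p b v z ≤ Zt ex ey p b := by
  simp only [RR.AG, mul_sum]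
  rw [sum_comm, ← sum_nv ex ey hp]
  refine sum_le_sum fun ω _ => ?_
  simp only [mul_left_comm (1 - b _), ← mul_sum]
  refine mul_le_of_le_one_right (nv_nonneg ex ey hp hb.mem hb.lt ω) ?_
  refine (sum_le_sum fun z _ => ?_).trans (Ge_row ex ey hp hb ω v).le
  split_ifs with h
  · simp [zg, h.2, mul_comm]
  · rw [mul_zero]
    exact mul_nonneg (Ge_nonneg ex ey hp hb ω v z) (sub_nonneg.2 (zg_mem hb.mem ω z).2)

lemma Zt_mono (hp : ∀ s, 0 ≤ p s ∧ p s ≤ 1) {b' : Fin T × Λ → ℝ} (hb : ∀ v, 0 ≤ b v)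
    (h : ∀ v, b v ≤ b' v) : Zt ex ey p b ≤ Zt ex ey p b' :=
  sum_le_sum fun ξ _ => mul_le_mul_of_nonneg_left (prod_le_prod
    (fun c _ => add_nonneg zero_le_one (pr_nonneg hb c)) fun _ _ => add_le_add le_rfl
      (prod_le_prod (fun v _ => hb v) fun v _ => h v)) (Pw_nonneg hp ξ)

lemma Dz_s0 (p : Fin T → ℝ) (b t : Fin T × Λ → ℝ) (z : Fin T × Λ) :
    Dz ex ey p b 0 t z = Dz ex ey p b 0 0 z := by simp only [Dz, Ft_s0]

lemma Dz_t0 (p : Fin T → ℝ) (b s : Fin T × Λ → ℝ) (z : Fin T × Λ) :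
    Dz ex ey p b s 0 z = Dz ex ey p b 0 0 z := by simp only [Dz, Ft_t0]

lemma up_self {S : Type} [DecidableEq S] (a : S) (r : ℝ) :
    update (Pi.single a 1 : S → ℝ) a r = update (0 : S → ℝ) a r := update_idem _ _ _

/-- the two-point function does not see the weights of its ends. -/
lemma Dz_end (hp : ∀ s, 0 ≤ p s ∧ p s ≤ 1) (hb : Fld b) {a c z : Fin T × Λ} (h : z = a ∨ z = c) :
    Dz ex ey p b (Pi.single a 1) (Pi.single c 1) z = RR.AG ex ey p b z z := by
  rw [← Dz_zero ex ey hp hb]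
  rcases h with rfl | rfl
  · rw [← Dz_s0 ex ey p b (Pi.single c 1), Dz_mix, Dz_mix, up_self, up_self]
  · rw [← Dz_t0 ex ey p b (Pi.single a 1), Dz_mix, Dz_mix, up_self, up_self]

lemma fld_up (hb : Fld b) (z : Fin T × Λ) {r : ℝ} (h0 : 0 ≤ r) (h : r ≤ b z) :
    Fld (update b z r) ∧ ∀ v, update b z r v ≤ b v := by
  have h1 : ∀ v, 0 ≤ update b z r v ∧ update b z r v ≤ b v := fun v => by
    rcases eq_or_ne v z with rfl | h'
    · simpa using ⟨h0, h⟩
    · simpa [h'] using (hb.mem v).1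
  exact ⟨⟨fun v => ⟨(h1 v).1, (h1 v).2.trans (hb.mem v).2⟩,
    fun x => (h1 _).2.trans_lt (hb.lt x)⟩, fun v => (h1 v).2⟩

/-- the normalised two-point function is at most `1`. -/
theorem AG_le (hp : ∀ s, 0 ≤ p s ∧ p s ≤ 1) (hb : Fld b) (v u : Fin T × Λ) :
    RR.AG ex ey p b v u ≤ Zt ex ey p b := by
  obtain ⟨hb', hle⟩ := fld_up hb v le_rfl (hb.mem v).1
  have h1 := Ft_b ex ey p b (Pi.single u 1) (Pi.single v 1) v (-b v)
  have h0 := Ft_b ex ey p b 0 0 v (-b v)
  rw [add_neg_cancel] at h0 h1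
  rw [Ft_two ex ey hp hb', Ft_two ex ey hp hb, Dz_end ex ey hp hb (.inr rfl)] at h1
  rw [Ft_s0, Ft_s0, Dz_zero ex ey hp hb] at h0
  have h2 := (single_le_sum (fun z _ => mul_nonneg (sub_nonneg.2 (hb'.mem z).2)
    (AG_nonneg ex ey hp hb' z u)) (mem_univ v)).trans (sum_tgt ex ey hp hb' u)
  have h3 := Zt_mono ex ey hp (fun v => (hb'.mem v).1) hle
  rw [update_self] at h2
  linarith

/-- **(T4)** the four-point bound. -/
theorem t4 (hp : ∀ s, 0 ≤ p s ∧ p s ≤ 1) (hb : Fld b) (a c z : Fin T × Λ) :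
    |Zt ex ey p b * (Dz ex ey p b (Pi.single a 1) (Pi.single c 1) z - RR.AG ex ey p b z z) -
        RR.AG ex ey p b c a * RR.AG ex ey p b z z| ≤
      3 / 2 * Zt ex ey p b * (RR.AG ex ey p b z a + RR.AG ex ey p b c z) := by
  have n := AG_nonneg ex ey hp hb
  have l := AG_le ex ey hp hb
  have hZ := Zt_pos ex ey hp fun v => (hb.mem v).1
  have h12 : RR.AG ex ey p b z a * RR.AG ex ey p b c z ≤
      1 / 2 * Zt ex ey p b * (RR.AG ex ey p b z a + RR.AG ex ey p b c z) := by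
    nlinarith [mul_le_mul_of_nonneg_left (l c z) (n z a), mul_le_mul_of_nonneg_right (l z a) (n c z)]
  have hS := mul_nonneg hZ.le (add_nonneg (n z a) (n c z))
  by_cases h : z = a ∨ z = c
  · rw [Dz_end ex ey hp hb h, sub_self, mul_zero, zero_sub, abs_neg,
      abs_of_nonneg (mul_nonneg (n _ _) (n _ _))]
    rcases h with rfl | rfl <;> nlinarith
  rw [not_or] at h
  set M := RR.AG ex ey p b c a * RR.AG ex ey p b z z + RR.AG ex ey p b z a * RR.AG ex ey p b c z -
    Zt ex ey p b * (Dz ex ey p b (Pi.single a 1) (Pi.single c 1) z - RR.AG ex ey p b z z) with hM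
  have hd := discrim_le_zero (a := RR.AG ex ey p b c a * RR.AG ex ey p b c z) (b := M)
    (c := RR.AG ex ey p b z a * RR.AG ex ey p b z z) fun x => by
      have := quad ex ey hp hb h.1 h.2 x 1
      rw [hM]; nlinarith
  have h4 : RR.AG ex ey p b c a * RR.AG ex ey p b z z ≤ Zt ex ey p b ^ 2 := by
    rw [sq]; exact mul_le_mul (l _ _) (l _ _) (n _ _) hZ.le
  have h5 : |M| ≤ Zt ex ey p b * (RR.AG ex ey p b z a + RR.AG ex ey p b c z) := by
    refine abs_le_of_sq_le_sq ?_ hS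
    rw [discrim] at hd
    nlinarith [mul_le_mul_of_nonneg_right h4 (mul_nonneg (n z a) (n c z)),
      mul_nonneg (sq_nonneg (Zt ex ey p b)) (sq_nonneg (RR.AG ex ey p b z a - RR.AG ex ey p b c z))]
  have h6 := mul_nonneg (n z a) (n c z)
  rw [abs_le] at h5 ⊢
  constructor <;> linarith [h5.1, h5.2]

end Crest.Agent.N337.G4.Sp
end

-- ▼ part N337/G4/Speed

/-!
# Row 337, G4 (helper23): finite speed of the annealed Green function in a local kill parameter
-/

set_option autoImplicit false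
set_option linter.unusedSectionVars false

namespace Crest.Agent.N337.G4.Sp

open Finset Equiv Function Matrix Crest.Agent.N337.Rep Crest.Agent.N337.LY0 Crest.Agent.N337.DL
  Crest.Agent.N337.Arc

variable {Λ : Type} [Fintype Λ] [DecidableEq Λ] {T : ℕ} [NeZero T] (ex ey : Fin T → Λ)
variable {p : Fin T → ℝ} {b c : Fin T × Λ → ℝ} {P : Finset (Fin T × Λ)}

/-- the normalised annealed Green function, entry `(target, source)`. -/
noncomputable def GA (p : Fin T → ℝ) (b : Fin T × Λ → ℝ) (v u : Fin T × Λ) : ℝ :=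
  RR.AG ex ey p b v u / Zt ex ey p b



lemma GA_le_iff (hp : ∀ s, 0 ≤ p s ∧ p s ≤ 1) (hb : Fld b) (v u : Fin T × Λ) (γ : ℝ) :
    GA ex ey p b v u ≤ γ ↔ RR.AG ex ey p b v u ≤ γ * Zt ex ey p b :=
  div_le_iff₀ (Zt_pos ex ey hp fun v => (hb.mem v).1)

/-- the field `c` multiplied by `u` on `P`. -/
def sc (P : Finset (Fin T × Λ)) (c : Fin T × Λ → ℝ) (u : ℝ) : Fin T × Λ → ℝ :=
  fun v => if v ∈ P then u * c v else c v

lemma fld_of_le (hb : Fld b) (h0 : ∀ v, 0 ≤ c v) (h : ∀ v, c v ≤ b v) : Fld c :=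
  ⟨fun v => ⟨h0 v, (h v).trans (hb.mem v).2⟩, fun x => (h _).trans_lt (hb.lt x)⟩

lemma sc_fld (hc : ∀ v ∈ P, 0 ≤ c v) {u u' : ℝ} (h0 : 0 ≤ u) (h : u ≤ u') (hF : Fld (sc P c u')) :
    Fld (sc P c u) := by
  refine fld_of_le hF (fun v => ?_) fun v => ?_
  · have := (hF.mem v).1
    unfold sc at this ⊢
    split_ifs at this ⊢ with hv; exacts [mul_nonneg h0 (hc v hv), this]
  · unfold sc
    split_ifs with hv; exacts [mul_le_mul_of_nonneg_right h (hc v hv), le_rfl]

lemma sc_deriv (p : Fin T → ℝ) (s t : Fin T × Λ → ℝ) (u : ℝ) :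
    HasDerivAt (fun u => Ft ex ey p (sc P c u) s t)
      (∑ z ∈ P, c z * Dz ex ey p (sc P c u) s t z) u := by
  have h := Ft_bderiv ex ey p (sc P c u) s t fun v => if v ∈ P then c v else 0
  simp only [ite_mul, zero_mul, sum_ite_mem, univ_inter] at h
  have h2 := HasDerivAt.comp_sub_const u u ((sub_self u).symm ▸ h)
  refine h2.congr_of_eventuallyEq (.of_forall fun w => ?_)
  dsimp only
  congr 1
  funext v
  unfold sc
  split_ifs <;> ring

/-- the mean value inequality with the four-point bound. -/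
lemma speed_gen (hp : ∀ s, 0 ≤ p s ∧ p s ≤ 1) (hc : ∀ v ∈ P, 0 ≤ c v ∧ c v ≤ 1) {u u' C : ℝ}
    (h0 : 0 ≤ u) (h : u ≤ u') (hF : Fld (sc P c u')) (v w : Fin T × Λ)
    (hC : ∀ x ∈ Set.Ico u u', 3 / 2 * ∑ z ∈ P, (RR.AG ex ey p (sc P c x) z w +
      RR.AG ex ey p (sc P c x) v z) ≤ C * Zt ex ey p (sc P c x)) :
    |GA ex ey p (sc P c u') v w - GA ex ey p (sc P c u) v w| ≤ C * (u' - u) := by
  have F : ∀ x ∈ Set.Icc u u', Fld (sc P c x) := fun x hx =>
    sc_fld (fun v hv => (hc v hv).1) (h0.trans hx.1) hx.2 hF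
  have Z : ∀ x ∈ Set.Icc u u', 0 < Zt ex ey p (sc P c x) := fun x hx =>
    Zt_pos ex ey hp fun v => ((F x hx).mem v).1
  have e : ∀ x ∈ Set.Icc u u', Ft ex ey p (sc P c x) (Pi.single w 1) (Pi.single v 1) /
      Ft ex ey p (sc P c x) 0 0 = 1 + GA ex ey p (sc P c x) v w := fun x hx => by
    rw [Ft_two ex ey hp (F x hx), Ft_s0, GA, add_div, div_self (Z x hx).ne']
  have key := norm_image_sub_le_of_norm_deriv_le_segment' (C := C)
    (fun x hx => ((sc_deriv ex ey (P := P) (c := c) p (Pi.single w 1) (Pi.single v 1) x).div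
      (sc_deriv ex ey (P := P) (c := c) p 0 0 x)
      (by rw [Ft_s0]; exact (Z x hx).ne')).hasDerivWithinAt) (fun x hx => ?_) u' ⟨h, le_rfl⟩
  · simp only [Pi.div_apply] at key
    rw [e u' ⟨h, le_rfl⟩, e u ⟨le_rfl, h⟩, add_sub_add_left_eq_sub] at key
    exact key
  have hx' := Set.Ico_subset_Icc_self hx
  have hb := F x hx'
  have hZ := Z x hx'
  rw [Real.norm_eq_abs, abs_div, abs_pow, Ft_s0, abs_of_pos hZ, div_le_iff₀ (pow_pos hZ 2),
    Ft_two ex ey hp hb, sum_mul, mul_sum, ← sum_sub_distrib]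
  refine (abs_sum_le_sum_abs _ _).trans (le_trans (sum_le_sum (g := fun z =>
    3 / 2 * Zt ex ey p (sc P c x) * (RR.AG ex ey p (sc P c x) z w + RR.AG ex ey p (sc P c x) v z))
    fun z hz => ?_)
    (le_trans (le_of_eq ?_) ((mul_le_mul_of_nonneg_left (hC x hx) hZ.le).trans (le_of_eq ?_))))
  rotate_left
  · rw [← mul_sum]; ring
  · ring
  have h4 := t4 ex ey hp hb w v z
  rw [Dz_zero ex ey hp hb]
  refine le_trans (le_of_eq ?_) ((mul_le_of_le_one_left (abs_nonneg _) (hc z hz).2).trans h4)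
  rw [← abs_of_nonneg (hc z hz).1, ← abs_mul, abs_of_nonneg (hc z hz).1]
  congr 1; ring

/-- **SPEED**, few points. -/
theorem speed_card (hp : ∀ s, 0 ≤ p s ∧ p s ≤ 1) (hc : ∀ v ∈ P, 0 ≤ c v ∧ c v ≤ 1) {u u' : ℝ}
    (h0 : 0 ≤ u) (h : u ≤ u') (hF : Fld (sc P c u')) (v w : Fin T × Λ) :
    |GA ex ey p (sc P c u') v w - GA ex ey p (sc P c u) v w| ≤ 3 * P.card * (u' - u) := by
  refine speed_gen ex ey hp hc h0 h hF v w fun x hx => ?_
  have hb := sc_fld (fun v hv => (hc v hv).1) (h0.trans hx.1) hx.2.le hF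
  have := sum_le_card_nsmul P _ _ fun z _ => add_le_add (AG_le ex ey hp hb z w) (AG_le ex ey hp hb v z)
  rw [nsmul_eq_mul] at this
  linarith

/-- **SPEED**, any number of points. -/
theorem speed_geo (hp : ∀ s, 0 ≤ p s ∧ p s ≤ 1) (hc : ∀ v ∈ P, 0 ≤ c v ∧ c v ≤ 1) {u u' : ℝ}
    (h0 : 0 ≤ u) (h : u ≤ u') (h1 : u' < 1) (hF : Fld (sc P c u')) (v w : Fin T × Λ) :
    |GA ex ey p (sc P c u') v w - GA ex ey p (sc P c u) v w| ≤ 3 / (1 - u') * (u' - u) := by
  refine speed_gen ex ey hp hc h0 h hF v w fun x hx => ?_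
  have hb := sc_fld (fun v hv => (hc v hv).1) (h0.trans hx.1) hx.2.le hF
  have key : ∀ f : Fin T × Λ → ℝ, (∀ z, 0 ≤ f z) →
      (1 - u') * ∑ z ∈ P, f z ≤ ∑ z, (1 - sc P c x z) * f z := fun f hf => by
    rw [mul_sum]
    refine le_trans (sum_le_sum fun z hz => mul_le_mul_of_nonneg_right ?_ (hf z))
      (sum_le_sum_of_subset_of_nonneg (subset_univ P) fun z _ _ =>
        mul_nonneg (sub_nonneg.2 (hb.mem z).2) (hf z))
    rw [sc, if_pos hz]
    nlinarith [(hc z hz).1, (hc z hz).2, hx.2, h0.trans hx.1]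
  have k1 := (key _ fun z => AG_nonneg ex ey hp hb z w).trans (sum_tgt ex ey hp hb w)
  have k2 := (key _ fun z => AG_nonneg ex ey hp hb v z).trans (sum_src ex ey hp hb v)
  rw [div_mul_eq_mul_div 3 (1 - u'), le_div_iff₀ (sub_pos.2 h1), sum_add_distrib]
  linarith



/-- **SPEED** for members: a field below `u'` on `P` is close to a field below `u` on `P`. -/
theorem speed_mem (hp : ∀ s, 0 ≤ p s ∧ p s ≤ 1) (hb : Fld b) {u u' γ : ℝ} (h0 : 0 ≤ u) (h : u ≤ u')
    (h1 : u' ≤ 1) (hP : ∀ v ∈ P, b v ≤ u')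
    (hγ : 3 * P.card * (u' - u) ≤ γ ∨ (u' < 1 ∧ 3 * (u' - u) ≤ γ * (1 - u'))) :
    ∃ b' : Fin T × Λ → ℝ, Fld b' ∧ (∀ v, b' v ≤ b v) ∧ (∀ v ∈ P, b' v ≤ u) ∧
      (∀ v ∉ P, b' v = b v) ∧ ∀ v w, |GA ex ey p b v w - GA ex ey p b' v w| ≤ γ := by
  have hγ0 : 0 ≤ γ := by
    rcases hγ with hγ | ⟨h2, hγ⟩
    · exact le_trans (mul_nonneg (by positivity) (sub_nonneg.2 h)) hγ
    · exact nonneg_of_mul_nonneg_left (by linarith) (sub_pos.2 h2)
  rcases (h0.trans h).eq_or_lt with rfl | hu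
  · exact ⟨b, hb, fun _ => le_rfl, fun v hv => (hP v hv).trans h0, fun _ _ => rfl,
      fun v w => by simpa using hγ0⟩
  set c : Fin T × Λ → ℝ := sc P b u'⁻¹ with hc
  have hcv : ∀ v ∈ P, c v = u'⁻¹ * b v := fun v hv => if_pos hv
  have hc1 : ∀ v ∈ P, 0 ≤ c v ∧ c v ≤ 1 := fun v hv => by
    rw [hcv v hv]
    exact ⟨mul_nonneg (inv_nonneg.2 hu.le) (hb.mem v).1, (inv_mul_le_one₀ hu).2 (hP v hv)⟩
  have e : sc P c u' = b := by
    funext v
    by_cases hv : v ∈ P
    · rw [sc, if_pos hv, hcv v hv, mul_inv_cancel_left₀ hu.ne']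
    · simp [sc, hc, hv]
  have hF : Fld (sc P c u') := e ▸ hb
  refine ⟨sc P c u, sc_fld (fun v hv => (hc1 v hv).1) h0 h hF, fun v => ?_, fun v hv => ?_,
    fun v hv => by simp [sc, hc, hv], fun v w => ?_⟩
  · rw [← e]; unfold sc
    split_ifs with hv; exacts [mul_le_mul_of_nonneg_right h (hc1 v hv).1, le_rfl]
  · rw [sc, if_pos hv]; exact mul_le_of_le_one_right h0 (hc1 v hv).2
  · rcases hγ with hγ | ⟨h2, hγ⟩
    · exact (e ▸ speed_card ex ey hp hc1 h0 h hF v w).trans hγ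
    · refine (e ▸ speed_geo ex ey hp hc1 h0 h h2 hF v w).trans ?_
      rwa [div_mul_eq_mul_div, div_le_iff₀ (sub_pos.2 h2)]

/-- the ladder of kill parameters: `K + 1` steps from `0` to `1`. -/
theorem ladder {γ N : ℝ} (h0 : 0 < γ) (h1 : γ ≤ 3) {K : ℕ} (hK : 3 * N ≤ γ * Real.exp (γ * K / 6)) :
    ∃ u : ℕ → ℝ, u 0 = 0 ∧ u (K + 1) = 1 ∧ ∀ k ≤ K, 0 ≤ u k ∧ u k ≤ u (k + 1) ∧ u (k + 1) ≤ 1 ∧
      (3 * N * (u (k + 1) - u k) ≤ γ ∨
        (u (k + 1) < 1 ∧ 3 * (u (k + 1) - u k) ≤ γ * (1 - u (k + 1)))) := by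
  set q : ℝ := 1 - γ / 6 with hq
  have q0 : 0 < q := by linarith
  have q1 : q ≤ 1 := by linarith
  have p1 : ∀ k, q ^ k ≤ 1 := fun k => pow_le_one₀ q0.le q1
  refine ⟨fun k => if k ≤ K then 1 - q ^ k else 1, by simp, by simp, fun k hk => ?_⟩
  have pk := pow_pos q0 k
  rcases hk.eq_or_lt with rfl | hk'
  · simp only [le_refl, if_true, Nat.add_one_le_iff, lt_irrefl, if_false]
    refine ⟨by linarith [p1 k], by linarith, trivial, .inl ?_⟩
    have h2 : q ^ k ≤ Real.exp (-(γ * k / 6)) := by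
      rw [show -(γ * k / 6) = k * (-(γ / 6)) by ring, Real.exp_nat_mul]
      exact pow_le_pow_left₀ q0.le (by linarith [Real.add_one_le_exp (-(γ / 6))]) k
    have h3 : Real.exp (γ * k / 6) * q ^ k ≤ 1 := by
      rw [Real.exp_neg] at h2
      exact (mul_le_mul_of_nonneg_left h2 (Real.exp_pos _).le).trans
        (mul_inv_cancel₀ (Real.exp_pos _).ne').le
    nlinarith [mul_le_mul_of_nonneg_right hK pk.le]
  · simp only [if_pos hk, if_pos (Nat.succ_le_of_lt hk'), pow_succ]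
    refine ⟨by linarith [p1 k], by nlinarith, by nlinarith, .inr ⟨by nlinarith, ?_⟩⟩
    have : 3 * (1 - q) ≤ γ * q := by rw [hq]; nlinarith
    nlinarith


end Crest.Agent.N337.G4.Sp
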