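import Crest.Agent.N337.G4.Mecke
import Crest.Agent.N337.R.Ann_Mg
import Crest.Agent.N337.G4.Speed
import Crest.Agent.N337.R.Env
import Crest.Agent.N337.Rg.Cnt
import Crest.Agent.N337.E.TDefs
import Crest.Agent.N337.Rg.Ult

-- ▼ part N337/G4/Red
section

/-!
# Row 337, G4 (helper76): the red set on polymers; the gas is dominated by the red set

`WR_eq` : the weights `RR.WR` as a sum over red families; `gas_le_WR` : events of the down loops;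
`join_eq`, `join_le_WR` : down loops together with the alive set of the child model are the red set.
-/

set_option autoImplicit false
set_option linter.unusedSectionVars false

namespace Crest.Agent.N337.G4

open Finset Crest.Agent.N337.Rep Crest.Agent.N337.LY0 Crest.Agent.N337.Gas Crest.Agent.N337.Bi
open Crest.Agent.N337.Pc (bw mkE qP two hi)
open Crest.Agent.N337.RR (WR AG Cmp red)

section abs
variable {Γ : Type} [Fintype Γ] [DecidableEq Γ] {a c : Γ → ℝ} {X : Finset Γ} {F G : Finset Γ → ℝ}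

lemma mk_mono (ha : ∀ g, 0 ≤ a g) (hc : ∀ g, 0 ≤ c g) (h : ∀ B ⊆ X, F B ≤ G B) :
    mk a c X F ≤ mk a c X G :=
  sum_le_sum fun B hB => mul_le_mul_of_nonneg_left (h B (mem_powerset.1 hB))
    (mul_nonneg (prod_nonneg fun g _ => ha g) (prod_nonneg fun g _ => hc g))

lemma mk_union (u : Γ → ℝ) (X : Finset Γ) : ∀ F : Finset Γ → ℝ,
    mk u (fun _ => 1) X (fun w => mk a c (X \ w) fun C => F (w ∪ C)) =
      mk (fun g => u g + a g) c X F := by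
  induction X using Finset.induction_on with
  | empty => intro F; simp
  | insert g X hg ih =>
    intro F
    have e1 : ∀ w ⊆ X, (mk a c (insert g X \ w) fun C => F (w ∪ C)) =
        c g * (mk a c (X \ w) fun C => F (w ∪ C)) +
          a g * mk a c (X \ w) fun C => F (insert g (w ∪ C)) := fun w hw => by
      rw [insert_sdiff_of_notMem _ fun k => hg (hw k), mk_insert fun k => hg (mem_sdiff.1 k).1]
      simp only [union_insert]
    rw [mk_insert hg, mk_insert hg, mk_congr e1]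
    simp only [mk_add, mk_mul, insert_sdiff_insert, sdiff_insert_of_notMem hg, insert_union]
    rw [ih F, ih fun S => F (insert g S)]
    ring

lemma mk_image {O : Type} [Fintype O] [DecidableEq O] {f : O → Γ} (hf : Function.Injective f) :
    mk a c (univ.image f) F = mk (a ∘ f) (c ∘ f) univ fun S => F (S.image f) := by
  rw [mk, powerset_image, sum_image fun _ _ _ _ h => image_injective hf h]
  refine sum_congr rfl fun S _ => ?_
  rw [← image_sdiff _ _ hf, prod_image hf.injOn, prod_image hf.injOn]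
  rfl

lemma sum_opt (W : Γ → Option Bool → ℝ) (F : Finset Γ → ℝ) :
    ∑ k : Γ → Option Bool, (∏ g, W g (k g)) * F (univ.filter fun g => k g ≠ none) =
      mk (fun g => W g (some true) + W g (some false)) (fun g => W g none) univ F := by
  have e : ∀ S : Finset Γ, (∏ g ∈ S, (W g (some true) + W g (some false))) *
      ∏ g ∈ univ \ S, W g none = ∑ k : Γ → Option Bool,
        if (univ.filter fun g => k g ≠ none) = S then ∏ g, W g (k g) else 0 := fun S => by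
    have h := prod_univ_sum (fun _ : Γ => (univ : Finset (Option Bool)))
      fun g k => if (k ≠ none ↔ g ∈ S) then W g k else 0
    rw [Fintype.piFinset_univ] at h
    simp only [prod_ite_zero, mem_univ, true_imp_iff] at h
    rw [sum_congr rfl fun k _ => if_congr (Q := ∀ g, k g ≠ none ↔ g ∈ S)
      (by simp [Finset.ext_iff]) rfl rfl, ← h, ← prod_sdiff (subset_univ S), mul_comm]
    congr 1 <;> refine prod_congr rfl fun g hg => ?_
    · simp [Fintype.sum_option, (mem_sdiff.1 hg).2]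
    · simp [Fintype.sum_option, hg]
  simp only [mk, e, sum_mul, powerset_univ]
  rw [sum_comm]
  exact sum_congr rfl fun k _ => by simp

end abs

variable {Λ : Type} [Fintype Λ] [DecidableEq Λ] {T : ℕ} [NeZero T] {ex ey : Fin T → Λ}
  {p : Fin T → ℝ} {b : Fin T × Λ → ℝ} {ξ : Fin T → Bool}

lemma cmp_pts (h : Pw p ξ ≠ 0) {C : Finset (Lp T Λ)} (hC : C ⊆ L ex ey ξ) :
    Cmp ex ey p ξ (pts C) := by
  refine ⟨h, fun v => ?_⟩
  simp only [mem_pts]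
  refine exists_congr fun g => and_congr_right fun hg => ?_
  obtain ⟨u, rfl⟩ := mem_L.1 (hC hg)
  simp only [lp_snd, mem_obv, o_apply]

open Classical in
/-- the weights of the red set as a sum over families of loops. -/
theorem WR_eq (p : Fin T → ℝ) (b : Fin T × Λ → ℝ)
    (E : (Fin T → Bool) → Finset (Fin T × Λ) → Prop) :
    WR ex ey p b E = ∑ ξ, Pw p ξ * mk (fun g => ub b g + ub b g) (fun g => 1 - ub b g) (L ex ey ξ)
      fun C => if E ξ (pts C) then 1 else 0 := by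
  refine sum_congr rfl fun ξ _ => congrArg _ ?_
  simp only [ite_and]
  rw [sum_inv, L_eq_image, mk_image fun _ _ => lp_bp_inj]
  simp only [RR.Ann.W_comp]
  have h := sum_opt (RR.Ann.lwt (Sg ex ey ξ) b) fun S =>
    if E ξ (pts (S.image fun c => lp ex ey ξ (bp c))) then 1 else 0
  simp only [RR.Ann.lwt, reduceCtorEq, if_false, if_true] at h
  simp only [Function.comp_def, ub_lp, ← h, RR.Ann.lwt]
  refine sum_congr rfl fun k _ => ?_
  have e : red (fun v => k (o (Sg ex ey ξ) v)) =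
      pts ((univ.filter fun g => k g ≠ none).image fun c => lp ex ey ξ (bp c)) := by
    ext v
    simp only [red, mem_filter, mem_univ, true_and, mem_pts, mem_image]
    refine ⟨fun hv => ⟨_, ⟨_, hv, rfl⟩, mem_obv.2 (o_bp _).symm⟩, ?_⟩
    rintro ⟨_, ⟨c, hc, rfl⟩, hv⟩
    rwa [(mem_obv.1 hv).trans (o_bp c)]
  by_cases k1 : E ξ (red fun v => k (o (Sg ex ey ξ) v))
  · rw [if_pos k1, if_pos (e ▸ k1), mul_one]
  · rw [if_neg k1, if_neg (e ▸ k1), mul_zero]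

lemma sum_gw_mk (p : Fin T → ℝ) (u : Lp T Λ → ℝ) (F : Finset (Lp T Λ) → ℝ) :
    ∑ A, gw (qq ex ey p) u A * F A = ∑ ξ, Pw p ξ * mk u (fun _ => 1) (L ex ey ξ) F := by
  simp only [Gas.sum_gw, mk, prod_const_one, mul_one]

lemma gZ_Zt (p : Fin T → ℝ) (b : Fin T × Λ → ℝ) : gZ (qq ex ey p) (ub b) = DL.Zt ex ey p b := by
  simp only [gZ_qq, prod_L, ub_lp, DL.Zt]



open Classical in
/-- **the gas is dominated by the red set**, events of the coins and the down loops. -/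
theorem gas_le_WR' (hp : ∀ s, 0 ≤ p s ∧ p s ≤ 1) (hb : ∀ v, 0 ≤ b v ∧ b v ≤ 1)
    {F : (Fin T → Bool) → Finset (Lp T Λ) → Prop} {E : (Fin T → Bool) → Finset (Fin T × Λ) → Prop}
    (h : ∀ ξ A R, Cmp ex ey p ξ R → A ⊆ L ex ey ξ → (∀ g ∈ A, ub b g ≠ 0) → pts A ⊆ R → F ξ A →
      E ξ R) :
    ∑ ξ, Pw p ξ * mk (ub b) (fun _ => 1) (L ex ey ξ) (Op.ind (F ξ)) ≤ WR ex ey p b E := by
  have h0 := ub_nn (T := T) fun v => (hb v).1
  have h1 : ∀ g : Lp T Λ, 0 ≤ 1 - ub b g := fun g => sub_nonneg.2 (ub_le_one hb g)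
  rw [WR_eq]
  refine sum_le_sum fun ξ _ => ?_
  by_cases k : Pw p ξ = 0
  · simp [k]
  refine mul_le_mul_of_nonneg_left ?_ (Pw_nonneg hp ξ)
  rw [← mk_union]
  refine sum_le_sum fun A hA => ?_
  by_cases k1 : ∀ g ∈ A, ub b g ≠ 0
  swap
  · push Not at k1
    obtain ⟨g, k1, k2⟩ := k1
    rw [prod_eq_zero k1 k2]
    simp
  refine mul_le_mul_of_nonneg_left ?_ (mul_nonneg (prod_nonneg fun g _ => h0 g) (by simp))
  unfold Op.ind
  beta_reduce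
  split_ifs with k2
  · rw [mk_congr (G := fun _ => 1) fun C hC => if_pos (h ξ A _ (cmp_pts k (union_subset
      (mem_powerset.1 hA) (hC.trans sdiff_subset))) (mem_powerset.1 hA) k1
      (pts_mono subset_union_left) k2), mk_one]
    simp
  · refine le_trans (le_of_eq ?_) (mk_mono (F := fun _ => 0) h0 h1 fun _ _ => by
      split_ifs <;> norm_num)
    simp [mk]

open Classical in
/-- **the gas is dominated by the red set.** -/
theorem gas_le_WR (hp : ∀ s, 0 ≤ p s ∧ p s ≤ 1) (hb : ∀ v, 0 ≤ b v ∧ b v ≤ 1)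
    {F : Finset (Lp T Λ) → Prop} {E : (Fin T → Bool) → Finset (Fin T × Λ) → Prop} {ε : ℝ}
    (h : ∀ ξ A R, Cmp ex ey p ξ R → A ⊆ L ex ey ξ → (∀ g ∈ A, ub b g ≠ 0) → pts A ⊆ R → F A →
      E ξ R) (hE : WR ex ey p b E ≤ ε * DL.Zt ex ey p b) :
    Op.ex (nu (qq ex ey p) (ub b)) (Op.ind F) ≤ ε := by
  rw [ex_nu, div_le_iff₀ (Gas.gZ_pos (cpt_qq hp) (ub_nn fun v => (hb v).1)), gZ_Zt, sum_gw_mk]
  exact (gas_le_WR' hp hb (F := fun _ => F) h).trans hE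

end Crest.Agent.N337.G4
end

-- ▼ part N337/G4/Prob
section

/-!
# Row 337, G4 (helper76): the red probability as an outer measure; red, coin and annealed bounds

`PR p b A` = probability of the event `A (coins, red set)`; only compatible, alive red sets count.
`annG` : annealed Green function from quenched bounds in the pinned and killed model `WN.Gc`.
-/

set_option autoImplicit false
set_option linter.unusedSectionVars false

namespace Crest.Agent.N337.G4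

open Finset Equiv Matrix Crest.Agent.N337.Rep Crest.Agent.N337.LY0
open Crest.Agent.N337.Gas (Lp L ub qq nu pts)
open Crest.Agent.N337.RR (WR AG Cmp red)
open Crest.Agent.N337.Arc (Fld pin kill tch)
open Crest.Agent.N337.WN (Gi Gc)

variable {Λ : Type} [Fintype Λ] [DecidableEq Λ] {T : ℕ} [NeZero T] (ex ey : Fin T → Λ)

/-- coins and red set. -/
abbrev CR (T : ℕ) (Λ : Type) : Type := (Fin T → Bool) × Finset (Fin T × Λ)

/-- the red probability. -/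
noncomputable def PR (p : Fin T → ℝ) (b : Fin T × Λ → ℝ) (A : CR T Λ → Prop) : ℝ :=
  WR ex ey p b (fun ξ R => A (ξ, R)) / DL.Zt ex ey p b

/-- possible states: `R` is a union of alive loops of the possible coins `ξ`. -/
def Pos (p : Fin T → ℝ) (b : Fin T × Λ → ℝ) (ω : CR T Λ) : Prop :=
  Cmp ex ey p ω.1 ω.2 ∧ ∀ v ∈ ω.2, b v ≠ 0

variable {ex ey} {p : Fin T → ℝ} {b b' : Fin T × Λ → ℝ} {A B : CR T Λ → Prop}
  {ξ : Fin T → Bool} {ω : Rep.Env T Λ}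

lemma WR_pos (E : (Fin T → Bool) → Finset (Fin T × Λ) → Prop) :
    WR ex ey p b E = WR ex ey p b fun ξ R => Pos ex ey p b (ξ, R) ∧ E ξ R := by
  classical
  refine sum_congr rfl fun ξ _ => ?_
  by_cases h0 : Pw p ξ = 0
  · simp [h0]
  refine congrArg _ (sum_congr rfl fun ω _ => ?_)
  by_cases h1 : zr b ω = 0
  · simp [h1]
  by_cases h : ∀ v, ω (Sg ex ey ξ v) = ω v
  · have k : Pos ex ey p b (ξ, red ω) := ⟨RR.cmp_of h0 h, fun v hv h2 =>
      h1 (prod_eq_zero (mem_univ v) (by rw [if_neg (RR.mem_red.1 hv), h2]))⟩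
    simp [k]
  · rw [if_neg fun k => h k.1, if_neg fun k => h k.1]

lemma PR_le_iff (hp : ∀ s, 0 ≤ p s ∧ p s ≤ 1) (hb : ∀ v, 0 ≤ b v ∧ b v ≤ 1) {ε : ℝ} :
    PR ex ey p b A ≤ ε ↔ WR ex ey p b (fun ξ R => A (ξ, R)) ≤ ε * DL.Zt ex ey p b :=
  div_le_iff₀ (DL.Zt_pos ex ey hp fun v => (hb v).1)

lemma PR_nn (hp : ∀ s, 0 ≤ p s ∧ p s ≤ 1) (hb : ∀ v, 0 ≤ b v ∧ b v ≤ 1) : 0 ≤ PR ex ey p b A :=
  div_nonneg (RR.BasAux.WR_nonneg ex ey hp hb _) (DL.Zt_pos ex ey hp fun v => (hb v).1).le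

/-- monotonicity, on possible states. -/
theorem PR_mono (hp : ∀ s, 0 ≤ p s ∧ p s ≤ 1) (hb : ∀ v, 0 ≤ b v ∧ b v ≤ 1)
    (h : ∀ ω, Pos ex ey p b ω → A ω → B ω) : PR ex ey p b A ≤ PR ex ey p b B := by
  refine div_le_div_of_nonneg_right ?_ (DL.Zt_pos ex ey hp fun v => (hb v).1).le
  rw [WR_pos]
  exact RR.WR_mono hp hb fun ξ R _ k => h _ k.1 k.2


theorem sub_PR (hp : ∀ s, 0 ≤ p s ∧ p s ≤ 1) (hb : ∀ v, 0 ≤ b v ∧ b v ≤ 1) :
    Rg.Sub (PR ex ey p b) where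
  mono _ _ h := PR_mono hp hb fun ω _ => h ω
  or A B := by
    rw [PR, PR, PR, ← add_div]
    exact div_le_div_of_nonneg_right (RR.WR_or hp hb fun _ _ _ h => h)
      (DL.Zt_pos ex ey hp fun v => (hb v).1).le
  bot := by simp [PR, WR]

/-- union bound on possible states. -/
theorem PR_union (hp : ∀ s, 0 ≤ p s ∧ p s ≤ 1) (hb : ∀ v, 0 ≤ b v ∧ b v ≤ 1) {ι : Type}
    (I : Finset ι) (B : ι → CR T Λ → Prop) (h : ∀ ω, Pos ex ey p b ω → A ω → ∃ i ∈ I, B i ω) :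
    PR ex ey p b A ≤ ∑ i ∈ I, PR ex ey p b (B i) :=
  (PR_mono hp hb h).trans ((sub_PR hp hb).union I B fun _ k => k)

/-- nothing is red if every loop is dead. -/
theorem PR_zero (hp : ∀ s, 0 ≤ p s ∧ p s ≤ 1) (hb : ∀ v, 0 ≤ b v ∧ b v ≤ 1) (h0 : ∀ x, b (0, x) = 0)
    (h : ∀ ξ, Pw p ξ ≠ 0 → ¬ A (ξ, ∅)) : PR ex ey p b A ≤ 0 := by
  refine (PR_mono hp hb (B := fun _ => False) ?_).trans (sub_PR hp hb).bot
  rintro ⟨ξ, R⟩ ⟨h1, h2⟩ h3
  rcases R.eq_empty_or_nonempty with rfl | ⟨v, hv⟩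
  · exact h ξ h1.1 h3
  obtain ⟨x, hx⟩ := exists_time ex ey ξ (o (Sg ex ey ξ) v) 0
  refine h2 (0, x) ?_ (h0 x)
  have := N337.A.Bs.inv_eq (n := fun v => decide (v ∈ R)) (fun v => decide_eq_decide.2 (h1.2 v)) hx
  simpa [hv] using this

/-- **red bound.** -/
theorem PR_red (hp : ∀ s, 0 ≤ p s ∧ p s ≤ 1) (hb : Fld b) (X : Finset (Fin T × Λ))
    (r : Fin T × Λ → ℝ) (hr : ∀ v ∈ X, 0 < r v)
    (h : (∀ v ∈ X, b v ≠ 0) → ∀ v ∈ X, ∑ u ∈ X, Sp.GA ex ey p b v u ≤ r v) :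
    PR ex ey p b (fun ω => X ⊆ ω.2) ≤ ∏ v ∈ X, 2 * Real.exp 1 * r v := by
  by_cases h0 : ∀ v ∈ X, b v ≠ 0
  · rw [PR_le_iff hp hb.mem]
    refine RR.BasAux.WR_red ex ey hp hb.mem hb.lt X r hr fun v hv => ?_
    have := h h0 v hv
    simp only [Sp.GA, ← sum_div] at this
    exact (div_le_iff₀ (DL.Zt_pos ex ey hp fun v => (hb.mem v).1)).1 this
  · refine ((PR_mono hp hb.mem (B := fun _ => False) fun ω k1 k2 =>
      h0 fun v hv => k1.2 v (k2 hv)).trans (sub_PR hp hb.mem).bot).trans ?_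
    exact prod_nonneg fun v hv => (mul_pos (by positivity) (hr v hv)).le

/-- **coin bound.** -/
theorem PR_coins (hp : ∀ s, 0 ≤ p s ∧ p s ≤ 1) (hb : ∀ v, 0 ≤ b v ∧ b v ≤ 1) (S : Finset (Fin T))
    (hS : ∀ s ∈ S, p s ≤ 1 / 2) :
    PR ex ey p b (fun ω => ∀ s ∈ S, ω.1 s = true) ≤ ∏ s ∈ S, 6 * p s := by
  rw [PR_le_iff hp hb]
  have hM : N337.A.Mdl.Ok ⟨p, b⟩ 1 := ⟨hp, hb, fun x => (hb _).2⟩
  exact (RR.BasAux.WR_coin ex ey fun ξ => ∀ s ∈ S, ξ s = true).trans_le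
    (N337.A.Bs.sum_coins ex ey hM S hS)


/-- **the gas is dominated by the red set.** -/
theorem gas_le_PR (hp : ∀ s, 0 ≤ p s ∧ p s ≤ 1) (hb : ∀ v, 0 ≤ b v ∧ b v ≤ 1)
    {F : Finset (Lp T Λ) → Prop} [DecidablePred F]
    (h : ∀ ω w, Pos ex ey p b ω → w ⊆ L ex ey ω.1 → pts w ⊆ ω.2 → F w → A ω) :
    Op.ex (nu (qq ex ey p) (ub b)) (Op.ind F) ≤ PR ex ey p b A := by
  have := gas_le_WR hp hb (F := F) (E := fun ξ R => (∃ v ∈ R, b v = 0) ∨ A (ξ, R))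
    (ε := PR ex ey p b A) (fun ξ w R h1 h2 _ h4 h5 => or_iff_not_imp_left.2 fun k =>
      h (ξ, R) w ⟨h1, fun v hv e => k ⟨v, hv, e⟩⟩ h2 h4 h5)
    ((PR_le_iff hp hb (A := fun ω => (∃ v ∈ ω.2, b v = 0) ∨ A ω)).1
      (PR_mono hp hb fun ω k1 k2 => k2.resolve_left fun ⟨v, k3, k4⟩ => k1.2 v k3 k4))
  convert this


/-! ### the quenched model is the pinned and killed model -/

lemma th_eq_pin (h0 : Pw p ξ ≠ 0) (hi : ∀ v, ω (Sg ex ey ξ v) = ω v) {s : Fin T}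
    (h : ω (s, ex s) = none ∨ ω (s, ey s) = none) :
    th ex ey p ω s = pin p (tch ex ey (red ω)) ξ s := by
  by_cases e : ω (s, ex s) = ω (s, ey s)
  · rw [RR.th_free hi e, pin, if_neg]
    rw [Arc.mem_tch, RR.mem_red, RR.mem_red, ← e]
    rw [← e] at h
    tauto
  have h1 : s ∈ tch ex ey (red ω) := by
    rw [Arc.mem_tch, RR.mem_red, RR.mem_red]
    by_contra k
    push Not at k
    exact e (k.1.trans k.2.symm)
  have h2 := prod_ne_zero_iff.1 h0 s (mem_univ s)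
  have h3 := RR.inv_step hi s
  have h4 : ¬ ∀ x, ω (s + 1, sg (ex s) (ey s) (!ξ s) x) = ω (s, x) := fun k => e (by
    have k1 := k (ex s)
    have k2 := h3 (ey s)
    revert k1 k2
    cases ξ s <;> simp [sg] <;> intro k1 k2 <;> rw [← k1, k2])
  rw [pin, if_pos h1, th, wc, wc]
  revert h2 h3 h4
  cases ξ s <;> intro h2 h3 h4
  · simp only [Bool.not_false] at h4
    simp [if_neg h4]
  · simp only [Bool.not_true] at h4
    rw [if_pos h3, if_neg h4, add_zero, div_self h2, if_pos rfl]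

lemma Kb_col_eq (h0 : Pw p ξ ≠ 0) (hi : ∀ v, ω (Sg ex ey ξ v) = ω v) (v : Fin T × Λ)
    {u : Fin T × Λ} (hu : ω u = none) :
    Kb ex ey (th ex ey p ω) v u = Kb ex ey (pin p (tch ex ey (red ω)) ξ) v u := by
  obtain ⟨r, y⟩ := v
  obtain ⟨s, x⟩ := u
  rw [Kb_apply, Kb_apply]
  by_cases h : x = ex s ∨ x = ey s
  · rw [th_eq_pin h0 hi (h.imp (fun k => k ▸ hu) fun k => k ▸ hu)]
  · push Not at h
    rw [swap_apply_of_ne_of_ne h.1 h.2]
    split_ifs <;> ring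

lemma zg_eq_kill (b : Fin T × Λ → ℝ) (ω : Rep.Env T Λ) : zg b ω = kill b (red ω) := by
  funext v; simp [zg, kill, RR.mem_red]

lemma Gi_eq_Gc (h0 : Pw p ξ ≠ 0) (hi : ∀ v, ω (Sg ex ey ξ v) = ω v) :
    Gi ex ey (th ex ey p ω) (zg b ω) = Gc ex ey p b (red ω) ξ := by
  rw [Gc, Gi, Gi, ← zg_eq_kill]
  congr 2
  ext v u
  rw [mul_diagonal, mul_diagonal]
  by_cases hu : ω u = none
  · rw [Kb_col_eq h0 hi v hu]
  · simp [zg, hu]

lemma Ge_le_Gc (hp : ∀ s, 0 ≤ p s ∧ p s ≤ 1) (hb : Fld b) (hb' : Fld b') (hle : ∀ v, b v ≤ b' v)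
    (h0 : Pw p ξ ≠ 0) (hi : ∀ v, ω (Sg ex ey ξ v) = ω v) (v : Fin T × Λ) {u : Fin T × Λ}
    (hu : ω u = none) (h2 : 1 / 2 ≤ b' u) :
    DL.Ge ex ey p b ω v u ≤ 2 * (Gc ex ey p b' (red ω) ξ v u - if v = u then 1 else 0) := by
  have hq := th_mem ex ey hp ω
  have k : Fld (zg b ω) := zg_eq_kill b ω ▸ hb.kill _
  have k' : Fld (zg b' ω) := zg_eq_kill b' ω ▸ hb'.kill _
  have e1 : DL.Ge ex ey p b ω v u ≤ (Gi ex ey (th ex ey p ω) (zg b' ω) * Kb ex ey (th ex ey p ω)) v u := by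
    rw [DL.Ge, mul_apply, mul_apply]
    exact sum_le_sum fun w _ => mul_le_mul_of_nonneg_right (WN.Gi_mono ex ey hq k k' (fun z => by
      unfold zg; split_ifs; exacts [hle z, le_rfl]) v w) (WN.Kb_nonneg ex ey hq _ _)
  have e3 := congrFun (congrFun (WN.Gi_mul ex ey (WN.Zg_pos ex ey hq k').ne') v) u
  rw [← Matrix.mul_assoc, mul_diagonal, Matrix.sub_apply, one_apply, zg, if_pos hu] at e3
  have e4 : 0 ≤ (Gi ex ey (th ex ey p ω) (zg b' ω) * Kb ex ey (th ex ey p ω)) v u := by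
    rw [mul_apply]
    exact sum_nonneg fun w _ => mul_nonneg (WN.Gi_nonneg ex ey hq k' _ _) (WN.Kb_nonneg ex ey hq _ _)
  rw [← Gi_eq_Gc h0 hi, ← e3]
  nlinarith

/-- **annealed Green function** from quenched bounds at a top field `b' ≥ b`. -/
theorem annG (hp : ∀ s, 0 ≤ p s ∧ p s ≤ 1) (hb : Fld b) (hb' : Fld b') (hle : ∀ v, b v ≤ b' v)
    {Bad : CR T Λ → Prop} (hB : ∀ ξ R R', R ⊆ R' → Bad (ξ, R) → Bad (ξ, R')) {v u : Fin T × Λ}
    (h2 : 1 / 2 ≤ b' u) {γ : ℝ} (hγ : 0 ≤ γ)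
    (h : ∀ ω, Pos ex ey p b ω → ¬ Bad ω → v ∉ ω.2 → u ∉ ω.2 →
      (Gc ex ey p b' ω.2 ω.1 v u - if v = u then 1 else 0) ≤ γ) :
    Sp.GA ex ey p b v u ≤ 2 * γ + PR ex ey p b Bad := by
  have key := RR.ann Λ T ex ey p b hp hb.mem hb.lt (fun ξ R => (∃ v ∈ R, b v = 0) ∨ Bad (ξ, R))
    (fun ξ R R' k => Or.imp (fun ⟨v, k1, k2⟩ => ⟨v, k k1, k2⟩) (hB ξ R R' k)) v u (2 * γ)
    (by linarith) fun ξ ω k1 k2 k3 k4 k5 => (Ge_le_Gc hp hb hb' hle k1 k2 v k5 h2).trans (by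
      rw [not_or] at k3
      have := h (ξ, red ω) ⟨RR.cmp_of k1 k2, fun z hz e => k3.1 ⟨z, hz, e⟩⟩ k3.2
        (by simp [RR.mem_red, k4]) (by simp [RR.mem_red, k5])
      linarith)
  rw [Sp.GA_le_iff ex ey hp hb, add_mul]
  refine key.trans (add_le_add le_rfl ?_)
  exact (PR_le_iff hp hb.mem (A := fun ω => (∃ v ∈ ω.2, b v = 0) ∨ Bad ω)).1
    (PR_mono hp hb.mem fun ω k1 k2 => k2.resolve_left fun ⟨v, k3, k4⟩ => k1.2 v k3 k4)

end Crest.Agent.N337.G4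
end

-- ▼ part N337/G4/RDefs

/-!
# Row 337, G4 (helper50): the reset step. Definitions

`U l` = static junk of level `l` of one member.  A datum is a finite family of cubes; its front of
radius `r` is `In D r`.  `FQ` = trees of failing cells, `Jr` = junk of the environment and the red
set, `LfD` = a leaf is dominated by coin families and point families, `RIn` = the inputs.
-/

set_option autoImplicit false
set_option linter.unusedSectionVars false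

namespace Crest.Agent.N337.G4.Rs

open Finset Crest.Agent.N337.Rep Crest.Agent.N337.Free Crest.Agent.N337.Rg Crest.Agent.N337.Tr
open Crest.Agent.N337.Arc (Fld)

/-- numbers of the fronts. -/
structure Gp where
  /-- cubes of a datum, their separation constant, their largest radius -/
  N : ℕ
  c : ℕ
  Rm : ℕ → ℕ
  /-- clean radius -/
  dc : ℕ → ℕ
  /-- range of the route datum plus the range of a cell -/
  W : ℕ → ℕ
  /-- largest radius of a front, displacement in one reset step -/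
  sg : ℕ → ℕ
  un : ℕ → ℕ
  /-- ball without failing cells -/
  A : ℕ → ℕ
  /-- no base junk within `fr` of a leaf -/
  fr : ℕ

/-- data: cubes (centre, radius). -/
abbrev Dat (L : ℕ) : Type := Finset (Tor 3 L × ℕ)

section geo
variable {L : ℕ} (Q : Gp) (U : ℕ → Tor 3 L → Prop)

/-- the front of radius `r`. -/
def In (D : Dat L) (r : ℕ) (y : Tor 3 L) : Prop := ∃ B ∈ D, tdist B.1 y ≤ B.2 + r

/-- no junk of level `l` within `d`. -/
def Fr (l d : ℕ) (y : Tor 3 L) : Prop := ∀ u, U l u → d < tdist y u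

/-- clean at level `l`. -/
def Cs (l : ℕ) (y : Tor 3 L) : Prop := Fr U l (Q.dc l) y

/-- off the front, and the junk nearby lies in the datum. -/
def Cd (l : ℕ) (D : Dat L) (r : ℕ) (y : Tor 3 L) : Prop :=
  ¬ In D r y ∧ ∀ u, U l u → tdist y u ≤ Q.W l + Q.dc l + r → In D 0 u

/-- valid data: few, small, well separated cubes, no other junk nearby. -/
structure Val (l : ℕ) (D : Dat L) : Prop where
  card : D.card ≤ Q.N
  rad : ∀ B ∈ D, B.2 ≤ Q.Rm l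
  sep : ∀ B ∈ D, ∀ B' ∈ D, B ≠ B' → Q.c * (B.2 + Q.sg l + (B'.2 + Q.sg l)) ≤ tdist B.1 B'.1
  cls : ∀ u, U l u → In D (Q.W l + 2 * Q.dc l + Q.sg l) u → In D 0 u

/-- type `(l0, j)` below the level `mt` (radii `r`). -/
def Ty (mt j l0 : ℕ) (D : ℕ → Dat L) (r : ℕ → ℕ) (y : Tor 3 L) : Prop :=
  (∀ i, l0 ≤ i → i < j → Cs Q U i y) ∧ ∀ i, j ≤ i → i < mt → Cd Q U i (D i) (r i) y

end geo

section tree
variable {X α κ : Type} [SemilatticeSup α] [Preorder κ] (S : Sys X α κ)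

/-- trees of cells with the property `P` and leaves `Lf`. -/
def FQ (P : ℕ → X → Prop) (Lf : X → Prop) : ℕ → X → Prop
  | 0, x => Lf x
  | m + 1, x => S.Sepd (fun y => S.d x y ≤ S.ρ (m + 1) ∧ P m y ∧ FQ P Lf m y) (S.a1 + 1) (S.sep m)

/-- `k + 1` separated failing cells of level `m` in `A`. -/
def FT (P : ℕ → X → Prop) (Lf : X → Prop) (A : Finset X) (k m : ℕ) : Prop :=
  S.Sepd (fun y => y ∈ A ∧ FQ S P Lf m y) (k + 1) (S.sep m)

end tree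

section dyn
variable {L n T : ℕ} [NeZero L] [NeZero T] (ex ey : Fin T → Tor 3 L × Fin n)
  {α κ : Type} [SemilatticeSup α] [Preorder κ] (S : Sys (Tor 3 L) α κ) (G : Eg) (Q : Gp)

/-- space-time points. -/
abbrev Pt (L n T : ℕ) : Type := Fin T × (Tor 3 L × Fin n)

/-- children of the internal trees: all descendants are clean. -/
def Cp (U : ℕ → Tor 3 L → Prop) (l : ℕ) (y : Tor 3 L) : Prop := Fr U l (Q.dc l + S.loc l) y

/-- junk of the environment and of the red set. -/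
def Jr (U : ℕ → Tor 3 L → Prop) (Lf : Tor 3 L → Prop) (l : ℕ) (y : Tor 3 L) : Prop :=
  U l y ∨ FQ S (Cp S Q U) Lf l y

variable (p : Fin T → ℝ) (b : Pt L n T → ℝ)

open Classical in
/-- **leaf data**: the event `A` is dominated by sets of coins and weighted sets of points within
`r0` of `y`; both families cost `≤ η ^ 2`, also with `cF` added to the row sums. -/
def LfD (r0 k0 : ℕ) (η cF : ℝ) (y : Tor 3 L) (A : CR T (Tor 3 L × Fin n) → Prop) : Prop :=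
  ∃ (𝒮 : Finset (Finset (Fin T))) (𝒳 : Finset (Finset (Pt L n T))) (c r : Finset (Pt L n T) → ℝ),
    (∀ I ∈ 𝒮, ∀ s ∈ I, tdist y (ex s).1 ≤ r0 ∧ p s ≤ 1 / 2) ∧
    ∑ I ∈ 𝒮, ∏ s ∈ I, 6 * p s ≤ η ^ 2 ∧
    (∀ X ∈ 𝒳, 0 ≤ c X ∧ 0 ≤ r X ∧ X.card ≤ k0 ∧ (∀ v ∈ X, tdist y v.2.1 ≤ r0) ∧
      ((∀ v ∈ X, b v ≠ 0) → ∀ v ∈ X, ∑ u ∈ X, Sp.GA ex ey p b v u ≤ r X)) ∧
    ∑ X ∈ 𝒳, c X * (2 * Real.exp 1 * (r X + cF)) ^ X.card ≤ η ^ 2 ∧
    ∀ ω, Pos ex ey p b ω → A ω →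
      (∃ I ∈ 𝒮, ∀ s ∈ I, ω.1 s = true) ∨ 1 ≤ ∑ X ∈ 𝒳.filter (· ⊆ ω.2), c X

/-- far pairs with the target near `y`. -/
def Far (r0 d : ℕ) (γ : ℝ) (y : Tor 3 L) : Prop :=
  ∀ v u : Pt L n T, tdist y v.2.1 ≤ r0 → b v ≠ 0 → b u ≠ 0 → d ≤ tdist v.2.1 u.2.1 →
    Sp.GA ex ey p b v u ≤ γ

/-- the claims: pairs `Pr l y v u o` (target, source, offset) have `G ≤ c + o`. -/
def Bd (Pr : ℕ → Tor 3 L → Pt L n T → Pt L n T → ℝ → Prop) (l : ℕ) (y : Tor 3 L) (c : ℝ) : Prop :=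
  ∀ v u o, Pr l y v u o → Sp.GA ex ey p b v u ≤ c + o

/-- prices. -/
structure Pz where
  k0 : ℕ
  η : ℝ
  cF : ℝ
  dd : ℕ → ℕ
  γ : ℕ → ℝ
  ε : ℕ → ℝ

variable (P : Pz)

/-- numerics of the trees below the level `m`. -/
structure NT (m : ℕ) : Prop where
  d : ∀ x y, S.d x y = tdist x y
  a1 : 1 ≤ S.a1
  η : 0 ≤ P.η ∧ 2 * P.η ≤ P.ε 0
  cF : 0 < P.cF
  γ : ∀ k, 0 ≤ P.γ k ∧ ((S.a1 + 1 : ℕ) : ℝ) ^ (k + 1) * (P.k0 * (2 * P.γ k)) ≤ P.cF * (1 / 2) ^ (k + 1)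
  ε : ∀ k, 0 ≤ P.ε k
  rec' : ∀ k, k + 1 < m → ((2 * S.ρ (k + 1) + 1 : ℕ) ^ 3 * P.ε k) ^ (S.a1 + 1) ≤ P.ε (k + 1)
  sep : ∀ k < m, 1 ≤ P.dd k ∧ 2 * S.loc k + P.dd k ≤ S.sep k

/-- numerics of the geometry. -/
structure NG : Prop where
  c : G.c ≤ Q.c ∧ 1 ≤ G.c
  q : Q.N + S.a1 ≤ qf S G
  A : ∀ l < G.mt, G.A l ≤ Q.A l ∧ (G.c + 1) * G.σ l ≤ Q.A l ∧ Q.A l ≤ G.Rs l ∧ Q.A l + S.loc l ≤ Q.un l
  σ : ∀ l < G.mt, S.sep l ≤ G.σ l ∧ G.σ l ≤ Q.sg l ∧ Q.Rm l + Q.sg l ≤ G.W l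
  W : ∀ l < G.mt, G.Rs l + S.loc l ≤ Q.W l ∧ G.Rs l ≤ S.ρ (l + 1)
  un : ∀ l i, l < i → i < G.mt → G.Rs l + S.loc l ≤ Q.un i
  rr : ∀ l < G.mt, S.ρ 0 ≤ G.rr l
  hL : ∀ l < G.mt, 2 * (2 * G.Rs l + G.W l) < L
  fr : Q.fr ≤ Q.dc 0
  mt : 1 ≤ G.mt

/-- tube data at all points near `y`. -/
def TBn (l : ℕ) (J : ℕ → Tor 3 L → Prop) (y : Tor 3 L) : Prop :=
  ∀ x : Sd.V, tdist y (tcast L x) ≤ S.ρ 0 → TB S G l J x

/-- **the inputs of the reset step** in one member (`b'` = top field). -/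
structure RIn (b' : Pt L n T → ℝ) (U : ℕ → Tor 3 L → Prop)
    (Lf : CR T (Tor 3 L × Fin n) → Tor 3 L → Prop)
    (Pr : ℕ → Tor 3 L → Pt L n T → Pt L n T → ℝ → Prop) : Prop where
  hp : ∀ s, 0 ≤ p s ∧ p s ≤ 1
  hb : Fld b
  hb' : Fld b'
  le : ∀ v, b v ≤ b' v
  nt : NT S P G.mt
  ng : NG S G Q
  sum : ∀ l ≤ G.mt, ∑ i ∈ Ico l G.mt, ((2 * Q.A i + 1 : ℕ) ^ 3 * P.ε i +
    ((2 * S.ρ (i + 1) + 1 : ℕ) ^ 3 * P.ε i) ^ (S.a1 + 1)) ≤ P.γ l / 2
  mono : ∀ ξ R R' y, R ⊆ R' → Lf (ξ, R) y → Lf (ξ, R') y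
  zero : ∀ ξ y, Pw p ξ ≠ 0 → ¬ Lf (ξ, ∅) y
  far : ∀ l y v u, tdist y v.2.1 ≤ S.ρ 0 → b v ≠ 0 → b u ≠ 0 → P.dd l ≤ tdist v.2.1 u.2.1 →
    Pr l y v u 0
  /-- LEAF -/
  leaf : ∀ y, Fr U 0 Q.fr y → Bd ex ey p b Pr 0 y (2 * P.γ 0) →
    LfD ex ey p b (S.ρ 0) P.k0 P.η P.cF y fun ω => Lf ω y
  /-- QUENCHED: Green bounds from tube data, off an additional rare increasing event -/
  que : ∀ l ≤ G.mt, ∀ y v u o, Pr l y v u o →
    (l = 0 → Fr U 0 Q.fr y ∧ (Bd ex ey p b Pr 0 y (2 * P.γ 0) ∨ ∀ x, b (0, x) = 0)) →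
    ∃ (Bad : CR T (Tor 3 L × Fin n) → Prop) (g : ℝ), 0 ≤ g ∧ 1 / 2 ≤ b' u ∧
      (∀ ξ R R', R ⊆ R' → Bad (ξ, R) → Bad (ξ, R')) ∧ 2 * g + PR ex ey p b Bad ≤ P.γ l / 2 + o ∧
      ∀ ω, Pos ex ey p b ω → ¬ Bad ω → TBn S G l (Jr S Q U (Lf ω)) y → v ∉ ω.2 → u ∉ ω.2 →
        (WN.Gc ex ey p b' ω.2 ω.1 v u - if v = u then 1 else 0) ≤ g

/-- **(Reset)** actual radii `r i + un i ≤ r' i ≤ sg i`. -/
def ResetStmt : Prop :=
  ∀ b' U Lf Pr, RIn ex ey S G Q p b P b' U Lf Pr → ∀ l ≤ G.mt, ∀ (D : ℕ → Dat L) (r r' : ℕ → ℕ),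
    (∀ i, l ≤ i → i < G.mt → Val Q U i (D i) ∧ Q.fr ≤ r i ∧ r i + Q.un i ≤ r' i ∧ r' i ≤ Q.sg i) →
    (∀ j, l ≤ j → j ≤ G.mt → ∀ l0 ≤ j, ∀ y, Ty Q U G.mt j l0 D r y →
      Bd ex ey p b Pr l0 y (2 * P.γ l0)) →
    ∀ y, Ty Q U G.mt l l D r' y → Bd ex ey p b Pr l y (P.γ l)

/-- **(Base)** nothing is red. -/
def BaseStmt : Prop :=
  ∀ b' U Lf Pr, RIn ex ey S G Q p b P b' U Lf Pr → (∀ x, b (0, x) = 0) →
    ∀ l ≤ G.mt, ∀ (D : ℕ → Dat L) (r r' : ℕ → ℕ),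
    (∀ i, l ≤ i → i < G.mt → Val Q U i (D i) ∧ Q.fr ≤ r i ∧ r i + Q.un i ≤ r' i ∧ r' i ≤ Q.sg i) →
    ∀ y, Ty Q U G.mt l l D r' y → Bd ex ey p b Pr l y (P.γ l)

end dyn

end Crest.Agent.N337.G4.Rs
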